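import Vale.Agent.P159.H552.In5c
import Vale.Agent.P159.H145.Loc2T

/-!
P159 / module IN5, part d (helper552): the torus. Cell densities `ut` of the weight `wt N b t`
(scalar mass): charge one, continuity, sup bound, Lipschitz bound, locality from `Far` of helper612.
-/

namespace Vale.Agent.P159.H552

open MeasureTheory Set
open Vale.Agent.P159.TM.H104 (EM Lg Ex Cv Gr li T)
open Vale.Agent.P159.TM.SpecC (Tor wT)
open Vale.Agent.P159.T1.H897 (Hol)
open Vale.Agent.P159.H37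
open Vale.Agent.P159.H145
open Vale.Agent.P159.H43 (dL dL0 el el1 dW dPh hasDerivAt_LM continuous_dL cs_line)
open Vale.Agent.P159.H896 (ph continuous_ph norm_ph ph_add ph_per)
open Vale.Agent.P159.H363 (Ch Loc mainf)
open Vale.Agent.P159.H612 (Far)

noncomputable section

variable {N : ℕ} [NeZero N] {b t : ℝ} {Λ : Type*} [DecidableEq Λ] {cl : Tor N → Λ}

/-- charge-one cell density of the torus weight with scalar mass `t` -/
def ut (N : ℕ) [NeZero N] (b t : ℝ) (cl : Tor N → Λ) (x : Λ) (F : Λ → ℝ) : ℂ :=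
  uq (wT b N) (mt N t) cl x F

theorem ut_ch (hb : 0 ≤ b) (ht : 0 < t) (x : Λ) : Ch (ut N b t cl x) :=
  ch_uq per_wT mt_symm (em_mt hb ht) x

theorem ut_cont (hb : 0 ≤ b) (ht : 0 < t) (x : Λ) : Continuous (ut N b t cl x) :=
  continuous_uq (em_mt hb ht) x

/-- number of sites of a cell -/
def nc (cl : Tor N → Λ) (x : Λ) : ℝ := ∑ v : Tor N, idc cl x v

lemma idc_nonneg (x : Λ) (v : Tor N) : 0 ≤ idc cl x v := by
  unfold idc
  split_ifs <;> norm_num

lemma nc_eq (x : Λ) : nc cl x = ((Finset.univ.filter fun v => cl v = x).card : ℝ) := by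
  unfold nc idc
  rw [Finset.sum_boole]

lemma bf_mt_one (x : Λ) : bf (mt N t) 1 (idc cl x) = t * nc cl x := by
  rw [bf_mt]
  simp [nc]

/-- **sup bound in every real field** -/
theorem ut_le (hb : 0 ≤ b) (ht : 0 < t) (x : Λ) (F : Λ → ℝ) :
    ‖ut N b t cl x F‖ ≤ (2 * Real.pi)⁻¹ * (t * nc cl x) := by
  have h := norm_uq_le (w := wT b N) (M := mt N t) (cl := cl) (x := x) per_wT mt_symm
    (em_mt hb ht) (H159.hol_wt hb N t) (fun v => by
      rw [mt_mulVec]
      exact mul_nonneg ht.le (idc_nonneg x v)) (fun v => by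
      rw [mt_mulVec]
      exact mul_nonneg ht.le (by norm_num)) F
  rwa [bf_mt_one] at h

/-- **Lipschitz bound in every real field** -/
theorem ut_lip (hb : 0 ≤ b) (ht : 0 < t) (x : Λ) (F F' : Λ → ℝ) (k : ℝ)
    (hk : ∀ v, |F v - F' v| ≤ k) :
    ‖ut N b t cl x F - ut N b t cl x F'‖ ≤ Real.pi⁻¹ * (t * nc cl x) * k := by
  unfold ut uq
  rw [← mul_sub, norm_mul, norm_two_pi_I_inv]
  have h := dW_lip (w := wT b N) (t := t) per_wT ht (em_mt hb ht) (H159.hol_wt hb N t)
    (g := idc cl x) (idc_nonneg x) one_ne_zero (F := lft cl F) (F' := lft cl F') (K := k)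
    fun v => hk (cl v)
  have h2 := mul_le_mul_of_nonneg_left h (by positivity : (0 : ℝ) ≤ (2 * Real.pi)⁻¹)
  refine h2.trans (le_of_eq ?_)
  unfold nc
  have := Real.pi_pos
  field_simp

/-- locality from `Far`, hypothesis on `Tq` along the segment -/
theorem ut_loc_seg (hb : 0 ≤ b) (ht : 0 < t) {x : Λ} {B : Finset Λ} {F : Λ → ℝ} {A A' r τ : ℝ}
    (hA : 0 ≤ A) (hA' : 0 ≤ A') (hr : 0 ≤ r)
    (hf : Far (wt N b t) (t • idc cl x) (t • (lft cl F - lft cl (cutB B x F))) A A' r)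
    (hτ : ∀ c ∈ Icc (0 : ℝ) 1, ∀ s ∈ Icc (0 : ℝ) 1,
      Tq (wt N b t) (t • cs (lft cl (cutB B x F) + s • (lft cl F - lft cl (cutB B x F))) c) ≤ τ) :
    ‖ut N b t cl x F - ut N b t cl x (cutB B x F)‖
      ≤ (2 * Real.pi)⁻¹ * (Real.exp (τ / 2) * A * A' * r) := by
  unfold ut uq
  rw [← mul_sub, norm_mul, norm_two_pi_I_inv]
  refine mul_le_mul_of_nonneg_left ?_ (by positivity)
  set G := lft cl F with hG
  set G' := lft cl (cutB B x F) with hG'
  have h := dW_sub_le' (w := wT b N) (M := mt N t) (em_mt hb ht) (q := 1) one_ne_zero G G'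
    (idc cl x) (h := fun _ => Real.exp (τ / 2) * A * A' * r) continuous_const (fun c hc => by
      have e1 : (mt N t).mulVec (cs G c) = t • cs G' c + t • (G - G') := by
        rw [mt_mulVec, ← smul_add]
        congr 1
        funext v
        simp only [cs, Pi.add_apply, Pi.sub_apply]
        ring
      have e2 : (mt N t).mulVec (cs G' c) = t • cs G' c := mt_mulVec _
      have e3 : (mt N t).mulVec (idc cl x) = t • idc cl x := mt_mulVec _
      rw [e1, e2, e3]
      have hE : EM (wt N b t) := em_mt hb ht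
      obtain ⟨s, hs, hse⟩ := H612.Ex_li_diff hE (t • cs G' c) (t • (G - G')) (t • idc cl x)
      have hse' : Ex (wM (wT b N) (mt N t)) (t • cs G' c + t • (G - G')) (li (t • idc cl x))
          - Ex (wM (wT b N) (mt N t)) (t • cs G' c) (li (t • idc cl x))
          = Cv (wt N b t) (t • cs G' c + s • (t • (G - G'))) (li (t • idc cl x))
            (li (t • (G - G'))) := hse
      rw [hse']
      refine (hf.bg _).trans ?_
      have e4 : t • cs G' c + s • (t • (G - G')) = t • cs (G' + s • (G - G')) c := by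
        funext v
        simp only [cs, Pi.add_apply, Pi.sub_apply, Pi.smul_apply, smul_eq_mul]
        ring
      rw [e4]
      have h2 := hτ c hc s hs
      gcongr)
  simpa using h

/-- locality from `Far`, hypothesis on the neutral `T⁰` along the segment -/
theorem ut_loc_T0 (hb : 0 ≤ b) (ht : 0 < t) {ω : ℝ} (hO : OscZ (wT b N) (mt N t) ω)
    (hω : ω ≤ 1 / 2) {x : Λ} {B : Finset Λ} {F : Λ → ℝ} {A A' r τ : ℝ}
    (hA : 0 ≤ A) (hA' : 0 ≤ A') (hr : 0 ≤ r)
    (hf : Far (wt N b t) (t • idc cl x) (t • (lft cl F - lft cl (cutB B x F))) A A' r)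
    (hτ : ∀ s ∈ Icc (0 : ℝ) 1,
      T0 (wT b N) (mt N t) (lft cl (cutB B x F) + s • (lft cl F - lft cl (cutB B x F))) ≤ τ) :
    ‖ut N b t cl x F - ut N b t cl x (cutB B x F)‖
      ≤ (2 * Real.pi)⁻¹ * (Real.exp ((τ + 16 * ω) / 2) * A * A' * r) := by
  refine ut_loc_seg hb ht hA hA' hr hf fun c _ s hs => ?_
  have h1 := (abs_le.1 (Tq_le_T0 per_wT mt_symm (em_mt hb ht) hO hω
    (lft cl (cutB B x F) + s • (lft cl F - lft cl (cutB B x F))) c)).2
  have h2 := hτ s hs
  rw [mt_mulVec] at h1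
  have h3 : Tq (wt N b t) (t • cs (lft cl (cutB B x F) +
      s • (lft cl F - lft cl (cutB B x F))) c) = Tq (wM (wT b N) (mt N t))
      (t • cs (lft cl (cutB B x F) + s • (lft cl F - lft cl (cutB B x F))) c) := rfl
  rw [h3]
  linarith

/-- locality from `Far`, hypothesis on `Rs (2 ·)` at the two end points -/
theorem ut_loc_Rs (hb : 0 ≤ b) (ht : 0 < t) {x : Λ} {B : Finset Λ} {F : Λ → ℝ} {A A' r τ : ℝ}
    (hA : 0 ≤ A) (hA' : 0 ≤ A') (hr : 0 ≤ r)
    (hf : Far (wt N b t) (t • idc cl x) (t • (lft cl F - lft cl (cutB B x F))) A A' r)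
    (h0 : ∀ c ∈ Icc (0 : ℝ) 1,
      Rs (wt N b t) ((2 : ℝ) • (t • cs (lft cl (cutB B x F)) c)) ≤ τ)
    (h1 : ∀ c ∈ Icc (0 : ℝ) 1, Rs (wt N b t) ((2 : ℝ) • (t • cs (lft cl F) c)) ≤ τ) :
    ‖ut N b t cl x F - ut N b t cl x (cutB B x F)‖
      ≤ (2 * Real.pi)⁻¹ * (Real.exp (τ / 2) * A * A' * r) := by
  refine ut_loc_seg hb ht hA hA' hr hf fun c hc s hs => ?_
  set G := lft cl F
  set G' := lft cl (cutB B x F)
  have e4 : t • cs (G' + s • (G - G')) c = t • cs G' c + s • (t • (G - G')) + (0 : ℝ) • 0 := by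
    funext v
    simp only [cs, Pi.add_apply, Pi.sub_apply, Pi.smul_apply, smul_eq_mul, Pi.zero_apply]
    ring
  have e5 : t • cs G' c + t • (G - G') = t • cs G c := by
    rw [← smul_add]
    congr 1
    funext v
    simp only [cs, Pi.add_apply, Pi.sub_apply]
    ring
  rw [e4]
  refine H612.hull (H789.em_wt hb ht) H789.ev_wt (H789.pk_wt hb ht) (h0 c hc) ?_ ?_ ?_ hs
    ⟨le_rfl, zero_le_one⟩
  · rw [e5]; exact h1 c hc
  · rw [add_zero]; exact h0 c hc
  · rw [add_zero, e5]; exact h1 c hc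

end

end Vale.Agent.P159.H552
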