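import Vale.Agent.P159.H552.GauHS

/-!
P159 / module GauHS, matrix form (helper552): laws of `A g`, change of covariance
`B₂ B₂ᵀ = B₁ (1 + H) B₁ᵀ`, `tr H² ≤ η²`.
-/

namespace Vale.Agent.P159.H552

open MeasureTheory ProbabilityTheory Finset Matrix
open Vale.Agent.P159.H37 (gau)

noncomputable section

variable {I I' J : Type*} [Fintype I] [Fintype I'] [Fintype J]

/-- characteristic function of the standard Gaussian vector -/
lemma gau_char (c : I → ℝ) :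
    ∫ g, Complex.exp (((∑ i, c i * g i : ℝ) : ℂ) * Complex.I) ∂(gau I)
      = Complex.exp (-((∑ i, c i ^ 2 : ℝ) : ℂ) / 2) := by
  have e : ∀ g : I → ℝ, Complex.exp (((∑ i, c i * g i : ℝ) : ℂ) * Complex.I)
      = ∏ i, Complex.exp ((c i * g i : ℝ) * Complex.I) := by
    intro g
    rw [← Complex.exp_sum]
    congr 1
    push_cast
    rw [Finset.sum_mul]
  simp only [e]
  unfold gau
  rw [integral_fintype_prod_eq_prod (𝕜 := ℂ)
    (fun (i : I) (x : ℝ) => Complex.exp ((c i * x : ℝ) * Complex.I))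
    (μ := fun _ => gaussianReal 0 1)]
  have h1 : ∀ i, ∫ x, Complex.exp ((c i * x : ℝ) * Complex.I) ∂(gaussianReal 0 1)
      = Complex.exp (-((c i : ℂ) ^ 2) / 2) := by
    intro i
    have h := charFun_gaussianReal (μ := 0) (v := 1) (c i)
    rw [charFun_apply_real] at h
    have h2 : ∀ x : ℝ, Complex.exp ((c i * x : ℝ) * Complex.I)
        = Complex.exp ((c i : ℂ) * x * Complex.I) := fun x => by push_cast; rfl
    simp only [h2]
    rw [h]
    congr 1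
    push_cast
    ring
  simp only [h1]
  rw [← Complex.exp_sum]
  congr 1
  push_cast
  rw [← Finset.sum_div, Finset.sum_neg_distrib]

lemma meas_mulVec (A : Matrix J I ℝ) : Measurable fun g : I → ℝ => A *ᵥ g := by
  refine measurable_pi_iff.2 fun j => ?_
  simp only [mulVec, dotProduct]
  fun_prop

lemma gau_charDual (C : Matrix J I ℝ) (L : StrongDual ℝ (J → ℝ)) (l : J → ℝ)
    (hL : ∀ v : J → ℝ, L v = l ⬝ᵥ v) :
    ∫ v, Complex.exp (((L v : ℝ) : ℂ) * Complex.I) ∂((gau I).map fun g => C *ᵥ g)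
      = Complex.exp (-((l ⬝ᵥ (C * Cᵀ) *ᵥ l : ℝ) : ℂ) / 2) := by
  rw [integral_map (meas_mulVec C).aemeasurable
    (by
      have : Continuous fun v : J → ℝ => Complex.exp (((L v : ℝ) : ℂ) * Complex.I) := by
        fun_prop
      exact this.aestronglyMeasurable)]
  have e : ∀ g : I → ℝ, L (C *ᵥ g) = ∑ i, (Cᵀ *ᵥ l) i * g i := by
    intro g
    rw [hL, dotProduct_mulVec, ← mulVec_transpose]
    rfl
  simp only [e]
  rw [gau_char]
  congr 3
  rw [← mulVec_mulVec, dotProduct_mulVec, ← mulVec_transpose]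
  simp only [dotProduct, sq]

/-- the law of `A g` depends on `A Aᵀ` only -/
lemma gau_law_eq {A : Matrix J I ℝ} {B : Matrix J I' ℝ} (h : A * Aᵀ = B * Bᵀ) :
    (gau I).map (fun g => A *ᵥ g) = (gau I').map (fun g => B *ᵥ g) := by
  classical
  have : IsProbabilityMeasure ((gau I).map fun g => A *ᵥ g) :=
    Measure.isProbabilityMeasure_map (meas_mulVec A).aemeasurable
  have : IsProbabilityMeasure ((gau I').map fun g => B *ᵥ g) :=
    Measure.isProbabilityMeasure_map (meas_mulVec B).aemeasurable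
  refine Measure.ext_of_charFunDual (funext fun L => ?_)
  rw [charFunDual_apply, charFunDual_apply]
  have hL : ∀ v : J → ℝ, L v = (fun j => L (Pi.single j 1)) ⬝ᵥ v := by
    intro v
    conv_lhs => rw [← Finset.univ_sum_single v]
    rw [map_sum]
    simp only [dotProduct]
    refine Finset.sum_congr rfl fun j _ => ?_
    have : (Pi.single j (v j) : J → ℝ) = v j • Pi.single j 1 := by
      funext k
      by_cases hk : k = j
      · subst hk; simp
      · simp [Pi.single_eq_of_ne hk]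
    rw [this, map_smul, smul_eq_mul, mul_comm]
  rw [gau_charDual A L _ hL, gau_charDual B L _ hL, h]

/-- equality in law, for integrals of measurable functions -/
lemma gau_int_eq {A : Matrix J I ℝ} {B : Matrix J I' ℝ} (h : A * Aᵀ = B * Bᵀ)
    {f : (J → ℝ) → ℝ} (hf : Measurable f) :
    ∫ g, f (A *ᵥ g) ∂(gau I) = ∫ g, f (B *ᵥ g) ∂(gau I') := by
  rw [← integral_map (meas_mulVec A).aemeasurable hf.aestronglyMeasurable, gau_law_eq h,
    integral_map (meas_mulVec B).aemeasurable hf.aestronglyMeasurable]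

lemma gau_integrable_iff {A : Matrix J I ℝ} {B : Matrix J I' ℝ} (h : A * Aᵀ = B * Bᵀ)
    {f : (J → ℝ) → ℝ} (hf : Measurable f) :
    Integrable (fun g => f (A *ᵥ g)) (gau I) ↔ Integrable (fun g => f (B *ᵥ g)) (gau I') := by
  have h1 := integrable_map_measure (μ := gau I) (f := fun g => A *ᵥ g) (g := f)
    hf.aestronglyMeasurable (meas_mulVec A).aemeasurable
  have h2 := integrable_map_measure (μ := gau I') (f := fun g => B *ᵥ g) (g := f)
    hf.aestronglyMeasurable (meas_mulVec B).aemeasurable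
  rw [gau_law_eq h] at h1
  exact (h1.symm.trans h2)

/-- real spectral theorem -/
lemma spec_real [DecidableEq I] {H : Matrix I I ℝ} (hH : Hᵀ = H) :
    ∃ (O : Matrix I I ℝ) (a : I → ℝ), O * Oᵀ = 1 ∧ Oᵀ * O = 1 ∧ H = O * diagonal a * Oᵀ ∧
      ∑ i, a i ^ 2 = ∑ x, ∑ y, H x y ^ 2 := by
  have hH' : H.IsHermitian := by
    rw [IsHermitian, conjTranspose_eq_transpose_of_trivial]; exact hH
  set O : Matrix I I ℝ := (hH'.eigenvectorUnitary : Matrix I I ℝ) with hO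
  have h1 : O * Oᵀ = 1 := by
    have := Unitary.mul_star_self_of_mem hH'.eigenvectorUnitary.2
    rwa [star_eq_conjTranspose, conjTranspose_eq_transpose_of_trivial] at this
  have h2 : Oᵀ * O = 1 := by
    have := Unitary.star_mul_self_of_mem hH'.eigenvectorUnitary.2
    rwa [star_eq_conjTranspose, conjTranspose_eq_transpose_of_trivial] at this
  have h3 : H = O * diagonal hH'.eigenvalues * Oᵀ := by
    have h := hH'.spectral_theorem
    rw [Unitary.conjStarAlgAut_apply, star_eq_conjTranspose,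
      conjTranspose_eq_transpose_of_trivial] at h
    exact h
  refine ⟨O, hH'.eigenvalues, h1, h2, h3, ?_⟩
  have h4 : ∑ x, ∑ y, H x y ^ 2 = trace (H * Hᵀ) := by
    simp only [trace, diag_apply, mul_apply, transpose_apply, sq]
  rw [h4, hH]
  have h5 : H * H = O * (diagonal hH'.eigenvalues * diagonal hH'.eigenvalues) * Oᵀ := by
    conv_lhs => rw [h3]
    rw [show O * diagonal hH'.eigenvalues * Oᵀ * (O * diagonal hH'.eigenvalues * Oᵀ)
      = O * diagonal hH'.eigenvalues * (Oᵀ * O) * diagonal hH'.eigenvalues * Oᵀ by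
        simp only [Matrix.mul_assoc], h2, Matrix.mul_one]
    simp only [Matrix.mul_assoc]
  rw [h5, trace_mul_comm, ← Matrix.mul_assoc, h2, Matrix.one_mul, diagonal_mul_diagonal,
    trace_diagonal]
  simp only [sq]

/-- the scaled representation of the second law -/
lemma hs_repr [DecidableEq I] {B₁ : Matrix J I ℝ} {B₂ : Matrix J I' ℝ} {H O : Matrix I I ℝ}
    {a : I → ℝ} (hO : O * Oᵀ = 1) (hH : H = O * diagonal a * Oᵀ) (ha : ∀ i, 0 < 1 + a i)
    (h : B₂ * B₂ᵀ = B₁ * (1 + H) * B₁ᵀ) :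
    B₂ * B₂ᵀ = (B₁ * O * diagonal fun i => √(1 + a i)) *
      (B₁ * O * diagonal fun i => √(1 + a i))ᵀ := by
  have h1 : (1 : Matrix I I ℝ) + H
      = O * diagonal (fun i => √(1 + a i)) * diagonal (fun i => √(1 + a i)) * Oᵀ := by
    rw [Matrix.mul_assoc O, diagonal_mul_diagonal]
    have e : (diagonal fun i => √(1 + a i) * √(1 + a i)) = 1 + diagonal a := by
      rw [← diagonal_one, diagonal_add]
      congr 1
      funext i
      rw [Real.mul_self_sqrt (ha i).le]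
    rw [e, Matrix.mul_add, Matrix.add_mul, Matrix.mul_one, hO, ← hH]
  rw [h, h1]
  simp only [transpose_mul, diagonal_transpose, Matrix.mul_assoc]

lemma mulVec_diag [DecidableEq I] (A : Matrix J I ℝ) (d g : I → ℝ) :
    (A * diagonal d) *ᵥ g = A *ᵥ fun i => d i * g i := by
  rw [← mulVec_mulVec]
  congr 1
  funext i
  rw [mulVec_diagonal]

/-- **(V8)**: `B₂ B₂ᵀ = B₁ (1 + H) B₁ᵀ`, `|H|_HS ≤ η ≤ 1/2`, `0 ≤ f ≤ B`, `κ ≥ 1`:
`E f(B₂ g) ≤ κ E f(B₁ g) + 2 B κ^(-1/(2η))` -/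
theorem hs_le [DecidableEq I] {B₁ : Matrix J I ℝ} {B₂ : Matrix J I' ℝ} {H : Matrix I I ℝ}
    (hH : Hᵀ = H) (h : B₂ * B₂ᵀ = B₁ * (1 + H) * B₁ᵀ) {η κ B : ℝ} (hη : 0 < η) (hη2 : η ≤ 1 / 2)
    (hκ : 1 ≤ κ) (hHS : ∑ x, ∑ y, H x y ^ 2 ≤ η ^ 2) {f : (J → ℝ) → ℝ} (hf : Measurable f)
    (hf0 : ∀ g, 0 ≤ f g) (hfB : ∀ g, f g ≤ B) :
    ∫ g, f (B₂ *ᵥ g) ∂(gau I') ≤ κ * ∫ g, f (B₁ *ᵥ g) ∂(gau I) + 2 * B * κ ^ (-(1 / (2 * η))) := by
  obtain ⟨O, a, hO1, _, hHO, hsum⟩ := spec_real hH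
  rw [← hsum] at hHS
  have ha1 : ∀ i, 0 < 1 + a i := fun i => by
    have h1 : a i ^ 2 ≤ η ^ 2 :=
      (Finset.single_le_sum (f := fun i => a i ^ 2) (fun j _ => sq_nonneg _)
        (Finset.mem_univ i)).trans hHS
    have := (abs_le.1 (abs_le_of_sq_le_sq h1 hη.le)).1
    linarith
  have e2 := hs_repr hO1 hHO ha1 h
  rw [gau_int_eq e2 hf]
  have e1 : B₁ * B₁ᵀ = (B₁ * O) * (B₁ * O)ᵀ := by
    rw [transpose_mul, Matrix.mul_assoc, ← Matrix.mul_assoc O, hO1, Matrix.one_mul]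
  rw [gau_int_eq e1 hf]
  simp only [mulVec_diag]
  exact diag_le (f := fun x => f ((B₁ * O) *ᵥ x)) hη hη2 hκ hHS (hf.comp (meas_mulVec _))
    (fun g => hf0 _) fun g => hfB _

/-- the reverse inequality -/
theorem hs_ge [DecidableEq I] {B₁ : Matrix J I ℝ} {B₂ : Matrix J I' ℝ} {H : Matrix I I ℝ}
    (hH : Hᵀ = H) (h : B₂ * B₂ᵀ = B₁ * (1 + H) * B₁ᵀ) {η κ B : ℝ} (hη : 0 < η) (hη2 : η ≤ 1 / 4)
    (hκ : 1 ≤ κ) (hHS : ∑ x, ∑ y, H x y ^ 2 ≤ η ^ 2) {f : (J → ℝ) → ℝ} (hf : Measurable f)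
    (hf0 : ∀ g, 0 ≤ f g) (hfB : ∀ g, f g ≤ B) :
    ∫ g, f (B₁ *ᵥ g) ∂(gau I) ≤ κ * ∫ g, f (B₂ *ᵥ g) ∂(gau I') + 2 * B * κ ^ (-(1 / (4 * η))) := by
  obtain ⟨O, a, hO1, _, hHO, hsum⟩ := spec_real hH
  rw [← hsum] at hHS
  have hai : ∀ i, |a i| ≤ η := fun i => by
    have h1 : a i ^ 2 ≤ η ^ 2 :=
      (Finset.single_le_sum (f := fun i => a i ^ 2) (fun j _ => sq_nonneg _)
        (Finset.mem_univ i)).trans hHS
    exact abs_le_of_sq_le_sq h1 hη.le
  have ha1 : ∀ i, 0 < 1 + a i := fun i => by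
    have := (abs_le.1 (hai i)).1
    linarith
  have e2 := hs_repr hO1 hHO ha1 h
  rw [gau_int_eq e2 hf]
  have e1 : B₁ * B₁ᵀ = (B₁ * O) * (B₁ * O)ᵀ := by
    rw [transpose_mul, Matrix.mul_assoc, ← Matrix.mul_assoc O, hO1, Matrix.one_mul]
  rw [gau_int_eq e1 hf]
  simp only [mulVec_diag]
  -- `1 + a' = 1 / (1 + a)`
  set a' : I → ℝ := fun i => -(a i) / (1 + a i) with ha'
  have hs : ∑ i, a' i ^ 2 ≤ (2 * η) ^ 2 := by
    have h1 : ∀ i, a' i ^ 2 ≤ 4 * a i ^ 2 := by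
      intro i
      have h2 : (1 : ℝ) / 2 ≤ 1 + a i := by
        have := (abs_le.1 (hai i)).1
        linarith
      simp only [ha', div_pow, neg_sq]
      rw [div_le_iff₀ (by positivity)]
      have h3 : (1 : ℝ) / 4 ≤ (1 + a i) ^ 2 := by nlinarith
      nlinarith [sq_nonneg (a i)]
    calc ∑ i, a' i ^ 2 ≤ ∑ i, 4 * a i ^ 2 := Finset.sum_le_sum fun i _ => h1 i
      _ = 4 * ∑ i, a i ^ 2 := by rw [Finset.mul_sum]
      _ ≤ (2 * η) ^ 2 := by nlinarith
  have hinv : ∀ i, 1 + a' i = (1 + a i)⁻¹ := fun i => by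
    simp only [ha']
    field_simp [(ha1 i).ne']
    ring
  have h3 := diag_le (a := a') (f := fun x => f ((B₁ * O) *ᵥ fun i => √(1 + a i) * x i))
    (by linarith : 0 < 2 * η) (by linarith) hκ hs
    (hf.comp ((meas_mulVec _).comp (by fun_prop))) (fun g => hf0 _) fun g => hfB _
  have e3 : ∀ g : I → ℝ, (fun i => √(1 + a i) * (√(1 + a' i) * g i)) = g := by
    intro g
    funext i
    rw [hinv i, Real.sqrt_inv, ← mul_assoc, mul_inv_cancel₀ (Real.sqrt_pos.2 (ha1 i)).ne', one_mul]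
  simp only [e3] at h3
  have e4 : 1 / (2 * (2 * η)) = 1 / (4 * η) := by ring
  rwa [e4] at h3

/-- `L²` form: `|E f(B₂ g) - E f(B₁ g)| ≤ 2 η (E f(B₁ g)²)^(1/2)` -/
theorem hs_l2 [DecidableEq I] {B₁ : Matrix J I ℝ} {B₂ : Matrix J I' ℝ} {H : Matrix I I ℝ}
    (hH : Hᵀ = H) (h : B₂ * B₂ᵀ = B₁ * (1 + H) * B₁ᵀ) {η : ℝ} (hη : 0 ≤ η) (hη2 : η ≤ 1 / 2)
    (hHS : ∑ x, ∑ y, H x y ^ 2 ≤ η ^ 2) {f : (J → ℝ) → ℝ} (hf : Measurable f)
    (hf2 : Integrable (fun g => f (B₁ *ᵥ g) ^ 2) (gau I)) :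
    Integrable (fun g => f (B₂ *ᵥ g)) (gau I') ∧
    (∫ g, f (B₂ *ᵥ g) ∂(gau I') - ∫ g, f (B₁ *ᵥ g) ∂(gau I)) ^ 2
      ≤ 4 * η ^ 2 * ∫ g, f (B₁ *ᵥ g) ^ 2 ∂(gau I) := by
  obtain ⟨O, a, hO1, _, hHO, hsum⟩ := spec_real hH
  rw [← hsum] at hHS
  have ha1 : ∀ i, 0 < 1 + a i := fun i => by
    have h1 : a i ^ 2 ≤ η ^ 2 :=
      (Finset.single_le_sum (f := fun i => a i ^ 2) (fun j _ => sq_nonneg _)
        (Finset.mem_univ i)).trans hHS
    have := (abs_le.1 (abs_le_of_sq_le_sq h1 hη)).1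
    linarith
  have e2 := hs_repr hO1 hHO ha1 h
  have e1 : B₁ * B₁ᵀ = (B₁ * O) * (B₁ * O)ᵀ := by
    rw [transpose_mul, Matrix.mul_assoc, ← Matrix.mul_assoc O, hO1, Matrix.one_mul]
  have hf2m : Measurable fun v => f v ^ 2 := hf.pow_const 2
  rw [gau_integrable_iff e2 hf, gau_int_eq e2 hf, gau_int_eq e1 hf,
    gau_int_eq e1 (f := fun v => f v ^ 2) hf2m]
  rw [gau_integrable_iff e1 (f := fun v => f v ^ 2) hf2m] at hf2
  simp only [mulVec_diag]
  exact diag_l2 (f := fun x => f ((B₁ * O) *ᵥ x)) hη hη2 hHS (hf.comp (meas_mulVec _)) hf2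

end

end Vale.Agent.P159.H552
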