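import Vale.Agent.P159.H552.Tl8
import Vale.Agent.P159.H145.Lw3
import Vale.Agent.P159.H37.Fp3

/-!
P159, helper552, module Lq1: the level form of `Q` of the bad set, in the letters of `KnW` / `loc_V`.
-/

open MeasureTheory Filter Topology Finset Matrix

set_option linter.all false

namespace Vale.Agent.P159.H552.Lq

open Vale.Agent.P159 Vale.Agent.P159.TM.H331 Vale.Agent.P159.H253.Rec
open Vale.Agent.P159.H770 (wTD Ed wTD_zero gwf_wTD)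
open Vale.Agent.P159.H883 (nuM Psi BW Zp CT CT_pos)
open Vale.Agent.P159.TM.Spec (V)
open Vale.Agent.P159.TM.SpecC (wT)
open Vale.Agent.P159.H773 (sd ax0 nuF PsF cMn Pth cT0 cMn_pt sd_ge)
open Vale.Agent.P159.H27 (Rb)
open Vale.Agent.P159.H145.Lw (KnW)
open Vale.Agent.P159.H552.Sm (Ag)

noncomputable section

variable {b : ℝ}

/-- the number of `Q` -/
def qE (C Δ ν1 ν2 : ℝ) : ℝ := Real.exp (C + 4 * Δ) * (Real.sqrt ν1 + Real.sqrt ν2)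

lemma qE_nonneg (C Δ ν1 ν2 : ℝ) : 0 ≤ qE C Δ ν1 ν2 :=
  mul_nonneg (Real.exp_pos _).le (add_nonneg (Real.sqrt_nonneg _) (Real.sqrt_nonneg _))

/-- the number of `Q`, 145's form (f) -/
lemma qE_le {C Δ ν1 ν2 Z : ℝ} (hZ : 0 ≤ Z) (h1 : C + 4 * Δ ≤ Z / 4)
    (h2 : ν1 ≤ Real.exp (-(5 * Z))) :
    qE C Δ ν1 ν2 ≤ Real.exp (-(2 * Z)) + Real.exp (Z / 4) * Real.sqrt ν2 := by
  unfold qE
  have h3 : Real.sqrt ν1 ≤ Real.exp (-(5 * Z / 2)) := by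
    refine Real.sqrt_le_iff.2 ⟨(Real.exp_pos _).le, h2.trans (le_of_eq ?_)⟩
    rw [← Real.exp_nat_mul]
    congr 1
    push_cast
    ring
  have h4 : Real.exp (C + 4 * Δ) ≤ Real.exp (Z / 4) := Real.exp_le_exp.2 h1
  rw [mul_add]
  refine add_le_add ?_ (mul_le_mul_of_nonneg_right h4 (Real.sqrt_nonneg _))
  calc Real.exp (C + 4 * Δ) * Real.sqrt ν1 ≤ Real.exp (Z / 4) * Real.exp (-(5 * Z / 2)) :=
        mul_le_mul h4 h3 (Real.sqrt_nonneg _) (Real.exp_pos _).le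
    _ = Real.exp (Z / 4 + -(5 * Z / 2)) := (Real.exp_add _ _).symm
    _ ≤ Real.exp (-(2 * Z)) := Real.exp_le_exp.2 (by linarith)

lemma log_ratio {R : ℕ} (hR : 8 ≤ R) :
    1 ≤ R / 8 ∧ 8 * (R / 8) ≤ R ∧ Real.log ((R : ℝ) / (R / 8 : ℕ)) ≤ 3 := by
  have h1 : 1 ≤ R / 8 := by omega
  have h2 : 8 * (R / 8) ≤ R := Nat.mul_div_le R 8
  refine ⟨h1, h2, ?_⟩
  have h3 : R ≤ 15 * (R / 8) := by omega
  have h4 : (0 : ℝ) < (R / 8 : ℕ) := by exact_mod_cast h1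
  have h5 : (R : ℝ) / (R / 8 : ℕ) ≤ 15 := by
    rw [div_le_iff₀ h4]
    exact_mod_cast h3
  have h6 : (0 : ℝ) < R := by
    have : 0 < R := by omega
    exact_mod_cast this
  have h7 : (15 : ℝ) ≤ Real.exp 3 := by
    have h8 : Real.exp 3 = Real.exp 1 ^ 3 := by rw [← Real.exp_nat_mul]; norm_num
    rw [h8]
    have h9 : (2.7 : ℝ) ≤ Real.exp 1 := by have := Real.exp_one_gt_d9; linarith
    calc (15 : ℝ) ≤ 2.7 ^ 3 := by norm_num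
      _ ≤ _ := pow_le_pow_left₀ (by norm_num) h9 3
  calc Real.log ((R : ℝ) / (R / 8 : ℕ)) ≤ Real.log 15 := Real.log_le_log (by positivity) h5
    _ ≤ Real.log (Real.exp 3) := Real.log_le_log (by norm_num) h7
    _ = 3 := Real.log_exp 3

/-- `Q` of a far pair, smearing radius `R/8` -/
theorem pair_q (hb : 0 < b) {α C1 k : ℝ} (hα : 1 / 4 ≤ α) (hα2 : α < 1 / 2) (hC1 : 0 ≤ C1)
    (hk : 0 < k) :
    ∃ C : ℝ, 0 ≤ C ∧ ∀ (N : ℕ) [NeZero N] (L R : ℕ) (η : Ed N → ℤ) (φ : V N → ℝ) (p q : V N),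
      8 ≤ R → RecAt b α C1 R → R ≤ 2 * H817.sz (q - p) → H817.sz (q - p) ≤ 4 * R → 16 * R ≤ N →
      H817.IsPath p q (H817.v1 p q) (H817.v2 p q) L η → k * ga b R ≤ CT N b η →
      ∀ (t r Δ : ℝ), 0 < t → 0 ≤ r → r ≤ 2 → 0 ≤ Δ →
      H856.Dl.Del (wTD N b) (t • 1) t 0 η φ ≤ Δ → ∀ E : Set (V N → ℝ), MeasurableSet E →
      ∫ F in E, Psi (wT b N) (wTD N b η) (t • 1) φ F ∂(nuM (wT b N) (t • 1) 0) ≤
        qE C Δ ((nuM (wT b N) (t • 1) 0).real (Ag (wTD N b) (t • 1) t 0 4 r)ᶜ)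
          ((nuM (wT b N) (t • 1) 0).real E) * CT N b η := by
  obtain ⟨C, hC, h⟩ := Sm.Q_far (α := α) (C1 := C1) hb hα hα2 hC1 hk
  refine ⟨3 + C, by linarith, fun N _ L R η φ p q hR h1 h2 h3 h4 h5 h6 t r Δ ht hr0 hr2 hΔ0 hΔ E
    hE => ?_⟩
  obtain ⟨l1, l2, l3⟩ := log_ratio hR
  refine (h N L (R / 8) R η φ p q h1 h2 h3 h4 h5 l1 l2 h6 t r Δ ht hr0 hr2 hΔ0 hΔ E hE).trans ?_
  rw [mul_comm (CT N b η)]
  refine mul_le_mul_of_nonneg_right ?_ (CT_pos hb η).le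
  unfold qE
  exact mul_le_mul_of_nonneg_right (Real.exp_le_exp.2 (by linarith))
    (add_nonneg (Real.sqrt_nonneg _) (Real.sqrt_nonneg _))

/-- (SM) of a far pair, smearing radius `R/8` (856's `hSi`, `hS`) -/
theorem pair_sm (hb : 0 < b) {α C1 k : ℝ} (hα : 1 / 4 ≤ α) (hα2 : α < 1 / 2) (hC1 : 0 ≤ C1)
    (hk : 0 < k) :
    ∃ C : ℝ, 0 ≤ C ∧ ∀ (N : ℕ) [NeZero N] (L R : ℕ) (η : Ed N → ℤ) (φ : V N → ℝ) (p q : V N),
      8 ≤ R → RecAt b α C1 R → R ≤ 2 * H817.sz (q - p) → H817.sz (q - p) ≤ 4 * R → 16 * R ≤ N →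
      H817.IsPath p q (H817.v1 p q) (H817.v2 p q) L η → k * ga b R ≤ CT N b η →
      ∀ (t s r : ℝ), 0 < t → r ≤ 2 →
      IntegrableOn (fun F => Real.exp (H883.gP (wTD N b) (t • 1) t 0 ((η, φ), s • F) +
        H883.gP (wTD N b) (t • 1) t 0 ((η, φ), -(s • F)))) (Ag (wTD N b) (t • 1) t 0 s r)
        (nuM (wTD N b 0) (t • 1) 0) ∧
      ∫ F in Ag (wTD N b) (t • 1) t 0 s r,
        Real.exp (H883.gP (wTD N b) (t • 1) t 0 ((η, φ), s • F) +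
          H883.gP (wTD N b) (t • 1) t 0 ((η, φ), -(s • F))) ∂(nuM (wTD N b 0) (t • 1) 0) ≤
        H856.Dl.CW (wTD N b) 0 η ^ 2 * Real.exp C := by
  obtain ⟨C, hC, h⟩ := Sm.sm_far (α := α) (C1 := C1) hb hα hα2 hC1 hk
  refine ⟨4 + C, by linarith, fun N _ L R η φ p q hR h1 h2 h3 h4 h5 h6 t s r ht hr2 => ?_⟩
  obtain ⟨l1, l2, l3⟩ := log_ratio hR
  obtain ⟨s1, s2⟩ := h N L (R / 8) R η φ p q h1 h2 h3 h4 h5 l1 l2 h6 t s r ht
  refine ⟨s1, s2.trans (mul_le_mul_of_nonneg_left (Real.exp_le_exp.2 (by linarith)) ?_)⟩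
  positivity

/-! ### every far pair of a large torus (37's `far_CT` inside) -/

/-- the constant of 37's `far_CT` at `B = 4` -/
def kF (C1 : ℝ) : ℝ := (12 * C1) ^ (-(8 * (4 : ℝ) + 1)) / 2

lemma kF_pos {C1 : ℝ} (hC1 : 1 ≤ C1) : 0 < kF C1 := by
  exact div_pos (Real.rpow_pos_of_pos (by linarith) _) two_pos

/-- **lower bound of the price of a far pair** -/
theorem far_lo (hb : 0 ≤ b) {α C1 : ℝ} (hα0 : 0 ≤ α) (hα1 : α ≤ 1) (hC1 : 1 ≤ C1) :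
    ∃ A0 : ℝ, 16 ≤ A0 ∧ ∀ (N : ℕ) [NeZero N] (L R : ℕ) (η : Ed N → ℤ) (p q : V N),
      32 ≤ R → RecAt b α C1 R → R ≤ 2 * H817.sz (q - p) → H817.sz (q - p) ≤ 4 * R →
      A0 * R ≤ N → H817.IsPath p q (H817.v1 p q) (H817.v2 p q) L η →
      16 * R ≤ N ∧ kF C1 * ga b R ≤ CT N b η := by
  obtain ⟨A0, hA0, h⟩ := H37.Fp.far_CT (b := b) (α := α) (C1 := C1) hb hα0 hα1 hC1
    (B := 4) (by norm_num)
  refine ⟨max A0 16, le_max_right _ _, fun N _ L R η p q hR h1 h2 h3 h4 h5 => ?_⟩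
  have hR0 : (0 : ℝ) ≤ R := Nat.cast_nonneg R
  have h16 : 16 * R ≤ N := by
    have h6 : (16 : ℝ) * R ≤ N := (mul_le_mul_of_nonneg_right (le_max_right _ _) hR0).trans h4
    exact_mod_cast h6
  refine ⟨h16, ?_⟩
  obtain ⟨M, rfl⟩ : ∃ M, N = M + 2 := ⟨N - 2, by omega⟩
  have e : XY.nm (H817.v1 p q, H817.v2 p q) = H817.sz (q - p) := rfl
  refine (h M R L p q _ _ η h5 ?_ h1 ?_ ?_ ?_).1
  · have : (32 : ℝ) ≤ R := by exact_mod_cast hR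
    linarith
  · rw [e]
    have : (H817.sz (q - p) : ℝ) ≤ 4 * R := by exact_mod_cast h3
    linarith
  · rw [e]
    have h6 : R ≤ 4 * H817.sz (q - p) := by omega
    exact_mod_cast h6
  · refine (mul_le_mul_of_nonneg_right (le_max_left _ _) hR0).trans (h4.trans (le_of_eq ?_))
    push_cast
    ring

/-- **`Q` OF EVERY FAR PAIR OF A LARGE TORUS** -/
theorem far_q (hb : 0 < b) {α C1 : ℝ} (hα : 1 / 4 ≤ α) (hα2 : α < 1 / 2) (hC1 : 1 ≤ C1) :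
    ∃ A0 C : ℝ, 16 ≤ A0 ∧ 0 ≤ C ∧ ∀ (N : ℕ) [NeZero N] (L R : ℕ) (η : Ed N → ℤ) (φ : V N → ℝ)
      (p q : V N), 32 ≤ R → RecAt b α C1 R → R ≤ 2 * H817.sz (q - p) →
      H817.sz (q - p) ≤ 4 * R → A0 * R ≤ N →
      H817.IsPath p q (H817.v1 p q) (H817.v2 p q) L η →
      ∀ (t r Δ : ℝ), 0 < t → 0 ≤ r → r ≤ 2 → 0 ≤ Δ →
      H856.Dl.Del (wTD N b) (t • 1) t 0 η φ ≤ Δ → ∀ E : Set (V N → ℝ), MeasurableSet E →
      ∫ F in E, Psi (wT b N) (wTD N b η) (t • 1) φ F ∂(nuM (wT b N) (t • 1) 0) ≤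
        qE C Δ ((nuM (wT b N) (t • 1) 0).real (Ag (wTD N b) (t • 1) t 0 4 r)ᶜ)
          ((nuM (wT b N) (t • 1) 0).real E) * CT N b η := by
  obtain ⟨A0, hA0, h1⟩ := far_lo (b := b) (α := α) (C1 := C1) hb.le (by linarith) (by linarith) hC1
  obtain ⟨C, hC, h2⟩ := pair_q (α := α) (C1 := C1) hb hα hα2 (by linarith) (kF_pos hC1)
  refine ⟨A0, C, hA0, hC, fun N _ L R η φ p q g1 g2 g3 g4 g5 g6 => ?_⟩
  obtain ⟨g7, g8⟩ := h1 N L R η p q g1 g2 g3 g4 g5 g6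
  exact h2 N L R η φ p q (by omega) g2 g3 g4 g7 g6 g8

/-- **(SM) OF EVERY FAR PAIR OF A LARGE TORUS** -/
theorem far_sm (hb : 0 < b) {α C1 : ℝ} (hα : 1 / 4 ≤ α) (hα2 : α < 1 / 2) (hC1 : 1 ≤ C1) :
    ∃ A0 C : ℝ, 16 ≤ A0 ∧ 0 ≤ C ∧ ∀ (N : ℕ) [NeZero N] (L R : ℕ) (η : Ed N → ℤ) (φ : V N → ℝ)
      (p q : V N), 32 ≤ R → RecAt b α C1 R → R ≤ 2 * H817.sz (q - p) →
      H817.sz (q - p) ≤ 4 * R → A0 * R ≤ N →
      H817.IsPath p q (H817.v1 p q) (H817.v2 p q) L η →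
      ∀ (t s r : ℝ), 0 < t → r ≤ 2 →
      IntegrableOn (fun F => Real.exp (H883.gP (wTD N b) (t • 1) t 0 ((η, φ), s • F) +
        H883.gP (wTD N b) (t • 1) t 0 ((η, φ), -(s • F)))) (Ag (wTD N b) (t • 1) t 0 s r)
        (nuM (wTD N b 0) (t • 1) 0) ∧
      ∫ F in Ag (wTD N b) (t • 1) t 0 s r,
        Real.exp (H883.gP (wTD N b) (t • 1) t 0 ((η, φ), s • F) +
          H883.gP (wTD N b) (t • 1) t 0 ((η, φ), -(s • F))) ∂(nuM (wTD N b 0) (t • 1) 0) ≤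
        H856.Dl.CW (wTD N b) 0 η ^ 2 * Real.exp C := by
  obtain ⟨A0, hA0, h1⟩ := far_lo (b := b) (α := α) (C1 := C1) hb.le (by linarith) (by linarith) hC1
  obtain ⟨C, hC, h2⟩ := pair_sm (α := α) (C1 := C1) hb hα hα2 (by linarith) (kF_pos hC1)
  refine ⟨A0, C, hA0, hC, fun N _ L R η φ p q g1 g2 g3 g4 g5 g6 => ?_⟩
  obtain ⟨g7, g8⟩ := h1 N L R η p q g1 g2 g3 g4 g5 g6
  exact h2 N L R η φ p q (by omega) g2 g3 g4 g7 g6 g8

/-! ### the axis pair of the family -/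

section axis

variable {i R : ℕ}

lemma vmin_nat {N R : ℕ} [NeZero N] (h : 2 * R < N) :
    (((R : ℕ) : ZMod N)).valMinAbs = (R : ℤ) := by
  refine (ZMod.valMinAbs_spec _ _).2 ⟨by push_cast; rfl, ?_, ?_⟩
  · have : (0 : ℤ) < N := by have := NeZero.pos N; exact_mod_cast this
    have h2 : (0 : ℤ) ≤ (R : ℤ) * 2 := by positivity
    linarith
  · have : (2 * R : ℤ) < N := by exact_mod_cast h
    linarith

lemma v1_ax {N R : ℕ} [NeZero N] (h : 2 * R < N) : H817.v1 (0 : V N) (ax0 N R) = (R : ℤ) := by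
  unfold H817.v1 ax0
  rw [sub_zero]
  exact vmin_nat h

lemma v2_ax {N R : ℕ} [NeZero N] : H817.v2 (0 : V N) (ax0 N R) = 0 := by
  unfold H817.v2 ax0
  rw [sub_zero]
  exact ZMod.valMinAbs_zero N

lemma sz_ax {N R : ℕ} [NeZero N] (h : 2 * R < N) : H817.sz (ax0 N R - (0 : V N)) = R := by
  have e1 := v1_ax h
  have e2 := v2_ax (N := N) (R := R)
  unfold H817.v1 at e1
  unfold H817.v2 at e2
  unfold H817.sz
  rw [e1, e2]
  simp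

/-- the path of the family in the letters of the far pairs -/
lemma path_ax (hi : 2 ≤ i) {η : ∀ R, Ed (sd i R) → ℤ} (hη : Pth i η) (hR : 1 ≤ R) :
    2 * R < sd i R ∧ ∃ L, H817.IsPath (N := sd i R) (0 : V (sd i R)) (ax0 (sd i R) R)
      (H817.v1 (0 : V (sd i R)) (ax0 (sd i R) R)) (H817.v2 (0 : V (sd i R)) (ax0 (sd i R) R)) L
      (η R) := by
  have h1 : 2 ^ i * R ≤ sd i R := sd_ge i R
  have h2 : 2 ^ 2 ≤ 2 ^ i := Nat.pow_le_pow_right (by norm_num) hi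
  have h3 : 4 * R ≤ sd i R := (Nat.mul_le_mul_right R (by simpa using h2)).trans h1
  have h4 : 2 * R < sd i R := by omega
  refine ⟨h4, ?_⟩
  obtain ⟨L, hL⟩ := hη R hR
  refine ⟨L, ?_⟩
  rw [v1_ax h4, v2_ax]
  exact hL

variable {β C2 A0 : ℝ} {Am : ℕ} {a : ℕ → ℝ} {k w : ℕ → ℕ} {n0 j : ℕ}

/-- the price of the pair `R` from the knowledge -/
lemma knW_price (hb : 0 < b) (hi : 4 ≤ i) (hA : A0 ≤ 2 ^ i) (hAm : 1 ≤ Am)
    (K : KnW b β C2 A0 Am i a k w n0 j R) (hR0 : Rb k w n0 0 ≤ R) {η : ∀ R, Ed (sd i R) → ℤ}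
    (hη : Pth i η) (hR : 1 ≤ R) :
    RecAt b β C2 R ∧ 16 * R ≤ sd i R ∧ 2 / 3 * ga b R ≤ CT (sd i R) b (η R) ∧
      CT (sd i R) b (η R) ≤ 2 * ga b R ∧
      cMn b (sd i) (fun R => wTD (sd i R) b (η R)) R = CT (sd i R) b (η R) := by
  have hRA : R ≤ Am * R := Nat.le_mul_of_pos_left R hAm
  have h1 : 2 ^ i * R ≤ sd i R := sd_ge i R
  have h2 : 2 ^ 4 ≤ 2 ^ i := Nat.pow_le_pow_right (by norm_num) hi
  have h3 : 16 * R ≤ sd i R := (Nat.mul_le_mul_right R (by simpa using h2)).trans h1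
  have hAR : A0 * R ≤ sd i R := by
    have h4 : (2 : ℝ) ^ i * R ≤ sd i R := by exact_mod_cast h1
    exact (mul_le_mul_of_nonneg_right hA (Nat.cast_nonneg R)).trans h4
  obtain ⟨t1, t2⟩ := K.tor R hR0 hRA (sd i R) hAR
  have e1 : cMn b (sd i) (fun R => wTD (sd i R) b (η R)) R = CT (sd i R) b (η R) := by
    unfold cMn CT
    rw [H770.wTD_zero]
  have e2 := cMn_pt (i := i) hb.le (by omega) hη hR
  rw [e1] at e2
  rw [e2] at e1 ⊢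
  rw [abs_le] at t1
  exact ⟨K.rcd R hR0 hRA, h3, by linarith [t1.2], by linarith [t1.1], e1⟩

/-- **`Q` OF EVERY EVENT AT THE PAIR `R` OF A LEVEL** -/
theorem lev_q (hb : 0 < b) (hβ : 1 / 4 ≤ β) (hβ2 : β < 1 / 2) (hC2 : 1 ≤ C2) :
    ∃ C : ℝ, 0 ≤ C ∧ ∀ (A0 : ℝ) (Am i : ℕ) (a : ℕ → ℝ) (k w : ℕ → ℕ) (n0 j R : ℕ)
      (η : ∀ R, Ed (sd i R) → ℤ) (φ : ∀ R, V (sd i R) → ℝ), 4 ≤ i → A0 ≤ 2 ^ i → 1 ≤ Am →
      KnW b β C2 A0 Am i a k w n0 j R → Rb k w n0 0 ≤ R → 8 ≤ R → Pth i η →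
      ∀ (t r Δ : ℝ), 0 < t → 0 ≤ r → r ≤ 2 → 0 ≤ Δ →
      H856.Dl.Del (wTD (sd i R) b) (t • 1) t 0 (η R) (φ R) ≤ Δ →
      ∀ E : Set (V (sd i R) → ℝ), MeasurableSet E →
      ∫ F in E, PsF b (sd i) (fun R => wTD (sd i R) b (η R)) φ t R F ∂(nuF b (sd i) t R) ≤
        qE C Δ ((nuF b (sd i) t R).real (Ag (wTD (sd i R) b) (t • 1) t 0 4 r)ᶜ)
          ((nuF b (sd i) t R).real E) *
          cMn b (sd i) (fun R => wTD (sd i R) b (η R)) R := by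
  obtain ⟨C, hC, h⟩ := pair_q (b := b) (α := β) (C1 := C2) (k := 2 / 3) hb hβ hβ2 (by linarith)
    (by norm_num)
  refine ⟨C, hC, fun A0 Am i a k w n0 j R η φ hi hA hAm K hR0 hR hη t r Δ ht hr0 hr2 hΔ0 hΔ E
    hE => ?_⟩
  obtain ⟨p1, p2, p3, -, p5⟩ := knW_price hb hi hA hAm K hR0 hη (by omega)
  obtain ⟨q1, L, hL⟩ := path_ax (i := i) (by omega) hη (show 1 ≤ R by omega)
  rw [p5]
  exact h (sd i R) L R (η R) (φ R) 0 (ax0 (sd i R) R) hR p1 (by rw [sz_ax q1]; omega)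
    (by rw [sz_ax q1]; omega) p2 hL p3 t r Δ ht hr0 hr2 hΔ0 hΔ E hE

/-- **145's (f): `Q` OF EVERY EVENT AT THE PAIR `R` OF A LEVEL** -/
theorem lev_qf (hb : 0 < b) (hβ : 1 / 4 ≤ β) (hβ2 : β < 1 / 2) (hC2 : 1 ≤ C2) :
    ∃ C : ℝ, 0 ≤ C ∧ ∀ (A0 : ℝ) (Am i : ℕ) (a : ℕ → ℝ) (k w : ℕ → ℕ) (n0 j R : ℕ)
      (η : ∀ R, Ed (sd i R) → ℤ) (φ : ∀ R, V (sd i R) → ℝ), 4 ≤ i → A0 ≤ 2 ^ i → 1 ≤ Am →
      KnW b β C2 A0 Am i a k w n0 j R → Rb k w n0 0 ≤ R → 8 ≤ R → Pth i η →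
      ∀ (t r Δ Z : ℝ), 0 < t → 0 ≤ r → r ≤ 2 → 0 ≤ Δ → 0 ≤ Z →
      H856.Dl.Del (wTD (sd i R) b) (t • 1) t 0 (η R) (φ R) ≤ Δ → C + 4 * Δ ≤ Z / 4 →
      (nuF b (sd i) t R).real (Ag (wTD (sd i R) b) (t • 1) t 0 4 r)ᶜ ≤ Real.exp (-(5 * Z)) →
      ∀ E : Set (V (sd i R) → ℝ), MeasurableSet E →
      ∫ F in E, PsF b (sd i) (fun R => wTD (sd i R) b (η R)) φ t R F ∂(nuF b (sd i) t R) ≤
        (Real.exp (-(2 * Z)) + Real.exp (Z / 4) * Real.sqrt ((nuF b (sd i) t R).real E)) *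
          cMn b (sd i) (fun R => wTD (sd i R) b (η R)) R := by
  obtain ⟨C, hC, h⟩ := lev_q (b := b) (β := β) (C2 := C2) hb hβ hβ2 hC2
  refine ⟨C, hC, fun A0 Am i a k w n0 j R η φ hi hA hAm K hR0 hR hη t r Δ Z ht hr0 hr2 hΔ0 hZ hΔ
    hCZ hν E hE => ?_⟩
  refine (h A0 Am i a k w n0 j R η φ hi hA hAm K hR0 hR hη t r Δ ht hr0 hr2 hΔ0 hΔ E hE).trans ?_
  refine mul_le_mul_of_nonneg_right (qE_le hZ hCZ hν) ?_
  rw [(knW_price hb hi hA hAm K hR0 hη (by omega)).2.2.2.2]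
  exact (CT_pos hb (η R)).le

end axis

/-! ### finite unions of bad events -/

section gd

variable {Ω ι : Type*} [MeasurableSpace Ω] {ν : Measure Ω} [IsProbabilityMeasure ν]

/-- the good set of a finite family of bad events -/
def GdL (s : Finset ι) (B : ι → Set Ω) : Set Ω := (⋃ i ∈ s, B i)ᶜ

lemma mem_GdL {s : Finset ι} {B : ι → Set Ω} {x : Ω} : x ∈ GdL s B ↔ ∀ i ∈ s, x ∉ B i := by
  simp [GdL]

lemma GdL_meas {s : Finset ι} {B : ι → Set Ω} (h : ∀ i ∈ s, MeasurableSet (B i)) :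
    MeasurableSet (GdL s B) := (Finset.measurableSet_biUnion s h).compl

lemma GdL_P {s : Finset ι} {B : ι → Set Ω} {e : ι → ℝ} (h : ∀ i ∈ s, ν.real (B i) ≤ e i) :
    ν.real (GdL s B)ᶜ ≤ ∑ i ∈ s, e i := by
  unfold GdL
  rw [compl_compl]
  exact (measureReal_biUnion_finset_le s B).trans (Finset.sum_le_sum h)

end gd

/-! ### the number -/

/-- `q ≤ exp (-y ^ (-c3))` for small `y` -/
theorem qE_num {C c c3 κ A : ℝ} (m : ℝ) (hc3 : 0 < c3) (h1 : c3 < c) (hκ0 : 0 < κ) (h2 : κ < c)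
    (hA : 0 ≤ A) :
    ∃ y0 : ℝ, 0 < y0 ∧ y0 ≤ 1 ∧ ∀ y Δ ν1 ν2 : ℝ, 0 < y → y ≤ y0 → Δ ≤ A * y ^ (-κ) →
      ν1 ≤ A * y ^ (-m) * Real.exp (-y ^ (-c)) → ν2 ≤ A * y ^ (-m) * Real.exp (-y ^ (-c)) →
      qE C Δ ν1 ν2 ≤ Real.exp (-y ^ (-c3)) := by
  have hc : 0 < c := hc3.trans h1
  -- everything in terms of `x = y ^ (-1) → ∞`
  have t1 : ∀ s, s < c → Tendsto (fun x : ℝ => x ^ s / x ^ c) atTop (𝓝 0) := by
    intro s hs
    have h3 := tendsto_rpow_neg_atTop (show 0 < c - s by linarith)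
    refine h3.congr' ?_
    filter_upwards [eventually_gt_atTop (0 : ℝ)] with x hx
    rw [← Real.rpow_sub hx]
    congr 1
    ring
  have t2 : Tendsto (fun x : ℝ => Real.log x / x ^ c) atTop (𝓝 0) :=
    (isLittleO_log_rpow_atTop hc).tendsto_div_nhds_zero
  have t3 : Tendsto (fun x : ℝ => (C + Real.log (2 * Real.sqrt (A + 1))) * (x ^ (0 : ℝ) / x ^ c) +
      4 * A * (x ^ κ / x ^ c) + |m| / 2 * (Real.log x / x ^ c) + x ^ c3 / x ^ c) atTop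
      (𝓝 ((C + Real.log (2 * Real.sqrt (A + 1))) * 0 + 4 * A * 0 + |m| / 2 * 0 + 0)) :=
    ((((t1 0 hc).const_mul _).add ((t1 κ h2).const_mul _)).add (t2.const_mul _)).add (t1 c3 h1)
  simp only [mul_zero, add_zero] at t3
  obtain ⟨X, hX⟩ := eventually_atTop.1 ((t3.eventually_lt_const (show (0 : ℝ) < 1 / 2 by
    norm_num)).and (eventually_ge_atTop 1))
  set X1 := max X 1 with hX1
  have hX1p : 0 < X1 := lt_of_lt_of_le one_pos (le_max_right _ _)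
  refine ⟨X1⁻¹, inv_pos.2 hX1p, inv_le_one_of_one_le₀ (le_max_right _ _),
    fun y Δ ν1 ν2 hy hy0 hΔ h3 h4 => ?_⟩
  set x := y⁻¹ with hx
  have hxX : X1 ≤ x := by
    rw [hx]
    exact (le_inv_comm₀ hX1p hy).2 hy0
  have hx1 : 1 ≤ x := (le_max_right _ _).trans hxX
  have hx0 : 0 < x := one_pos.trans_le hx1
  obtain ⟨h5, -⟩ := hX x ((le_max_left _ _).trans hxX)
  have hr : ∀ s : ℝ, y ^ (-s) = x ^ s := fun s => by
    rw [hx, Real.inv_rpow hy.le, ← Real.rpow_neg hy.le]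
  rw [hr] at hΔ ⊢
  simp only [hr] at h3 h4
  have hxc : 0 < x ^ c := Real.rpow_pos_of_pos hx0 c
  have h6 : (C + Real.log (2 * Real.sqrt (A + 1))) + 4 * A * x ^ κ + |m| / 2 * Real.log x + x ^ c3 <
      1 / 2 * x ^ c := by
    have e : ((C + Real.log (2 * Real.sqrt (A + 1))) + 4 * A * x ^ κ + |m| / 2 * Real.log x +
        x ^ c3) = ((C + Real.log (2 * Real.sqrt (A + 1))) * (x ^ (0 : ℝ) / x ^ c) +
        4 * A * (x ^ κ / x ^ c) + |m| / 2 * (Real.log x / x ^ c) + x ^ c3 / x ^ c) * x ^ c := by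
      rw [Real.rpow_zero]
      field_simp
    rw [e]
    exact mul_lt_mul_of_pos_right h5 hxc
  -- the square roots
  have hlx : 0 ≤ Real.log x := Real.log_nonneg hx1
  have hs : ∀ ν, ν ≤ A * x ^ m * Real.exp (-x ^ c) →
      Real.sqrt ν ≤ Real.sqrt (A + 1) * Real.exp (|m| / 2 * Real.log x - 1 / 2 * x ^ c) := by
    intro ν hν
    have h7 : ν ≤ (Real.sqrt (A + 1) * Real.exp (|m| / 2 * Real.log x - 1 / 2 * x ^ c)) ^ 2 := by
      rw [mul_pow, Real.sq_sqrt (by linarith), ← Real.exp_nat_mul]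
      have e1 : ((2 : ℕ) : ℝ) * (|m| / 2 * Real.log x - 1 / 2 * x ^ c) =
          |m| * Real.log x + -x ^ c := by push_cast; ring
      rw [e1, Real.exp_add, ← mul_assoc]
      refine hν.trans (mul_le_mul_of_nonneg_right ?_ (Real.exp_pos _).le)
      have h8 : x ^ m ≤ Real.exp (|m| * Real.log x) := by
        rw [Real.rpow_def_of_pos hx0, mul_comm]
        exact Real.exp_le_exp.2 (mul_le_mul_of_nonneg_right (le_abs_self m) hlx)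
      have h9 : 0 < x ^ m := Real.rpow_pos_of_pos hx0 m
      exact mul_le_mul (by linarith) h8 h9.le (by linarith)
    exact (Real.sqrt_le_sqrt h7).trans (le_of_eq (Real.sqrt_sq (by positivity)))
  have h7 := hs ν1 h3
  have h8 := hs ν2 h4
  have hA1 : 0 < Real.sqrt (A + 1) := Real.sqrt_pos.2 (by linarith)
  unfold qE
  calc Real.exp (C + 4 * Δ) * (Real.sqrt ν1 + Real.sqrt ν2) ≤
      Real.exp (C + 4 * (A * x ^ κ)) *
        (2 * (Real.sqrt (A + 1) * Real.exp (|m| / 2 * Real.log x - 1 / 2 * x ^ c))) := by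
        refine mul_le_mul (Real.exp_le_exp.2 (by linarith)) (by linarith)
          (add_nonneg (Real.sqrt_nonneg _) (Real.sqrt_nonneg _)) (Real.exp_pos _).le
    _ = Real.exp ((C + Real.log (2 * Real.sqrt (A + 1))) + 4 * A * x ^ κ +
          |m| / 2 * Real.log x - 1 / 2 * x ^ c) := by
        have e2 : 2 * (Real.sqrt (A + 1) * Real.exp (|m| / 2 * Real.log x - 1 / 2 * x ^ c)) =
            Real.exp (Real.log (2 * Real.sqrt (A + 1))) *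
              Real.exp (|m| / 2 * Real.log x - 1 / 2 * x ^ c) := by
          rw [Real.exp_log (by positivity)]
          ring
        rw [e2, ← Real.exp_add, ← Real.exp_add]
        congr 1
        ring
    _ ≤ Real.exp (-x ^ c3) := Real.exp_le_exp.2 (by linarith)

end

end Vale.Agent.P159.H552.Lq
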