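import Vale.Agent.P159.H552.Lq1

/-!
P159, helper552, module Lq3: the crude relation at the pair `R` from the knowledge (`hK` of 686's
`loc_G`).
-/

open MeasureTheory Filter Topology Finset Matrix

set_option linter.all false

namespace Vale.Agent.P159.H552.Lq

open Vale.Agent.P159 Vale.Agent.P159.TM.H331 Vale.Agent.P159.H253.Rec
open Vale.Agent.P159.H770 (wTD Ed wTD_zero gwf_wTD)
open Vale.Agent.P159.H883 (nuM Psi BW Zp CT CT_pos)
open Vale.Agent.P159.TM.Spec (V)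
open Vale.Agent.P159.TM.SpecC (wT)
open Vale.Agent.P159.H773 (sd ax0 nuF PsF cMn Pth cT0 cMn_pt sd_ge de)
open Vale.Agent.P159.H817 (eD)
open Vale.Agent.P159.H801 (itw)
open Vale.Agent.P159.H27 (Rb Slo Rb_pos)
open Vale.Agent.P159.H37.Sf (Lc)
open Vale.Agent.P159.H145.Lw (KnW RelH)

noncomputable section

variable {b : ℝ}

/-- the constant of the crude relation -/
def KS : ℝ := Real.exp (3 + Real.pi / 2 * de 1)

lemma de1_nonneg : 0 ≤ de 1 := by unfold de; positivity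

lemma KS_one : 1 ≤ KS := by
  unfold KS
  have h1 := de1_nonneg
  have h2 := Real.pi_pos
  exact Real.one_le_exp (by positivity)

variable {β C2 A0 : ℝ} {Am i R : ℕ} {a : ℕ → ℝ} {k w : ℕ → ℕ} {n0 j : ℕ}

/-- `R` against the base pair, in logarithms -/
theorem lc_rel (hb : 0 < b) (hA : A0 ≤ 2 ^ i) (hAm : 1 ≤ Am)
    (K : KnW b β C2 A0 Am i a k w n0 j R) (hR : Rb k w n0 j ≤ R) :
    0 < cT0 (sd i R - 2) b R ∧ 0 < cT0 (sd i (Rb k w n0 j) - 2) b (Rb k w n0 j) ∧
    Lc b i R + a (itw w n0 j) / 2 *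
      (eD (sd i R) R - eD (sd i (Rb k w n0 j)) (Rb k w n0 j)) ≤
      Lc b i (Rb k w n0 j) + (3 + Real.pi / 2 * de 1) := by
  obtain ⟨κ, hS⟩ := K.toKn.slo
  have h0j : Rb k w n0 0 ≤ Rb k w n0 j := hS.Rb_mono (Nat.zero_le j)
  have hde := de1_nonneg
  have hπ := Real.pi_pos
  have hd2 : 0 ≤ Real.pi / 2 * de 1 := by positivity
  have key : ∀ R', Rb k w n0 0 ≤ R' → R' ≤ R →
      RecAt b β C2 R' ∧ |ga b R' - cT0 (sd i R' - 2) b R'| ≤ cT0 (sd i R' - 2) b R' / 2 ∧
        0 < cT0 (sd i R' - 2) b R' := by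
    intro R' g1 g2
    have hRA : R' ≤ Am * R := g2.trans (Nat.le_mul_of_pos_left R hAm)
    have h1 : 2 ^ i * R' ≤ sd i R' := sd_ge i R'
    have hAR : A0 * R' ≤ sd i R' := by
      have h4 : (2 : ℝ) ^ i * R' ≤ sd i R' := by exact_mod_cast h1
      exact (mul_le_mul_of_nonneg_right hA (Nat.cast_nonneg R')).trans h4
    have h2 := K.rcd R' g1 hRA
    have h3 := (K.tor R' g1 hRA (sd i R') hAR).1
    refine ⟨h2, h3, ?_⟩
    have h4 := (abs_le.1 h3).2
    have h5 := h2.1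
    linarith
  obtain ⟨-, kR, pR⟩ := key R (h0j.trans hR) le_rfl
  obtain ⟨-, k0, p0⟩ := key (Rb k w n0 j) h0j hR
  refine ⟨pR, p0, ?_⟩
  rcases hR.eq_or_lt with h | h
  · rw [← h, sub_self, mul_zero, add_zero]
    linarith
  · have hR1 : Rb k w n0 j ≤ R - 1 := by omega
    have hlt : R - 1 < R := by omega
    have h1 := abs_le.1 (K.relw (R - 1) hR1 hlt)
    obtain ⟨-, k1, p1⟩ := key (R - 1) (h0j.trans hR1) hlt.le
    have ha := ga_anti hb.le (show R - 1 ≤ R by omega)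
    have h2 := abs_le.1 kR
    have h3 := abs_le.1 k1
    have h4 : cT0 (sd i R - 2) b R ≤ 3 * cT0 (sd i (R - 1) - 2) b (R - 1) := by
      linarith [h2.1, h3.2]
    have h5 : Lc b i R ≤ Lc b i (R - 1) + Real.log 3 := by
      unfold Lc
      rw [← Real.log_mul p1.ne' (by norm_num), mul_comm]
      exact Real.log_le_log pR h4
    have h6 := hS.e_le (h0j.trans hR1) (show R - 1 ≤ R by omega) j
    have hp : 1 ≤ R - 1 := (Rb_pos k w n0 j).trans_le hR1
    have hp0 : (0 : ℝ) < (R - 1 : ℕ) := by exact_mod_cast hp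
    have h7 : Real.log R ≤ Real.log (R - 1 : ℕ) + Real.log 2 := by
      rw [← Real.log_mul hp0.ne' (by norm_num)]
      refine Real.log_le_log (by have : 0 < R := by omega
                                 exact_mod_cast this) ?_
      have : R ≤ (R - 1) * 2 := by omega
      exact_mod_cast this
    have h8 : Real.log 3 ≤ 2 := by
      have h9 : (3 : ℝ) ≤ Real.exp 2 := by
        have h10 : Real.exp 2 = Real.exp 1 ^ 2 := by rw [← Real.exp_nat_mul]; norm_num
        rw [h10]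
        have h9 : (2 : ℝ) ≤ Real.exp 1 := by have := Real.exp_one_gt_d9; linarith
        calc (3 : ℝ) ≤ 2 ^ 2 := by norm_num
          _ ≤ _ := pow_le_pow_left₀ (by norm_num) h9 2
      calc Real.log 3 ≤ Real.log (Real.exp 2) := Real.log_le_log (by norm_num) h9
        _ = 2 := Real.log_exp 2
    have h9 : Real.log 2 ≤ 1 := by
      have := Real.log_two_lt_d9
      linarith
    have e : a (itw w n0 j) / 2 * (eD (sd i R) R - eD (sd i (Rb k w n0 j)) (Rb k w n0 j)) =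
        a (itw w n0 j) / 2 * (eD (sd i R) R - eD (sd i (R - 1)) (R - 1)) +
        a (itw w n0 j) / 2 *
          (eD (sd i (R - 1)) (R - 1) - eD (sd i (Rb k w n0 j)) (Rb k w n0 j)) := by ring
    rw [e]
    linarith [h1.2]

/-- **`hK` of 686's `loc_G`** -/
theorem lev_K (hb : 0 < b) (hi : 1 ≤ i) (hA : A0 ≤ 2 ^ i) (hAm : 1 ≤ Am)
    (K : KnW b β C2 A0 Am i a k w n0 j R) {R0 : ℕ} (h0 : R0 = Rb k w n0 j) (hR : R0 ≤ R)
    {η : ∀ R, Ed (sd i R) → ℤ} (hη : Pth i η) :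
    cMn b (sd i) (fun R => wTD (sd i R) b (η R)) R *
      Real.exp (a (itw w n0 j) / 2 * (eD (sd i R) R - eD (sd i R0) R0)) ≤
      KS * cMn b (sd i) (fun R => wTD (sd i R) b (η R)) R0 := by
  subst h0
  have h1 : 1 ≤ Rb k w n0 j := Rb_pos k w n0 j
  obtain ⟨p1, p2, h⟩ := lc_rel hb hA hAm K hR
  rw [cMn_pt hb.le hi hη (h1.trans hR), cMn_pt hb.le hi hη h1]
  unfold Lc at h
  unfold KS
  rw [← Real.exp_log p1, ← Real.exp_add, ← Real.exp_log p2, ← Real.exp_add]
  exact Real.exp_le_exp.2 (by linarith)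

end

end Vale.Agent.P159.H552.Lq
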