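import Vale.Agent.P159.H552.Tl6
import Vale.Agent.P159.H253.Sm7
import Vale.Agent.P159.H883.Trl3

/-!
P159, helper552, module Tl7: the smeared Ginibre inequalities on the torus.

`w = wTD N b`, `M = t • 1`, `x₀ = 0`, `X = (η, φ)`.
* covariance under translations: `Gx_tr`, `Rw_tr`, `Px_tr`, `Ag_tr`, `ES_tr`,
* `hI_tor` : the integral of `ES` on `Ag s r` does not depend on the position,
* `SS_tor` : `SS` of the translates by the box `ρ`, uniform weights, from 253's average.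
-/

open MeasureTheory Filter Topology Finset Matrix

set_option linter.all false

namespace Vale.Agent.P159.H552.Sm

open Vale.Agent.P159 Vale.Agent.P159.TM.H331 Vale.Agent.P159.H773 Vale.Agent.P159.H253.Rec
open Vale.Agent.P159.H253.Sm (Dt avg_pairG)
open Vale.Agent.P159.H37
open Vale.Agent.P159.H770 (GWF wTD Ed wTD_zero gwf_wTD)
open Vale.Agent.P159.H963 (GrI pin ntr nM MF GW An Anm)
open Vale.Agent.P159.H883
open Vale.Agent.P159.TM.Spec (V)
open Vale.Agent.P159.TM.SpecC (wT)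

noncomputable section

section cov

variable {N : ℕ} [NeZero N] {b t : ℝ}

/-- the vector `X` translated -/
def trX (a : V N) (X : (Ed N → ℤ) × (V N → ℝ)) : (Ed N → ℤ) × (V N → ℝ) := (trE a X.1, trS a X.2)

lemma Gx_tr (hb : 0 < b) (ht : 0 < t) (a : V N) (X : (Ed N → ℤ) × (V N → ℝ)) (F : V N → ℝ) :
    Gx (wTD N b) (t • 1) t 0 (trX a X) (trS a F) = Gx (wTD N b) (t • 1) t 0 X F := by
  unfold Gx H883.gP trX
  simp only
  have e1 : trS a X.2 + trS a F = trS a (X.2 + F) := rfl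
  have hq : qf (An (wTD N b 0) (t • 1) t 0) (trS a F) = qf (An (wTD N b 0) (t • 1) t 0) F := by
    rw [wTD_zero, An_tor b hb.le ht]
    exact H963.Core.qf_tr (H963.ti_Anm hb.le ht) a F
  rw [e1, Zn_trE, hq]

lemma Rw_tr (hb : 0 < b) (ht : 0 < t) (a : V N) (F : V N → ℝ) :
    Rw (wTD N b) (t • 1) t 0 (trS a F) = Rw (wTD N b) (t • 1) t 0 F := by
  have hw := gwf_wTD (N := N) hb
  have hM := mf_scalar (N := N) ht
  rw [Rw_eq hw hM, Rw_eq hw hM, ← Gx_tr hb ht a 0 F]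
  rfl

lemma Px_tr (hb : 0 < b) (ht : 0 < t) (a : V N) (X : (Ed N → ℤ) × (V N → ℝ)) (F : V N → ℝ) :
    Px (wTD N b) (t • 1) (trX a X) (trS a F) = Px (wTD N b) (t • 1) X F := by
  have hw := gwf_wTD (N := N) hb
  have hM := mf_scalar (N := N) ht
  rw [Px_exp (x₀ := 0) hw hM, Px_exp (x₀ := 0) hw hM, Gx_tr hb ht, Rw_tr hb ht]

lemma ES_tr (hb : 0 < b) (ht : 0 < t) (a : V N) (X : (Ed N → ℤ) × (V N → ℝ)) (s : ℝ)
    (F : V N → ℝ) :
    ES (wTD N b) (t • 1) t 0 (trX a X) s (trS a F) = ES (wTD N b) (t • 1) t 0 X s F := by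
  unfold ES
  have e1 : s • trS a F = trS a (s • F) := rfl
  have e2 : -trS a (s • F) = trS a (-(s • F)) := rfl
  rw [e1, e2, Gx_tr hb ht, Gx_tr hb ht]

lemma Ag_tr (hb : 0 < b) (ht : 0 < t) (a : V N) (s r : ℝ) (F : V N → ℝ) :
    trS a F ∈ Ag (wTD N b) (t • 1) t 0 s r ↔ F ∈ Ag (wTD N b) (t • 1) t 0 s r := by
  unfold Ag
  have e1 : (2 : ℝ) • (s • trS a F) = trS a ((2 : ℝ) • (s • F)) := rfl
  simp only [Set.mem_ofPred_eq]
  rw [e1, Rw_tr hb ht]

/-! ### invariance under constants -/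

lemma Gx_ci (hb : 0 < b) (ht : 0 < t) (X : (Ed N → ℤ) × (V N → ℝ)) :
    CI (Gx (wTD N b) (t • 1) t 0 X) := by
  intro F c
  have hw := gwf_wTD (N := N) hb
  have hM := mf_scalar (N := N) ht
  have hb' := gwf_bw hw (em_pin_wTD hb)
  have hP := pc_An (gw0 hw) (hb' 0) hM (0 : V N)
  unfold Gx H883.gP
  simp only
  have e1 : X.2 + (fun x => F x + c) = fun x => (X.2 + F) x + c := by
    funext x
    simp only [Pi.add_apply]
    ring
  rw [e1, (hb' X.1).ci (t • 1) (X.2 + F) c, H963.qf_addc hP.symm hP.row]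

lemma ES_ci (hb : 0 < b) (ht : 0 < t) (X : (Ed N → ℤ) × (V N → ℝ)) (s : ℝ) :
    CI (ES (wTD N b) (t • 1) t 0 X s) := by
  intro F c
  unfold ES
  have e1 : s • (fun x => F x + c) = fun x => (s • F) x + s * c := by
    funext x
    simp only [Pi.smul_apply, smul_eq_mul]
    ring
  have e2 : -(s • fun x => F x + c) = fun x => (-(s • F)) x + -(s * c) := by
    funext x
    simp only [Pi.smul_apply, Pi.neg_apply, smul_eq_mul]
    ring
  rw [e2, e1, Gx_ci hb ht X (s • F) (s * c), Gx_ci hb ht X (-(s • F)) (-(s * c))]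

lemma Ag_ci (hb : 0 < b) (ht : 0 < t) (s r : ℝ) :
    CI fun F => F ∈ Ag (wTD N b) (t • 1) t 0 s r := by
  intro F c
  have hM := mf_scalar (N := N) ht
  have hR := R1_ci (w := wTD N b 0) hM (0 : V N)
  have e1 : (2 : ℝ) • (s • fun x => F x + c) = fun x => ((2 : ℝ) • (s • F)) x + 2 * (s * c) := by
    funext x
    simp only [Pi.smul_apply, smul_eq_mul]
    ring
  unfold Ag
  simp only [Set.mem_ofPred_eq]
  rw [e1, Rw_R1, hR ((2 : ℝ) • (s • F)) (2 * (s * c))]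

/-- the symmetry `F ↦ trS a F` -/
lemma sy_tr (a : V N) : Inv.Sy (trS a : (V N → ℝ) → V N → ℝ) := Inv.sy_comp (Equiv.addRight a)

lemma Zn0_tr (hb : 0 < b) (a : V N) (F : V N → ℝ) :
    Zn (wTD N b 0) (t • (1 : Matrix (V N) (V N) ℝ)) (trS a F) =
      Zn (wTD N b 0) (t • (1 : Matrix (V N) (V N) ℝ)) F := by
  have h := Zn_trE (t := t) b a 0 F
  rwa [trE_zero'] at h

/-- **independence of the position** -/
theorem hI_tor (hb : 0 < b) (ht : 0 < t) (a : V N) (X : (Ed N → ℤ) × (V N → ℝ)) (s r : ℝ) :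
    ∫ F in Ag (wTD N b) (t • 1) t 0 s r, ES (wTD N b) (t • 1) t 0 (trX a X) s F
      ∂(nuM (wTD N b 0) (t • 1) 0) =
    ∫ F in Ag (wTD N b) (t • 1) t 0 s r, ES (wTD N b) (t • 1) t 0 X s F
      ∂(nuM (wTD N b 0) (t • 1) 0) := by
  have hw := gwf_wTD (N := N) hb
  have hM := mf_scalar (N := N) ht
  have hE := em_pin_wTD (N := N) hb
  have h := (sy_tr a).set_int (gwf_bw hw hE 0) hM 0 (Zn0_tr hb a)
    (ES_ci hb ht (trX a X) s) (cont_ES hw hE hM (trX a X) s).measurable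
    (meas_Ag hw hE hM s r) (Ag_ci hb ht s r)
  rw [← h]
  have eS : {F : V N → ℝ | trS a F ∈ Ag (wTD N b) (t • 1) t 0 s r} =
      Ag (wTD N b) (t • 1) t 0 s r := by
    ext F
    exact Ag_tr hb ht a s r F
  rw [eS]
  refine setIntegral_congr_fun (meas_Ag hw hE hM s r) fun F _ => ?_
  exact ES_tr hb ht a X s F

/-- the same for the functional and an event invariant under translations -/
theorem hIP_tor (hb : 0 < b) (ht : 0 < t) (a : V N) (X : (Ed N → ℤ) × (V N → ℝ))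
    {A : Set (V N → ℝ)} (hA : MeasurableSet A) (hcA : CI fun F => F ∈ A)
    (hAt : ∀ F, trS a F ∈ A ↔ F ∈ A) :
    ∫ F in A, Px (wTD N b) (t • 1) (trX a X) F ∂(nuM (wTD N b 0) (t • 1) 0) =
    ∫ F in A, Px (wTD N b) (t • 1) X F ∂(nuM (wTD N b 0) (t • 1) 0) := by
  have hw := gwf_wTD (N := N) hb
  have hM := mf_scalar (N := N) ht
  have hE := em_pin_wTD (N := N) hb
  have hci : CI (Px (wTD N b) (t • 1) (trX a X)) :=
    ci_Psi (gwf_bw hw hE 0) (gwf_bw hw hE _) _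
  have h := (sy_tr a).set_int (gwf_bw hw hE 0) hM 0 (Zn0_tr hb a) hci
    (cont_Px hw hE hM (trX a X)).measurable hA hcA
  rw [← h]
  have eS : {F : V N → ℝ | trS a F ∈ A} = A := by
    ext F
    exact hAt F
  rw [eS]
  refine setIntegral_congr_fun hA fun F _ => ?_
  exact Px_tr hb ht a X F

end cov

/-! ### the family of translates -/

section fam

variable {N : ℕ} [NeZero N] {b t : ℝ}

/-- translates of the vector by the box -/
def dB (N : ℕ) [NeZero N] (X : (Ed N → ℤ) × (V N → ℝ)) (ρ : ℕ) (u : ↥(box ρ)) :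
    (Ed N → ℤ) × (V N → ℝ) := trX (-H253.Sm.cz N (u : ℤ × ℤ)) X

/-- uniform weights -/
def pB (ρ : ℕ) (_ : ↥(box ρ)) : ℝ := ((box ρ).card : ℝ)⁻¹

lemma card_box_pos (ρ : ℕ) : (0 : ℝ) < (box ρ).card := by
  have h : (0 : ℤ × ℤ) ∈ box ρ := by
    rw [XY.mem_box_iff_nm]
    simp [XY.nm]
  exact_mod_cast Finset.card_pos.2 ⟨_, h⟩

lemma pB_nonneg (ρ : ℕ) (u : ↥(box ρ)) : 0 ≤ pB ρ u := (inv_pos.2 (card_box_pos ρ)).le

lemma pB_pos (ρ : ℕ) (u : ↥(box ρ)) : 0 < pB ρ u := inv_pos.2 (card_box_pos ρ)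

lemma pB_sum (ρ : ℕ) : ∑ u, pB ρ u = 1 := by
  unfold pB
  rw [Finset.sum_const, Finset.card_univ, Fintype.card_coe, nsmul_eq_mul]
  exact mul_inv_cancel₀ (card_box_pos ρ).ne'

/-- the double average as 253's sum -/
lemma SS_eq (X : (Ed N → ℤ) × (V N → ℝ)) (ρ : ℕ) :
    SS (wTD N b) 0 (pB ρ) (dB N X ρ) = (((box ρ).card : ℝ)⁻¹) ^ 2 *
      ∑ u ∈ box ρ, ∑ v ∈ box ρ,
        CT N b (Dt N X.1 u + Dt N X.1 v) * CT N b (Dt N X.1 u - Dt N X.1 v) := by
  rw [← Finset.sum_coe_sort (box ρ), Finset.mul_sum]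
  unfold SS
  refine Finset.sum_congr rfl fun u _ => ?_
  rw [← Finset.sum_coe_sort (box ρ), Finset.mul_sum]
  refine Finset.sum_congr rfl fun v _ => ?_
  unfold pB
  rw [← pow_two]
  rfl

/-- **the double average of the translates** -/
theorem SS_tor (hb : 0 < b) {α C1 : ℝ} (hα : 1 / 4 ≤ α) (hα2 : α < 1 / 2) (hC1 : 0 ≤ C1) :
    ∃ K : ℝ, 1 ≤ K ∧ ∀ (N : ℕ) [NeZero N] (L ρ : ℕ) (X : (Ed N → ℤ) × (V N → ℝ)) (p q : V N)
      (d : ℤ × ℤ) (R c : ℝ), 1 ≤ ρ → 4 * ρ ≤ XY.nm d → 4 * XY.nm d ≤ N →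
      H817.IsPath p q d.1 d.2 L X.1 → q = p + H253.Sm.cz N d → 0 < R → 0 ≤ c →
      (∀ s : ℕ, 1 ≤ s → s ≤ ρ → ua b s ≤ C1 * (R / s) ^ α * c) →
      SS (wTD N b) 0 (pB ρ) (dB N X ρ) ≤ K * (R / ρ) ^ (4 * α) * c ^ 4 := by
  obtain ⟨K, hK1, hK⟩ := avg_pairG (C1 := C1) hb hα hα2 hC1
  refine ⟨K, hK1, fun N _ L ρ X p q d R c h1 h2 h3 h4 h5 h6 h7 h8 => ?_⟩
  have h := hK N L ρ X.1 p q d R c h1 h2 h3 h4 h5 h6 h7 h8
  have hc := card_box_pos ρ
  rw [SS_eq]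
  refine (mul_le_mul_of_nonneg_left h (by positivity)).trans (le_of_eq ?_)
  field_simp

/-- **(SM) on the torus, one position** -/
theorem sm_tor (hb : 0 < b) (ht : 0 < t) (X : (Ed N → ℤ) × (V N → ℝ)) (ρ : ℕ) (s r : ℝ) :
    IntegrableOn (ES (wTD N b) (t • 1) t 0 X s) (Ag (wTD N b) (t • 1) t 0 s r)
      (nuM (wTD N b 0) (t • 1) 0) ∧
    ∫ F in Ag (wTD N b) (t • 1) t 0 s r, ES (wTD N b) (t • 1) t 0 X s F
      ∂(nuM (wTD N b 0) (t • 1) 0) ≤
      Real.sqrt (SS (wTD N b) 0 (pB ρ) (dB N X ρ)) * Real.exp (r / 2) := by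
  have hw := gwf_wTD (N := N) hb
  have hM := mf_scalar (N := N) ht
  have hE := em_pin_wTD (N := N) hb
  constructor
  · have h0 : (0 : ℤ × ℤ) ∈ box ρ := by
      rw [XY.mem_box_iff_nm]
      simp [XY.nm]
    have h1 := ES_intOn hw hE hM 0 (pB_nonneg ρ) (dB N X ρ) s r ⟨0, h0⟩
    have h2 := h1.const_mul ((pB ρ ⟨0, h0⟩)⁻¹)
    refine h2.congr (Filter.Eventually.of_forall fun F => ?_)
    simp only
    rw [← mul_assoc, inv_mul_cancel₀ (pB_pos ρ _).ne', one_mul]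
    have e1 : dB N X ρ ⟨0, h0⟩ = X := by
      unfold dB trX
      have e2 : -H253.Sm.cz N ((⟨0, h0⟩ : ↥(box ρ)) : ℤ × ℤ) = 0 := by
        simp [H253.Sm.cz]
      rw [e2, trE_zero, trS_zero]
    rw [e1]
  · exact sm_one hw hE hM 0 (pB_nonneg ρ) (pB_sum ρ) (dB N X ρ) X s r
      fun u => hI_tor hb ht _ X s r

/-- the value at the zero background does not depend on the position -/
lemma Px_zero_tr (hb : 0 < b) (ht : 0 < t) (a : V N) (X : (Ed N → ℤ) × (V N → ℝ)) :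
    Px (wTD N b) (t • 1) (trX a X) 0 = Px (wTD N b) (t • 1) X 0 := by
  have h := Px_tr hb ht a X 0
  exact h

/-- **(SM2) on the torus, one position**, event invariant under translations -/
theorem sm2_tor (hb : 0 < b) (ht : 0 < t) (X : (Ed N → ℤ) × (V N → ℝ)) (ρ : ℕ)
    {A : Set (V N → ℝ)} (hA : MeasurableSet A) (hcA : CI fun F => F ∈ A)
    (hAt : ∀ a F, trS a F ∈ A ↔ F ∈ A) :
    ∫ F in A, Px (wTD N b) (t • 1) X F ∂(nuM (wTD N b 0) (t • 1) 0) ≤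
      Real.sqrt (SS (wTD N b) 0 (pB ρ) (dB N X ρ) * (nuM (wTD N b 0) (t • 1) 0).real A) /
        Px (wTD N b) (t • 1) X 0 := by
  have hw := gwf_wTD (N := N) hb
  have hM := mf_scalar (N := N) ht
  have hE := em_pin_wTD (N := N) hb
  exact sm2_Q_one hw hE hM 0 (pB_nonneg ρ) (pB_sum ρ) (dB N X ρ) (Px_pos hw hM X 0)
    (fun u => (Px_zero_tr hb ht _ X).ge) hA X fun u => hIP_tor hb ht _ X hA hcA (hAt _)

/-- **Q of an arbitrary event from `ν` probabilities only**: `e^K` bounds `√SS / CT²` -/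
theorem Q_tor (hb : 0 < b) (ht : 0 < t) (X : (Ed N → ℤ) × (V N → ℝ)) (ρ : ℕ) {r K Δ : ℝ}
    (hr : 0 ≤ r)
    (hK : Real.sqrt (SS (wTD N b) 0 (pB ρ) (dB N X ρ)) ≤ Real.exp K * CT N b X.1 ^ 2)
    (hΔ : H856.Dl.Del (wTD N b) (t • 1) t 0 X.1 X.2 ≤ Δ) {E : Set (V N → ℝ)}
    (hEm : MeasurableSet E) :
    ∫ F in E, Psi (wT b N) (wTD N b X.1) (t • 1) X.2 F ∂(nuM (wT b N) (t • 1) 0) ≤
      CT N b X.1 * (Real.exp (K + Δ) *
        Real.sqrt ((nuM (wT b N) (t • 1) 0).real (Ag (wTD N b) (t • 1) t 0 4 r)ᶜ) +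
      Real.exp ((K + r / 2) / 4 + 7 * Δ / 2) * Real.sqrt ((nuM (wT b N) (t • 1) 0).real E)) := by
  have hw := gwf_wTD (N := N) hb
  have hM := mf_scalar (N := N) ht
  have hE := em_pin_wTD (N := N) hb
  have hC : 0 < CT N b X.1 := CT_pos hb X.1
  have hCX : CX (wTD N b) 0 X = CT N b X.1 := rfl
  obtain ⟨s1, s2⟩ := sm_tor hb ht X ρ 4 r
  have hS0 := SS_nonneg hw hE (0 : V N) (pB_nonneg ρ) (dB N X ρ)
  -- the integral over the good set
  have hK' : ∫ F in Ag (wTD N b) (t • 1) t 0 4 r, ES (wTD N b) (t • 1) t 0 X 4 F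
      ∂(nuM (wTD N b 0) (t • 1) 0) ≤ Real.exp (K + r / 2) * CX (wTD N b) 0 X ^ 2 := by
    refine s2.trans ?_
    rw [Real.exp_add, hCX]
    calc _ ≤ (Real.exp K * CT N b X.1 ^ 2) * Real.exp (r / 2) :=
          mul_le_mul_of_nonneg_right hK (Real.exp_pos _).le
      _ = _ := by ring
  have h1 := QE hw hE hM 0 X s1 hK' hΔ hEm
  -- the bad set
  have hAm := meas_Ag (x₀ := (0 : V N)) hw hE hM 4 r
  have h2 := sm2_tor hb ht X ρ hAm.compl (fun F c => by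
    have := Ag_ci (N := N) hb ht 4 r F c
    simp only [Set.mem_compl_iff] at this ⊢
    rw [this]) fun a F => by
    simp only [Set.mem_compl_iff]
    rw [Ag_tr hb ht]
  -- the value at zero
  have hP0 : CT N b X.1 * Real.exp (-Δ) ≤ Px (wTD N b) (t • 1) X 0 := by
    rw [Px_exp (x₀ := 0) hw hM X 0]
    have h11 : Rw (wTD N b) (t • 1) t 0 (0 : V N → ℝ) = 0 := by
      unfold Rw
      rw [mulVec_zero, H789.Rs_zero]
    rw [h11, sub_zero]
    rw [Del_eq, hCX] at hΔ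
    have h12 : Real.log (CT N b X.1) - Δ ≤ Gx (wTD N b) (t • 1) t 0 X 0 := by linarith
    have h13 := Real.exp_le_exp.2 h12
    rwa [Real.exp_sub, Real.exp_log hC, div_eq_mul_inv, ← Real.exp_neg] at h13
  have hPpos := Px_pos hw hM X 0
  have h3 : Real.sqrt (SS (wTD N b) 0 (pB ρ) (dB N X ρ) *
      (nuM (wTD N b 0) (t • 1) 0).real (Ag (wTD N b) (t • 1) t 0 4 r)ᶜ) /
        Px (wTD N b) (t • 1) X 0 ≤ CT N b X.1 * (Real.exp (K + Δ) *
        Real.sqrt ((nuM (wTD N b 0) (t • 1) 0).real (Ag (wTD N b) (t • 1) t 0 4 r)ᶜ)) := by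
    rw [Real.sqrt_mul hS0, div_le_iff₀ hPpos]
    have hsq := Real.sqrt_nonneg
      ((nuM (wTD N b 0) (t • 1) 0).real (Ag (wTD N b) (t • 1) t 0 4 r)ᶜ)
    calc _ ≤ (Real.exp K * CT N b X.1 ^ 2) * Real.sqrt
          ((nuM (wTD N b 0) (t • 1) 0).real (Ag (wTD N b) (t • 1) t 0 4 r)ᶜ) :=
          mul_le_mul_of_nonneg_right hK hsq
      _ = CT N b X.1 * (Real.exp (K + Δ) * Real.sqrt
          ((nuM (wTD N b 0) (t • 1) 0).real (Ag (wTD N b) (t • 1) t 0 4 r)ᶜ)) *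
            (CT N b X.1 * Real.exp (-Δ)) := by
          have e1 : Real.exp (K + Δ) * Real.exp (-Δ) = Real.exp K := by
            rw [← Real.exp_add]
            congr 1
            ring
          linear_combination -(CT N b X.1 ^ 2 * Real.sqrt
            ((nuM (wTD N b 0) (t • 1) 0).real (Ag (wTD N b) (t • 1) t 0 4 r)ᶜ)) * e1
      _ ≤ _ := mul_le_mul_of_nonneg_left hP0 (by positivity)
  have h4 := h1.trans (add_le_add (h2.trans h3) le_rfl)
  rw [hCX] at h4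
  rw [← wTD_zero]
  refine le_trans (le_of_eq rfl) (h4.trans (le_of_eq ?_))
  ring

end fam

end

end Vale.Agent.P159.H552.Sm
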