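import Vale.Agent.P159.H552.Tl4

/-!
P159, helper552, module Tl5: Gaussian identity under `nuM`, tangent functional, variance bound.

* `gid` : `∫ e^{⟨k, A F⟩ - R(F)} dν = e^{A[k]/2} ∫ e^{-R} dν`,
* `lX` : derivative at `0` of `F ↦ Gx X F`; `lX_tan` : `Gx X F ≥ Gx X 0 + lX X F`,
* `lX_rep` : `lX X F = ⟨k, A F⟩` for some `k`,
* `lX_var` : `A[k] ≤ 2 (log CX - Gx X 0) + 2 log (1 / z)`, `z = ∫ e^{-R} dν`.
-/

open scoped Matrix
open Finset Matrix MeasureTheory

set_option linter.unusedSectionVars false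

namespace Vale.Agent.P159.H552.Sm

open Vale.Agent.P159.TM.H104 (EM T Ex Cv Lg li nh Gr)
open Vale.Agent.P159.H37
open Vale.Agent.P159.H770 (PSDF DisF GWF ZB)
open Vale.Agent.P159.H963 (GrI pin Neu ntr nM MF GW An)
open Vale.Agent.P159.H883

noncomputable section

/-! ### one weight -/

section one

variable {V : Type} [Fintype V] [DecidableEq V] [Nonempty V]
variable {w : (V → ℤ) → ℝ} {M : Matrix V V ℝ} {m : ℝ}

/-- the non-quadratic part, one weight -/
def R1 (w : (V → ℤ) → ℝ) (M : Matrix V V ℝ) (m : ℝ) (x₀ : V) (F : V → ℝ) : ℝ :=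
  Rs (nM w M m x₀) (ntr M m *ᵥ F)

lemma R1_ci (hM : MF M m) (x₀ : V) : CI (R1 w M m x₀) := fun F c => by
  unfold R1
  rw [ntr_addc hM]

lemma R1_nonneg (hw : GW w) (hM : MF M m) (x₀ : V) (F : V → ℝ) : 0 ≤ R1 w M m x₀ F :=
  H789.Rs_nonneg (hw.em_nM hM x₀) (hw.ev_nM M m x₀) (hw.pk_nM hM x₀) _

lemma R1_cont (hw : GW w) (hM : MF M m) (x₀ : V) : Continuous (R1 w M m x₀) :=
  (H114.continuous_Rs (hw.em_nM hM x₀)).comp (Continuous.matrix_mulVec continuous_const continuous_id)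

/-- `Zn e^{-R}` is Gaussian -/
lemma Zn_R1 (hw : GW w) (hM : MF M m) (x₀ : V) (F : V → ℝ) :
    Real.exp (-R1 w M m x₀ F) * Zn w M F = Zn w M 0 * Real.exp (-(qf (An w M m x₀) F / 2)) := by
  rw [Zn_Wt hw hM x₀ F]
  unfold Wt R1
  have h : Real.exp (-Rs (nM w M m x₀) (ntr M m *ᵥ F)) *
      Real.exp (Rs (nM w M m x₀) (ntr M m *ᵥ F)) = 1 := by
    rw [← Real.exp_add, neg_add_cancel, Real.exp_zero]
  linear_combination Zn w M 0 * Real.exp (-(qf (An w M m x₀) F / 2)) * h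

lemma bf_ci (hw : GW w) (hb : BW w) (hM : MF M m) (x₀ : V) (k : V → ℝ) :
    CI fun F => bf (An w M m x₀) k F := by
  have hP := pc_An hw hb hM x₀
  intro F c
  have e1 : (fun x => F x + c) = F + fun _ => c := rfl
  have e2 : An w M m x₀ *ᵥ (fun _ : V => c) = 0 := by
    funext x
    simp only [mulVec, dotProduct, Pi.zero_apply]
    rw [← Finset.sum_mul, hP.row, zero_mul]
  simp only
  rw [e1, bf_add_right, bf_eq (An w M m x₀) k (fun _ => c), e2, dotProduct_zero, add_zero]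

lemma bf_cont (A : Matrix V V ℝ) (k : V → ℝ) : Continuous fun F : V → ℝ => bf A k F := by
  unfold bf
  fun_prop

/-- the tilted Gaussian -/
lemma tilt_pt (hw : GW w) (hb : BW w) (hM : MF M m) (x₀ : V) (k F : V → ℝ) :
    Real.exp (bf (An w M m x₀) k F - R1 w M m x₀ F) * Zn w M F =
      Zn w M 0 * Real.exp (qf (An w M m x₀) k / 2) *
        Real.exp (-(qf (An w M m x₀) (F + -k) / 2)) := by
  have hP := pc_An hw hb hM x₀
  have h1 := Zn_R1 hw hM x₀ F
  have h2 : qf (An w M m x₀) (F + -k) = qf (An w M m x₀) F - 2 * bf (An w M m x₀) k F +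
      qf (An w M m x₀) k := by
    rw [qf_add_vec hP.symm, H37.qf_neg]
    have e : bf (An w M m x₀) F (-k) = -bf (An w M m x₀) k F := by
      have : (-k : V → ℝ) = (-1 : ℝ) • k := by simp
      rw [this, bf_smul_right, bf_comm hP.symm]
      ring
    rw [e]
    ring
  rw [sub_eq_add_neg, Real.exp_add, mul_assoc, h1, h2]
  have e3 : Real.exp (bf (An w M m x₀) k F) * (Zn w M 0 * Real.exp (-(qf (An w M m x₀) F / 2))) =
      Zn w M 0 * Real.exp (bf (An w M m x₀) k F + -(qf (An w M m x₀) F / 2)) := by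
    rw [Real.exp_add]
    ring
  rw [e3, mul_assoc, ← Real.exp_add]
  congr 2
  ring

/-- **Gaussian identity** -/
theorem gid (hw : GW w) (hb : BW w) (hM : MF M m) (x₀ : V) (k : V → ℝ) :
    Integrable (fun F => Real.exp (bf (An w M m x₀) k F - R1 w M m x₀ F)) (nuM w M x₀) ∧
    ∫ F, Real.exp (bf (An w M m x₀) k F - R1 w M m x₀ F) ∂(nuM w M x₀) =
      Real.exp (qf (An w M m x₀) k / 2) * ∫ F, Real.exp (-R1 w M m x₀ F) ∂(nuM w M x₀) := by
  have hP := pc_An hw hb hM x₀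
  have hc1 : CI fun F => Real.exp (bf (An w M m x₀) k F - R1 w M m x₀ F) := fun F c => by
    have e1 := bf_ci hw hb hM x₀ k F c
    have e2 := R1_ci (w := w) hM x₀ F c
    simp only at e1 e2 ⊢
    rw [e1, e2]
  have hc0 : CI fun F => Real.exp (-R1 w M m x₀ F) := fun F c => by
    have e2 := R1_ci (w := w) hM x₀ F c
    simp only at e2 ⊢
    rw [e2]
  have hm1 : Measurable fun F => Real.exp (bf (An w M m x₀) k F - R1 w M m x₀ F) :=
    (Real.continuous_exp.comp ((bf_cont _ k).sub (R1_cont hw hM x₀))).measurable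
  have hm0 : Measurable fun F => Real.exp (-R1 w M m x₀ F) :=
    (Real.continuous_exp.comp (R1_cont hw hM x₀).neg).measurable
  have n1 := nuM_ci hw hb hM x₀ hc1 hm1
  have n0 := nuM_ci hw hb hM x₀ hc0 hm0
  have hs := SI_shift hP.ci_exp x₀ (-k)
  have hsi := SI_shift_int hP.ci_exp x₀ (-k) (hP.int_slab x₀)
  have ef1 : (fun F => Real.exp (bf (An w M m x₀) k F - R1 w M m x₀ F) * Zn w M F) =
      fun F => Zn w M 0 * Real.exp (qf (An w M m x₀) k / 2) *
        Real.exp (-(qf (An w M m x₀) (F + -k) / 2)) := funext fun F => tilt_pt hw hb hM x₀ k F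
  have ef0 : (fun F => Real.exp (-R1 w M m x₀ F) * Zn w M F) =
      fun F => Zn w M 0 * Real.exp (-(qf (An w M m x₀) F / 2)) := funext fun F => Zn_R1 hw hM x₀ F
  constructor
  · rw [n1.1]
    unfold IN
    rw [ef1]
    exact hsi.const_mul _
  · rw [n1.2, n0.2]
    unfold Enu
    rw [ef1, ef0]
    have e1 : SI x₀ (fun F => Zn w M 0 * Real.exp (qf (An w M m x₀) k / 2) *
        Real.exp (-(qf (An w M m x₀) (F + -k) / 2))) =
        Zn w M 0 * Real.exp (qf (An w M m x₀) k / 2) *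
          SI x₀ fun F => Real.exp (-(qf (An w M m x₀) F / 2)) := by
      rw [← hs]
      unfold SI
      exact integral_const_mul _ _
    have e0 : SI x₀ (fun F => Zn w M 0 * Real.exp (-(qf (An w M m x₀) F / 2))) =
        Zn w M 0 * SI x₀ fun F => Real.exp (-(qf (An w M m x₀) F / 2)) := by
      unfold SI
      exact integral_const_mul _ _
    rw [e1, e0]
    ring

/-- `z = ∫ e^{-R} dν` is in `(0, 1]` -/
theorem zR_pos (hw : GW w) (hb : BW w) (hM : MF M m) (x₀ : V) :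
    Integrable (fun F => Real.exp (-R1 w M m x₀ F)) (nuM w M x₀) ∧
    0 < ∫ F, Real.exp (-R1 w M m x₀ F) ∂(nuM w M x₀) ∧
    ∫ F, Real.exp (-R1 w M m x₀ F) ∂(nuM w M x₀) ≤ 1 := by
  have := prob_nuM hw hb hM x₀
  have hm0 : Measurable fun F => Real.exp (-R1 w M m x₀ F) :=
    (Real.continuous_exp.comp (R1_cont hw hM x₀).neg).measurable
  have hle : ∀ F, Real.exp (-R1 w M m x₀ F) ≤ 1 := fun F =>
    Real.exp_le_one_iff.2 (by linarith [R1_nonneg hw hM x₀ F])
  have hi : Integrable (fun F => Real.exp (-R1 w M m x₀ F)) (nuM w M x₀) :=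
    (integrable_const (1 : ℝ)).mono' hm0.aestronglyMeasurable
      (Filter.Eventually.of_forall fun F => by
        rw [Real.norm_eq_abs, abs_of_pos (Real.exp_pos _)]
        exact hle F)
  refine ⟨hi, ?_, ?_⟩
  · rw [integral_pos_iff_support_of_nonneg (fun F => (Real.exp_pos _).le) hi]
    have : Function.support (fun F => Real.exp (-R1 w M m x₀ F)) = Set.univ := by
      ext F
      simp
    rw [this]
    simp
  · have h := integral_mono hi (integrable_const (1 : ℝ)) hle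
    simpa using h

/-- lower bound of `z` by the probability of `R ≤ r` -/
theorem zR_ge (hw : GW w) (hb : BW w) (hM : MF M m) (x₀ : V) (r : ℝ) :
    Real.exp (-r) * (nuM w M x₀).real {F | R1 w M m x₀ F ≤ r} ≤
      ∫ F, Real.exp (-R1 w M m x₀ F) ∂(nuM w M x₀) := by
  have := prob_nuM hw hb hM x₀
  have hA : MeasurableSet {F | R1 w M m x₀ F ≤ r} :=
    measurableSet_le (R1_cont hw hM x₀).measurable measurable_const
  obtain ⟨hi, -, -⟩ := zR_pos hw hb hM x₀
  calc Real.exp (-r) * (nuM w M x₀).real {F | R1 w M m x₀ F ≤ r} =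
        ∫ F in {F | R1 w M m x₀ F ≤ r}, Real.exp (-r) ∂(nuM w M x₀) := by
        rw [setIntegral_const, smul_eq_mul, mul_comm]
    _ ≤ ∫ F in {F | R1 w M m x₀ F ≤ r}, Real.exp (-R1 w M m x₀ F) ∂(nuM w M x₀) := by
        refine setIntegral_mono_on (integrable_const _) hi.integrableOn hA fun F hF => ?_
        have : R1 w M m x₀ F ≤ r := hF
        exact Real.exp_le_exp.2 (by linarith)
    _ ≤ _ := setIntegral_le_integral hi (Filter.Eventually.of_forall fun F => (Real.exp_pos _).le)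

/-- representation of the linear functionals invariant under constants -/
theorem PC_rep {A : Matrix V V ℝ} (hA : PC A) {l : (V → ℝ) → ℝ}
    (hadd : ∀ F G, l (F + G) = l F + l G) (hsm : ∀ (s : ℝ) F, l (s • F) = s * l F)
    (h1 : l (fun _ => 1) = 0) : ∃ k : V → ℝ, ∀ F, l F = bf A k F := by
  set c : V → ℝ := fun x => l (Pi.single x 1) with hc
  have hl : ∀ F : V → ℝ, l F = ∑ x, F x * c x := by
    intro F
    have e : F = ∑ x, F x • (Pi.single x (1 : ℝ) : V → ℝ) := by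
      funext y
      simp [Finset.sum_apply, Pi.single_apply]
    have hz : l 0 = 0 := by
      have := hsm 0 0
      simpa using this
    have hsum : ∀ (s : Finset V) (G : V → V → ℝ), l (∑ x ∈ s, G x) = ∑ x ∈ s, l (G x) := by
      intro s G
      induction s using Finset.induction_on with
      | empty => simpa using hz
      | insert a s ha ih => rw [Finset.sum_insert ha, hadd, ih, Finset.sum_insert ha]
    conv_lhs => rw [e]
    rw [hsum]
    exact Finset.sum_congr rfl fun x _ => hsm _ _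
  have hc0 : ∑ x, c x = 0 := by
    have := hl fun _ => 1
    rw [h1] at this
    simpa using this.symm
  refine ⟨Hi A *ᵥ c, fun F => ?_⟩
  have e1 : A *ᵥ (Hi A *ᵥ c) = c := by
    rw [mulVec_mulVec, hA.H_Hi, Matrix.sub_mulVec, Matrix.one_mulVec, J1_mulVec, hc0, zero_div]
    funext x
    simp
  rw [bf_comm hA.symm, bf_eq, e1, hl]
  rfl

end one

/-! ### the tangent functional -/

section tan

variable {B V : Type} [AddCommGroup B] [Fintype V] [DecidableEq V] [Nonempty V]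
variable {w : B → (V → ℤ) → ℝ} {M : Matrix V V ℝ} {m : ℝ} {x₀ : V}

lemma Rw_R1 : Rw w M m x₀ = R1 (w 0) M m x₀ := rfl

/-- the derivative at `0` of `F ↦ Gx X F` -/
def lX (w : B → (V → ℤ) → ℝ) (M : Matrix V V ℝ) (m : ℝ) (x₀ : V) (X : B × (V → ℝ))
    (F : V → ℝ) : ℝ :=
  Ex (nM (w X.1) M m x₀) (ntr M m *ᵥ X.2) (li (ntr M m *ᵥ F)) - bf (ntr M m) X.2 F

lemma lX_add (hw : GWF w) (hM : MF M m) (X : B × (V → ℝ)) (F G : V → ℝ) :
    lX w M m x₀ X (F + G) = lX w M m x₀ X F + lX w M m x₀ X G := by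
  unfold lX
  rw [mulVec_add, H770.Ex_li_add (hw.disF_nM hM x₀), bf_add_right]
  ring

lemma lX_smul (X : B × (V → ℝ)) (s : ℝ) (F : V → ℝ) :
    lX w M m x₀ X (s • F) = s * lX w M m x₀ X F := by
  unfold lX
  rw [mulVec_smul, H770.Ex_li_smul, bf_smul_right]
  ring

lemma ntr_const (hM : MF M m) (c : ℝ) : ntr M m *ᵥ (fun _ : V => c) = 0 := by
  have h := ntr_addc hM (0 : V → ℝ) c
  simp only [Pi.zero_apply, zero_add, mulVec_zero] at h
  exact h

lemma lX_one (hM : MF M m) (X : B × (V → ℝ)) : lX w M m x₀ X (fun _ => 1) = 0 := by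
  have h1 := H770.Ex_li_smul (nM (w X.1) M m x₀) (ntr M m *ᵥ X.2) 0 (0 : V → ℝ)
  rw [zero_smul, zero_mul] at h1
  unfold lX
  rw [bf_eq, ntr_const hM, h1, dotProduct_zero, sub_zero]

lemma lX_deriv (hw : GWF w) (hM : MF M m) (X : B × (V → ℝ)) (F : V → ℝ) :
    HasDerivAt (fun s : ℝ => Gx w M m x₀ X (s • F)) (lX w M m x₀ X F) 0 := by
  have hW := hw.disF_nM hM x₀
  have h1 := TM.H104.hasDerivAt_Lg (hW.em X.1) (ntr M m *ᵥ X.2) (ntr M m *ᵥ F) 0
  rw [zero_smul, add_zero] at h1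
  -- the quadratic polynomial
  have h2 : HasDerivAt (fun s : ℝ => -(s * bf (ntr M m) X.2 F) - s ^ 2 * qf (ntr M m) F / 2 +
      s ^ 2 * qf (An (w 0) M m x₀) F / 2) (-bf (ntr M m) X.2 F) 0 := by
    have a1 : HasDerivAt (fun s : ℝ => s) 1 0 := hasDerivAt_id 0
    have a2 := ((a1.mul_const (bf (ntr M m) X.2 F)).neg.sub
      (((a1.pow 2).mul_const (qf (ntr M m) F)).div_const 2)).add
      (((a1.pow 2).mul_const (qf (An (w 0) M m x₀) F)).div_const 2)
    refine a2.congr_deriv ?_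
    simp
  have h3 := (h1.add h2).add_const
    (Real.log (Real.sqrt (2 * Real.pi / (m * Fintype.card V))) - qf (ntr M m) X.2 / 2 -
      Real.log (Zn (w 0) M 0))
  refine (h3.congr_deriv ?_).congr_of_eventuallyEq (Filter.Eventually.of_forall fun s => ?_)
  · unfold lX
    ring
  · unfold Gx gP
    simp only [Pi.add_apply]
    have e1 := qf_add_vec (H963.ntr_transpose hM.symm m) X.2 (s • F)
    rw [bf_smul_right, qf_smul] at e1
    rw [log_Zn hw hM (x₀ := x₀), e1, mulVec_add, mulVec_smul, qf_smul]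
    ring

/-- convexity in the field -/
lemma Gx_cvx (hw : GWF w) (hM : MF M m) (X : B × (V → ℝ)) :
    ConvexOn ℝ Set.univ (Gx w M m x₀ X) := by
  have h := (eng_neu (x₀ := x₀) hw hM).cvx (X, 0)
  have e : ∀ F : V → ℝ, gP w M m x₀ ((X, 0) + rP B V F) = Gx w M m x₀ X F := by
    intro F
    unfold Gx
    rw [rP_apply]
    congr 1
    ext <;> simp
  simpa only [e] using h

/-- **the tangent inequality** -/
theorem lX_tan (hw : GWF w) (hM : MF M m) (X : B × (V → ℝ)) (F : V → ℝ) :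
    Gx w M m x₀ X 0 + lX w M m x₀ X F ≤ Gx w M m x₀ X F := by
  have hc := Gx_cvx (x₀ := x₀) hw hM X
  have hl : ConvexOn ℝ Set.univ fun s : ℝ => Gx w M m x₀ X (s • F) := by
    refine ⟨convex_univ, fun s _ t _ a b ha hb hab => ?_⟩
    have h1 := hc.2 (Set.mem_univ (s • F)) (Set.mem_univ (t • F)) ha hb hab
    have e : (a • s + b • t) • F = a • s • F + b • t • F := by
      simp only [smul_eq_mul]
      module
    simp only
    rw [e]
    exact h1
  have h2 := hl.le_slope_of_hasDerivAt (Set.mem_univ 0) (Set.mem_univ 1) zero_lt_one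
    (lX_deriv (x₀ := x₀) hw hM X F)
  rw [slope_def_field] at h2
  simp only [one_smul, zero_smul, sub_zero, div_one] at h2
  linarith

/-- representation by the quadratic form -/
theorem lX_rep (hw : GWF w) (hE : ∀ b x₀, EM (pin (w b) x₀)) (hM : MF M m) (x₀ : V)
    (X : B × (V → ℝ)) : ∃ k : V → ℝ, ∀ F, lX w M m x₀ X F = bf (An (w 0) M m x₀) k F :=
  PC_rep (pc_An (gw0 hw) (gwf_bw hw hE 0) hM x₀) (lX_add hw hM X) (fun s F => lX_smul X s F)
    (lX_one hM X)

/-- `z = ∫ e^{-R} dν` -/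
def zR (w : B → (V → ℤ) → ℝ) (M : Matrix V V ℝ) (m : ℝ) (x₀ : V) : ℝ :=
  ∫ F, Real.exp (-Rw w M m x₀ F) ∂(nuM (w 0) M x₀)

lemma zR_pos' (hw : GWF w) (hE : ∀ b x₀, EM (pin (w b) x₀)) (hM : MF M m) (x₀ : V) :
    0 < zR w M m x₀ := (zR_pos (gw0 hw) (gwf_bw hw hE 0) hM x₀).2.1

lemma zR_le' (hw : GWF w) (hE : ∀ b x₀, EM (pin (w b) x₀)) (hM : MF M m) (x₀ : V) :
    zR w M m x₀ ≤ 1 := (zR_pos (gw0 hw) (gwf_bw hw hE 0) hM x₀).2.2

lemma zR_ge' (hw : GWF w) (hE : ∀ b x₀, EM (pin (w b) x₀)) (hM : MF M m) (x₀ : V) (r : ℝ) :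
    Real.exp (-r) * (nuM (w 0) M x₀).real {F | Rw w M m x₀ F ≤ r} ≤ zR w M m x₀ :=
  zR_ge (gw0 hw) (gwf_bw hw hE 0) hM x₀ r

/-- **variance of the tangent functional** -/
theorem lX_var (hw : GWF w) (hE : ∀ b x₀, EM (pin (w b) x₀)) (hM : MF M m) (x₀ : V)
    (X : B × (V → ℝ)) {k : V → ℝ} (hk : ∀ F, lX w M m x₀ X F = bf (An (w 0) M m x₀) k F) :
    qf (An (w 0) M m x₀) k ≤
      2 * (Real.log (CX w x₀ X) - Gx w M m x₀ X 0) + 2 * Real.log (1 / zR w M m x₀) := by
  obtain ⟨h1, h2⟩ := gid (gw0 hw) (gwf_bw hw hE 0) hM x₀ k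
  obtain ⟨h3, h4⟩ := Px_mean hw hE hM x₀ X
  have hz := zR_pos' hw hE hM x₀
  have hC := CX_pos hw hE x₀ X
  have h5 : Real.exp (Gx w M m x₀ X 0) *
      ∫ F, Real.exp (bf (An (w 0) M m x₀) k F - R1 (w 0) M m x₀ F) ∂(nuM (w 0) M x₀) ≤
      CX w x₀ X := by
    rw [← h4, ← integral_const_mul]
    refine integral_mono (h1.const_mul _) h3 fun F => ?_
    simp only
    rw [Px_exp (x₀ := x₀) hw hM X F, ← Real.exp_add]
    refine Real.exp_le_exp.2 ?_
    have := lX_tan (x₀ := x₀) hw hM X F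
    rw [hk F] at this
    rw [Rw_R1]
    linarith
  rw [h2] at h5
  have h6 : Real.exp (Gx w M m x₀ X 0) * (Real.exp (qf (An (w 0) M m x₀) k / 2) *
      zR w M m x₀) ≤ CX w x₀ X := h5
  have h7 := Real.log_le_log (by positivity) h6
  rw [Real.log_mul (Real.exp_pos _).ne' (by positivity), Real.log_mul (Real.exp_pos _).ne' hz.ne',
    Real.log_exp, Real.log_exp] at h7
  rw [one_div, Real.log_inv]
  linarith

end tan

end

end Vale.Agent.P159.H552.Sm
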