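import Vale.Agent.P159.H552.In5b

/-!
P159 / module IN5, part c (helper552): locality of the Gaussian step, of the main function, and the
packaging of a family of densities into the state of helper363's `one_window`.
-/

namespace Vale.Agent.P159.H552

open MeasureTheory ProbabilityTheory Finset Matrix
open Vale.Agent.P159.H37 (gau)
open Vale.Agent.P159.H363 (Ch Loc mainf ee norm_ee measurable_mainf norm_mainf_le Pg
  measurable_mulVec)
open scoped Real

noncomputable section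

variable {I J Λ : Type*} [Fintype I] [Fintype J] [Fintype Λ] [DecidableEq Λ]

/-! ### the step -/

/-- the density after one Gaussian step: `Ψ_x(f) = ∑_y ahat(x,y) E u_y(ahat f + ζ)` -/
def Ps (ah : Matrix Λ Λ ℝ) (A : Matrix Λ I ℝ) (u : Λ → (Λ → ℝ) → ℂ) (x : Λ) (f : Λ → ℝ) : ℂ :=
  ∑ y, (ah x y : ℂ) * ∫ g, u y (ah *ᵥ f + A *ᵥ g) ∂(gau I)

variable {ah : Matrix Λ Λ ℝ} {A : Matrix Λ I ℝ} {u : Λ → (Λ → ℝ) → ℂ}

omit [DecidableEq Λ] in
lemma norm_Ps_le (h0 : ∀ x y, 0 ≤ ah x y) (h1 : ∀ x, ∑ y, ah x y = 1) {K : ℝ}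
    (hK : ∀ y F, ‖u y F‖ ≤ K) (x : Λ) (f : Λ → ℝ) : ‖Ps ah A u x f‖ ≤ K := by
  unfold Ps
  refine (norm_sum_le _ _).trans ?_
  calc ∑ y, ‖(ah x y : ℂ) * ∫ g, u y (ah *ᵥ f + A *ᵥ g) ∂(gau I)‖ ≤ ∑ y, ah x y * K := by
        refine Finset.sum_le_sum fun y _ => ?_
        rw [norm_mul, Complex.norm_real, Real.norm_eq_abs, abs_of_nonneg (h0 x y)]
        refine mul_le_mul_of_nonneg_left ?_ (h0 x y)
        have := norm_integral_le_of_norm_le_const (μ := gau I)
          (f := fun g => u y (ah *ᵥ f + A *ᵥ g)) (C := K)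
          (Filter.Eventually.of_forall fun g => hK y _)
        simpa using this
    _ = K := by rw [← Finset.sum_mul, h1 x, one_mul]

omit [DecidableEq Λ] in
lemma measurable_Ps (hm : ∀ y, Measurable (u y)) (x : Λ) : Measurable (Ps ah A u x) := by
  unfold Ps
  refine Finset.measurable_fun_sum _ fun y _ => Measurable.const_mul ?_ _
  apply StronglyMeasurable.measurable
  apply StronglyMeasurable.integral_prod_right'
    (f := fun q : (Λ → ℝ) × (I → ℝ) => u y (ah *ᵥ q.1 + A *ᵥ q.2))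
  apply Measurable.stronglyMeasurable
  exact (hm y).comp (((measurable_mulVec ah).comp measurable_fst).add
    ((measurable_mulVec A).comp measurable_snd))

omit [DecidableEq Λ] in
/-- the step keeps charge one -/
lemma ch_Ps (h1 : ∀ x, ∑ y, ah x y = 1) (hc : ∀ y, Ch (u y)) (x : Λ) : Ch (Ps ah A u x) := by
  intro f c
  unfold Ps
  rw [Finset.mul_sum]
  refine Finset.sum_congr rfl fun y _ => ?_
  have e : ∀ g : I → ℝ, u y (ah *ᵥ (fun x => f x + c) + A *ᵥ g)
      = Complex.exp (((2 * π * c : ℝ) : ℂ) * Complex.I) * u y (ah *ᵥ f + A *ᵥ g) := by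
    intro g
    rw [← hc y]
    congr 1
    funext v
    simp only [Pi.add_apply, mulVec, dotProduct, mul_add, Finset.sum_add_distrib]
    rw [← Finset.sum_mul, h1 v, one_mul]
    ring
  simp only [e]
  rw [integral_const_mul]
  ring

/-- **LOCALITY OF THE STEP**, pointwise in `f` -/
theorem step_loc (h0 : ∀ x y, 0 ≤ ah x y) (h1 : ∀ x, ∑ y, ah x y = 1)
    (hm : ∀ y, Measurable (u y)) {K Lp r p κ : ℝ} (hK : ∀ y F, ‖u y F‖ ≤ K)
    (hLp : ∀ y (F F' : Λ → ℝ) (k : ℝ), (∀ v, |F v - F' v| ≤ k) → ‖u y F - u y F'‖ ≤ Lp * k)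
    (x : Λ) (B Nx : Finset Λ) (B' : Λ → Finset Λ) (hB' : ∀ y ∈ Nx, y ∈ B' y)
    (Gd : Λ → Set (Λ → ℝ)) (hGm : ∀ y, MeasurableSet (Gd y)) (hr : 0 ≤ r)
    (hloc : ∀ y ∈ Nx, ∀ F ∈ Gd y, ‖u y F - u y (cutB (B' y) y F)‖ ≤ r)
    (f : Λ → ℝ) (hp : 0 ≤ p)
    (hp1 : ∀ y ∈ Nx, (gau I).real {g | ah *ᵥ f + A *ᵥ g ∉ Gd y} ≤ p)
    (hp2 : ∀ y ∈ Nx, (gau I).real {g | ah *ᵥ (cutB B x f) + A *ᵥ g ∉ Gd y} ≤ p)
    (hκ0 : 0 ≤ Lp * κ) (hκ : ∀ y ∈ Nx, ∀ v ∈ B' y, ∑ v' ∈ Bᶜ, ah v v' * |f v' - f x| ≤ κ) :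
    ‖Ps ah A u x f - Ps ah A u x (cutB B x f)‖
      ≤ 2 * K * ∑ y ∈ Nxᶜ, ah x y + (2 * r + Lp * κ + 4 * K * p) := by
  set f' := cutB B x f with hf'
  -- the change of the smoothed field on the small windows
  have hdiff : ∀ v, |(ah *ᵥ f) v - (ah *ᵥ f') v| ≤ ∑ v' ∈ Bᶜ, ah v v' * |f v' - f x| := by
    intro v
    have e : (ah *ᵥ f) v - (ah *ᵥ f') v = ∑ v', ah v v' * (f v' - f' v') := by
      simp only [mulVec, dotProduct]
      rw [← Finset.sum_sub_distrib]
      exact Finset.sum_congr rfl fun v' _ => by ring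
    rw [e]
    refine (Finset.abs_sum_le_sum_abs _ _).trans ?_
    rw [← Finset.sum_add_sum_compl B]
    have hz : ∑ v' ∈ B, |ah v v' * (f v' - f' v')| = 0 := by
      refine Finset.sum_eq_zero fun v' hv' => ?_
      rw [hf', cutB_of_mem hv', sub_self, mul_zero, abs_zero]
    rw [hz, zero_add]
    refine Finset.sum_le_sum fun v' hv' => ?_
    rw [abs_mul, abs_of_nonneg (h0 v v')]
    have : f' v' = f x := by
      rw [hf']
      unfold cutB
      rw [if_neg (Finset.mem_compl.1 hv')]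
    rw [this]
  have hmeas : ∀ (q : Λ → ℝ) y, Measurable fun g : I → ℝ => u y (ah *ᵥ q + A *ᵥ g) := fun q y =>
    (hm y).comp (measurable_const.add (measurable_mulVec A))
  have hint : ∀ (q : Λ → ℝ) y, Integrable (fun g : I → ℝ => u y (ah *ᵥ q + A *ᵥ g)) (gau I) :=
    fun q y => Integrable.of_bound (C := K) (hmeas q y).aestronglyMeasurable
      (Filter.Eventually.of_forall fun g => hK y _)
  -- sites of `Nx`
  have hnear : ∀ y ∈ Nx, ‖(∫ g, u y (ah *ᵥ f + A *ᵥ g) ∂(gau I))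
      - ∫ g, u y (ah *ᵥ f' + A *ᵥ g) ∂(gau I)‖ ≤ 2 * r + Lp * κ + 4 * K * p := by
    intro y hy
    have hK0 : 0 ≤ K := (norm_nonneg _).trans (hK y 0)
    rw [← integral_sub (hint f y) (hint f' y)]
    set S1 : Set (I → ℝ) := {g | ah *ᵥ f + A *ᵥ g ∉ Gd y} with hS1
    set S2 : Set (I → ℝ) := {g | ah *ᵥ f' + A *ᵥ g ∉ Gd y} with hS2
    have mS : ∀ q : Λ → ℝ, MeasurableSet {g : I → ℝ | ah *ᵥ q + A *ᵥ g ∉ Gd y} := fun q =>
      ((hGm y).compl).preimage (measurable_const.add (measurable_mulVec A))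
    have m1 : MeasurableSet S1 := mS f
    have m2 : MeasurableSet S2 := mS f'
    have hpt : ∀ g : I → ℝ, ‖u y (ah *ᵥ f + A *ᵥ g) - u y (ah *ᵥ f' + A *ᵥ g)‖
        ≤ (2 * r + Lp * κ) + (S1.indicator (fun _ => 2 * K) g
          + S2.indicator (fun _ => 2 * K) g) := by
      intro g
      have hi1 : 0 ≤ S1.indicator (fun _ => 2 * K) g :=
        Set.indicator_nonneg (fun _ _ => by linarith) g
      have hi2 : 0 ≤ S2.indicator (fun _ => 2 * K) g :=
        Set.indicator_nonneg (fun _ _ => by linarith) g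
      have hcr : ‖u y (ah *ᵥ f + A *ᵥ g) - u y (ah *ᵥ f' + A *ᵥ g)‖ ≤ 2 * K := by
        refine (norm_sub_le _ _).trans ?_
        linarith [hK y (ah *ᵥ f + A *ᵥ g), hK y (ah *ᵥ f' + A *ᵥ g)]
      by_cases g1 : g ∈ S1
      · have : S1.indicator (fun _ => 2 * K) g = 2 * K := Set.indicator_of_mem g1 _
        linarith
      by_cases g2 : g ∈ S2
      · have : S2.indicator (fun _ => 2 * K) g = 2 * K := Set.indicator_of_mem g2 _
        linarith
      have G1 : ah *ᵥ f + A *ᵥ g ∈ Gd y := by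
        by_contra h; exact g1 h
      have G2 : ah *ᵥ f' + A *ᵥ g ∈ Gd y := by
        by_contra h; exact g2 h
      set F := ah *ᵥ f + A *ᵥ g
      set F' := ah *ᵥ f' + A *ᵥ g
      have hFF : ∀ v ∈ B' y, |F v - F' v| ≤ κ := by
        intro v hv
        have : F v - F' v = (ah *ᵥ f) v - (ah *ᵥ f') v := by
          simp only [F, F', Pi.add_apply]
          ring
        rw [this]
        exact (hdiff v).trans (hκ y hy v hv)
      have a1 := hloc y hy F G1
      have a2 := hloc y hy F' G2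
      have a3 : ‖u y (cutB (B' y) y F) - u y (cutB (B' y) y F')‖ ≤ Lp * κ := by
        refine hLp y _ _ κ fun v => ?_
        unfold cutB
        split_ifs with hv
        · exact hFF v hv
        · exact hFF y (hB' y hy)
      have a4 : u y F - u y F' = (u y F - u y (cutB (B' y) y F))
          + (u y (cutB (B' y) y F) - u y (cutB (B' y) y F'))
          - (u y F' - u y (cutB (B' y) y F')) := by ring
      rw [a4]
      refine (norm_sub_le _ _).trans ?_
      have a5 := norm_add_le (u y F - u y (cutB (B' y) y F))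
        (u y (cutB (B' y) y F) - u y (cutB (B' y) y F'))
      linarith
    refine (norm_integral_le_integral_norm _).trans ?_
    have hI : Integrable (fun g => (2 * r + Lp * κ) + (S1.indicator (fun _ => 2 * K) g
          + S2.indicator (fun _ => 2 * K) g)) (gau I) :=
      (integrable_const _).add (((integrable_const _).indicator m1).add
        ((integrable_const _).indicator m2))
    refine (integral_mono ((hint f y).sub (hint f' y)).norm hI hpt).trans ?_
    have j1 : Integrable (fun g => S1.indicator (fun _ => 2 * K) g) (gau I) :=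
      (integrable_const _).indicator m1
    have j2 : Integrable (fun g => S2.indicator (fun _ => 2 * K) g) (gau I) :=
      (integrable_const _).indicator m2
    have e1 : ∫ g, ((2 * r + Lp * κ) + (S1.indicator (fun _ => 2 * K) g
          + S2.indicator (fun _ => 2 * K) g)) ∂(gau I)
        = (2 * r + Lp * κ) + ((gau I).real S1 * (2 * K) + (gau I).real S2 * (2 * K)) := by
      have q1 := integral_add (integrable_const (μ := gau I) (2 * r + Lp * κ)) (j1.add j2)
      simp only [Pi.add_apply] at q1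
      rw [q1, integral_add j1 j2, integral_indicator_const _ m1, integral_indicator_const _ m2]
      simp only [integral_const, probReal_univ, smul_eq_mul, one_mul]
    rw [e1]
    have b1 := hp1 y hy
    have b2 := hp2 y hy
    nlinarith
  -- sum over all sites
  have e : Ps ah A u x f - Ps ah A u x f'
      = ∑ y, (ah x y : ℂ) * ((∫ g, u y (ah *ᵥ f + A *ᵥ g) ∂(gau I))
        - ∫ g, u y (ah *ᵥ f' + A *ᵥ g) ∂(gau I)) := by
    unfold Ps
    rw [← Finset.sum_sub_distrib]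
    exact Finset.sum_congr rfl fun y _ => by ring
  rw [e]
  refine (norm_sum_le _ _).trans ?_
  rw [← Finset.sum_add_sum_compl Nx, add_comm]
  refine add_le_add ?_ ?_
  · rw [Finset.mul_sum]
    refine Finset.sum_le_sum fun y _ => ?_
    rw [norm_mul, Complex.norm_real, Real.norm_eq_abs, abs_of_nonneg (h0 x y)]
    have hb : ∀ q : Λ → ℝ, ‖∫ g, u y (ah *ᵥ q + A *ᵥ g) ∂(gau I)‖ ≤ K := by
      intro q
      have := norm_integral_le_of_norm_le_const (μ := gau I)
        (f := fun g => u y (ah *ᵥ q + A *ᵥ g)) (C := K)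
        (Filter.Eventually.of_forall fun g => hK y _)
      simpa using this
    have h3 := (norm_sub_le (∫ g, u y (ah *ᵥ f + A *ᵥ g) ∂(gau I))
      (∫ g, u y (ah *ᵥ f' + A *ᵥ g) ∂(gau I))).trans (add_le_add (hb f) (hb f'))
    have h4 := mul_le_mul_of_nonneg_left h3 (h0 x y)
    linarith
  · have hC : ∀ y ∈ Nx, ‖(ah x y : ℂ) * ((∫ g, u y (ah *ᵥ f + A *ᵥ g) ∂(gau I))
        - ∫ g, u y (ah *ᵥ f' + A *ᵥ g) ∂(gau I))‖ ≤ ah x y * (2 * r + Lp * κ + 4 * K * p) := by
      intro y hy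
      rw [norm_mul, Complex.norm_real, Real.norm_eq_abs, abs_of_nonneg (h0 x y)]
      exact mul_le_mul_of_nonneg_left (hnear y hy) (h0 x y)
    refine (Finset.sum_le_sum hC).trans ?_
    rw [← Finset.sum_mul]
    have hK0 : 0 ≤ K := (norm_nonneg _).trans (hK x 0)
    have hs : ∑ y ∈ Nx, ah x y ≤ 1 := by
      rw [← h1 x]
      exact Finset.sum_le_sum_of_subset_of_nonneg (Finset.subset_univ _) fun y _ _ => h0 x y
    have hq : 0 ≤ 2 * r + Lp * κ + 4 * K * p := by positivity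
    nlinarith

/-! ### the main function -/

lemma norm_ee_sub_le (a b : ℝ) : ‖ee a - ee b‖ ≤ 2 * π * |a - b| := by
  have e : ee a - ee b = ee b * (ee (a - b) - 1) := by
    rw [mul_sub, mul_one, ← H363.ee_add]
    congr 2
    ring
  rw [e, norm_mul, norm_ee, one_mul]
  unfold ee
  have h := Real.norm_exp_I_mul_ofReal_sub_one_le (x := 2 * π * (a - b))
  rw [mul_comm Complex.I] at h
  refine h.trans (le_of_eq ?_)
  rw [Real.norm_eq_abs, abs_mul, abs_of_pos (by positivity)]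

variable {S : Matrix Λ Λ ℝ}

omit [DecidableEq Λ] in
/-- the main function has charge one -/
lemma ch_mainf (h1 : ∀ x, ∑ y, S x y = 1) (x : Λ) : Ch (mainf S x) := by
  intro F c
  unfold mainf
  rw [Finset.mul_sum]
  refine Finset.sum_congr rfl fun w _ => ?_
  have e : (S *ᵥ fun x => F x + c) w = (S *ᵥ F) w + c := by
    simp only [mulVec, dotProduct, mul_add, Finset.sum_add_distrib]
    rw [← Finset.sum_mul, h1 w, one_mul]
  rw [e, H363.ee_add]
  unfold ee
  ring

/-- **locality of the main function** -/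
theorem mainf_loc (h0 : ∀ x y, 0 ≤ S x y) (x : Λ) (B : Finset Λ) (F : Λ → ℝ) :
    ‖mainf S x F - mainf S x (cutB B x F)‖ ≤ 2 * π * ∑ v ∈ Bᶜ, (S * S) x v * |F v - F x| := by
  have e : mainf S x F - mainf S x (cutB B x F)
      = ∑ w, (S x w : ℂ) * (ee ((S *ᵥ F) w) - ee ((S *ᵥ cutB B x F) w)) := by
    unfold mainf
    rw [← Finset.sum_sub_distrib]
    exact Finset.sum_congr rfl fun w _ => by ring
  rw [e]
  refine (norm_sum_le _ _).trans ?_
  have h1 : ∀ w, |(S *ᵥ F) w - (S *ᵥ cutB B x F) w| ≤ ∑ v ∈ Bᶜ, S w v * |F v - F x| := by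
    intro w
    have e : (S *ᵥ F) w - (S *ᵥ cutB B x F) w = ∑ v, S w v * (F v - cutB B x F v) := by
      simp only [mulVec, dotProduct]
      rw [← Finset.sum_sub_distrib]
      exact Finset.sum_congr rfl fun v' _ => by ring
    rw [e]
    refine (Finset.abs_sum_le_sum_abs _ _).trans ?_
    rw [← Finset.sum_add_sum_compl B]
    have hz : ∑ v ∈ B, |S w v * (F v - cutB B x F v)| = 0 := by
      refine Finset.sum_eq_zero fun v hv => ?_
      rw [cutB_of_mem hv, sub_self, mul_zero, abs_zero]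
    rw [hz, zero_add]
    refine Finset.sum_le_sum fun v hv => ?_
    rw [abs_mul, abs_of_nonneg (h0 w v)]
    have : cutB B x F v = F x := by
      unfold cutB
      rw [if_neg (Finset.mem_compl.1 hv)]
    rw [this]
  calc ∑ w, ‖(S x w : ℂ) * (ee ((S *ᵥ F) w) - ee ((S *ᵥ cutB B x F) w))‖
      ≤ ∑ w, S x w * (2 * π * ∑ v ∈ Bᶜ, S w v * |F v - F x|) := by
        refine Finset.sum_le_sum fun w _ => ?_
        rw [norm_mul, Complex.norm_real, Real.norm_eq_abs, abs_of_nonneg (h0 x w)]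
        refine mul_le_mul_of_nonneg_left ((norm_ee_sub_le _ _).trans ?_) (h0 x w)
        exact mul_le_mul_of_nonneg_left (h1 w) (by positivity)
    _ = 2 * π * ∑ v ∈ Bᶜ, (S * S) x v * |F v - F x| := by
        simp only [Finset.mul_sum, Matrix.mul_apply, Finset.sum_mul]
        rw [Finset.sum_comm]
        refine Finset.sum_congr rfl fun v _ => ?_
        refine Finset.sum_congr rfl fun w _ => ?_
        ring

/-! ### packaging -/

/-- local part of the deviation -/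
def dlq (phi : Λ → (Λ → ℝ) → ℂ) (z : ℂ) (S : Matrix Λ Λ ℝ) (B : Λ → Finset Λ) (x : Λ)
    (F : Λ → ℝ) : ℂ :=
  z⁻¹ * phi x (cutB (B x) x F) - mainf S x (cutB (B x) x F)

/-- remainder -/
def erq (phi : Λ → (Λ → ℝ) → ℂ) (z : ℂ) (S : Matrix Λ Λ ℝ) (B : Λ → Finset Λ) (x : Λ)
    (F : Λ → ℝ) : ℂ :=
  z⁻¹ * (phi x F - phi x (cutB (B x) x F)) - (mainf S x F - mainf S x (cutB (B x) x F))

section pack

variable {phi : Λ → (Λ → ℝ) → ℂ} {z : ℂ} {B : Λ → Finset Λ}

theorem pack_eq (hz : z ≠ 0) (x : Λ) (F : Λ → ℝ) :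
    phi x F = z * (mainf S x F + dlq phi z S B x F + erq phi z S B x F) := by
  unfold dlq erq
  field_simp
  ring

theorem pack_dl_add_er (x : Λ) (F : Λ → ℝ) :
    dlq phi z S B x F + erq phi z S B x F = z⁻¹ * phi x F - mainf S x F := by
  unfold dlq erq
  ring

theorem pack_ch (h1 : ∀ x, ∑ y, S x y = 1) (hc : ∀ x, Ch (phi x)) (x : Λ) :
    Ch (dlq phi z S B x) := by
  intro F c
  have a1 := ch_cut (hc x) (B x) x F c
  have a2 := ch_cut (ch_mainf h1 x) (B x) x F c
  simp only at a1 a2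
  unfold dlq
  rw [a1, a2]
  ring

theorem pack_loc (hB : ∀ x, x ∈ B x) (x : Λ) : Loc (B x) (dlq phi z S B x) := by
  intro F F' h
  unfold dlq
  rw [cutB_congr (hB x) h]

theorem pack_meas_dl (hm : ∀ x, Measurable (phi x)) (x : Λ) : Measurable (dlq phi z S B x) := by
  unfold dlq
  exact (((hm x).comp (measurable_cutB (B x) x)).const_mul _).sub
    ((measurable_mainf S x).comp (measurable_cutB (B x) x))

theorem pack_meas_er (hm : ∀ x, Measurable (phi x)) (x : Λ) : Measurable (erq phi z S B x) := by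
  unfold erq
  exact (((hm x).sub ((hm x).comp (measurable_cutB (B x) x))).const_mul _).sub
    ((measurable_mainf S x).sub ((measurable_mainf S x).comp (measurable_cutB (B x) x)))

lemma norm_mainf_le_one (h0 : ∀ x y, 0 ≤ S x y) (h1 : ∀ x, ∑ y, S x y = 1) (x : Λ)
    (F : Λ → ℝ) : ‖mainf S x F‖ ≤ 1 := by
  refine (norm_mainf_le S x F).trans (le_of_eq ?_)
  rw [← h1 x]
  exact Finset.sum_congr rfl fun y _ => abs_of_nonneg (h0 x y)

theorem pack_bd_dl (h0 : ∀ x y, 0 ≤ S x y) (h1 : ∀ x, ∑ y, S x y = 1) {K : ℝ}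
    (hK : ∀ x F, ‖phi x F‖ ≤ K) (x : Λ) (F : Λ → ℝ) :
    ‖dlq phi z S B x F‖ ≤ ‖z⁻¹‖ * K + 1 := by
  unfold dlq
  refine (norm_sub_le _ _).trans (add_le_add ?_ (norm_mainf_le_one h0 h1 x _))
  rw [norm_mul]
  exact mul_le_mul_of_nonneg_left (hK x _) (norm_nonneg _)

theorem pack_bd_er (h0 : ∀ x y, 0 ≤ S x y) (h1 : ∀ x, ∑ y, S x y = 1) {K : ℝ}
    (hK : ∀ x F, ‖phi x F‖ ≤ K) (x : Λ) (F : Λ → ℝ) :
    ‖erq phi z S B x F‖ ≤ 2 * (‖z⁻¹‖ * K + 1) := by
  unfold erq
  refine (norm_sub_le _ _).trans ?_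
  rw [norm_mul]
  have a1 := (norm_sub_le (phi x F) (phi x (cutB (B x) x F))).trans
    (add_le_add (hK x F) (hK x _))
  have a2 := (norm_sub_le (mainf S x F) (mainf S x (cutB (B x) x F))).trans
    (add_le_add (norm_mainf_le_one h0 h1 x F) (norm_mainf_le_one h0 h1 x _))
  have a3 := mul_le_mul_of_nonneg_left a1 (norm_nonneg z⁻¹)
  linarith

/-- the remainder on the good set -/
theorem pack_good (h0 : ∀ x y, 0 ≤ S x y) {e1 e2 : ℝ} {x : Λ} {F : Λ → ℝ}
    (h : ‖phi x F - phi x (cutB (B x) x F)‖ ≤ e1)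
    (h2 : ∑ v ∈ (B x)ᶜ, (S * S) x v * |F v - F x| ≤ e2) :
    ‖erq phi z S B x F‖ ≤ ‖z⁻¹‖ * e1 + 2 * π * e2 := by
  unfold erq
  refine (norm_sub_le _ _).trans (add_le_add ?_ ?_)
  · rw [norm_mul]
    exact mul_le_mul_of_nonneg_left h (norm_nonneg _)
  · exact (mainf_loc h0 x (B x) F).trans (mul_le_mul_of_nonneg_left h2 (by positivity))

end pack

/-- `L²` bound from a good set: `‖ψ‖ ≤ a` on `G`, `‖ψ‖ ≤ b` everywhere -/
theorem l2_good {Ω : Type*} [MeasurableSpace Ω] {P : Measure Ω} [IsProbabilityMeasure P]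
    {X : Ω → Λ → ℝ} (hX : Measurable X) {ψ : (Λ → ℝ) → ℂ} (hψ : Measurable ψ)
    {G : Set (Λ → ℝ)} (hG : MeasurableSet G) {a b p : ℝ} (ha : ∀ F ∈ G, ‖ψ F‖ ≤ a)
    (hb : ∀ F, ‖ψ F‖ ≤ b) (hp : P.real {ω | X ω ∉ G} ≤ p) :
    ∫ ω, ‖ψ (X ω)‖ ^ 2 ∂P ≤ a ^ 2 + b ^ 2 * p := by
  have mS : MeasurableSet {ω | X ω ∉ G} := (hG.compl).preimage hX
  have hpt : ∀ ω, ‖ψ (X ω)‖ ^ 2 ≤ a ^ 2 + {ω | X ω ∉ G}.indicator (fun _ => b ^ 2) ω := by
    intro ω
    by_cases h : X ω ∈ G
    · have h1 : {ω | X ω ∉ G}.indicator (fun _ => b ^ 2) ω = 0 :=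
        Set.indicator_of_notMem (by simpa using h) _
      rw [h1, add_zero]
      exact pow_le_pow_left₀ (norm_nonneg _) (ha _ h) 2
    · have h1 : {ω | X ω ∉ G}.indicator (fun _ => b ^ 2) ω = b ^ 2 :=
        Set.indicator_of_mem (by simpa using h) _
      rw [h1]
      have := pow_le_pow_left₀ (norm_nonneg _) (hb (X ω)) 2
      nlinarith [sq_nonneg a]
  have hi : Integrable (fun ω => {ω | X ω ∉ G}.indicator (fun _ => b ^ 2) ω) P :=
    (integrable_const _).indicator mS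
  have h1 : Integrable (fun ω => ‖ψ (X ω)‖ ^ 2) P := by
    refine Integrable.of_bound (C := b ^ 2)
      ((hψ.comp hX).norm.pow_const 2).aestronglyMeasurable (Filter.Eventually.of_forall fun ω => ?_)
    rw [Real.norm_eq_abs, abs_of_nonneg (by positivity)]
    exact pow_le_pow_left₀ (norm_nonneg _) (hb (X ω)) 2
  have h2 := integral_mono h1 ((integrable_const (a ^ 2)).add hi) hpt
  have e : ∫ ω, (a ^ 2 + {ω | X ω ∉ G}.indicator (fun _ => b ^ 2) ω) ∂P
      = a ^ 2 + P.real {ω | X ω ∉ G} * b ^ 2 := by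
    have q1 := integral_add (integrable_const (μ := P) (a ^ 2)) hi
    rw [q1, integral_indicator_const _ mS]
    simp only [integral_const, probReal_univ, smul_eq_mul, one_mul]
  have h2' : ∫ ω, ‖ψ (X ω)‖ ^ 2 ∂P ≤
      ∫ ω, (a ^ 2 + {ω | X ω ∉ G}.indicator (fun _ => b ^ 2) ω) ∂P := h2
  rw [e] at h2'
  have h3 : P.real {ω | X ω ∉ G} * b ^ 2 ≤ p * b ^ 2 :=
    mul_le_mul_of_nonneg_right hp (sq_nonneg b)
  linarith

end

end Vale.Agent.P159.H552
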