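import Vale.Agent.P159.H43.Neu1
import Vale.Agent.P159.H145.Loc2
import Vale.Agent.P159.H159.Inst

/-!
P159 / module IN5, part a (helper552): the densities `D_g W_q(F)`, `D_g Φ_q(F)` of LOC11
(`dW`, `dPh` of helper43): behaviour under constants, bound in EVERY real background, Lipschitz
bound.
-/

namespace Vale.Agent.P159.H552

open MeasureTheory Set
open Vale.Agent.P159.TM.H104 (EM Lg Ex Cv Gr li T)
open Vale.Agent.P159.T1.H897 (Hol)
open Vale.Agent.P159.H37
open Vale.Agent.P159.H145 (LM L0 cs OscZ Per cs_cs cs_zero)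
open Vale.Agent.P159.H43 (dL dL0 el el1 dW dPh hasDerivAt_LM continuous_dL cs_line)
open Vale.Agent.P159.H896 (ph continuous_ph norm_ph ph_add ph_per)

noncomputable section

variable {V : Type*} [Fintype V] {w : (V → ℤ) → ℝ} {M : Matrix V V ℝ}

lemma LM_per (hw : Per w) (F : V → ℝ) : LM w M (cs F 1) = LM w M F := by
  unfold LM
  rw [H145.ZM_per hw]

/-- `D_g log Z_M` is one-periodic in the constant -/
lemma dL_cs_one (hw : Per w) (hM : M.transpose = M) (hE : EM (wM w M)) (F g : V → ℝ) :
    dL w M (cs F 1) g = dL w M F g := by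
  have h1 := hasDerivAt_LM hM hE (cs F 1) g 0
  have h2 := hasDerivAt_LM hM hE F g 0
  simp only [zero_smul, add_zero] at h1 h2
  have e : (fun r : ℝ => LM w M (cs F 1 + r • g)) = fun r : ℝ => LM w M (F + r • g) := by
    funext r
    rw [← cs_line, LM_per hw]
  rw [e] at h1
  exact h1.unique h2

lemma dL_periodic (hw : Per w) (hM : M.transpose = M) (hE : EM (wM w M)) (F g : V → ℝ) :
    Function.Periodic (fun c => dL w M (cs F c) g) 1 := by
  intro c
  show dL w M (cs F (c + 1)) g = dL w M (cs F c) g
  rw [← cs_cs, dL_cs_one hw hM hE]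

/-- derivative of `D_g log Z_M` along a line -/
lemma hasDerivAt_dL (hE : EM (wM w M)) (F g k : V → ℝ) (r : ℝ) :
    HasDerivAt (fun r : ℝ => dL w M (F + r • k) g)
      (Cv (wM w M) (M.mulVec (F + r • k)) (li (M.mulVec g)) (li (M.mulVec k)) - bf M k g) r := by
  have h1 := TM.H104.hasDerivAt_Ex hE (Gr.li (M.mulVec g)) (M.mulVec F) (M.mulVec k) r
  have e1 : (fun r : ℝ => dL w M (F + r • k) g) = fun r : ℝ =>
      Ex (wM w M) (M.mulVec F + r • M.mulVec k) (li (M.mulVec g)) - (bf M F g + r * bf M k g) := by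
    funext r
    unfold dL
    rw [Matrix.mulVec_add, Matrix.mulVec_smul, bf_add_left, bf_smul_left]
  rw [e1]
  have h2 : HasDerivAt (fun r : ℝ => bf M F g + r * bf M k g) (1 * bf M k g) r :=
    ((hasDerivAt_id r).mul_const _).const_add _
  refine (h1.sub h2).congr_deriv ?_
  rw [Matrix.mulVec_add, Matrix.mulVec_smul, one_mul]

lemma cs_eq (F : V → ℝ) (c : ℝ) : cs F c = F + c • (1 : V → ℝ) := by
  funext x
  simp [cs]

/-- the increment of `D_g log Z_M(F + c)` in the constant `c` is at most `⟨1, M g⟩`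
(`M g ≥ 0`, `M 1 ≥ 0`), in EVERY real background -/
theorem dL_cs_le (hw : Per w) (hM : M.transpose = M) (hE : EM (wM w M))
    (hol : Hol (wM w M) (wM w M)) {g : V → ℝ} (hg : ∀ x, 0 ≤ M.mulVec g x)
    (h1 : ∀ x, 0 ≤ M.mulVec 1 x) (F : V → ℝ) (c d : ℝ) :
    |dL w M (cs F c) g - dL w M (cs F d) g| ≤ bf M 1 g := by
  set D : ℝ → ℝ := fun c => dL w M (cs F c) g with hD
  set b : ℝ := bf M 1 g with hb
  have hper : Function.Periodic D 1 := dL_periodic hw hM hE F g
  -- `D + c b` is nondecreasing
  have hmono : Monotone fun c => D c + c * b := by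
    have hd : ∀ c, HasDerivAt (fun c => D c + c * b)
        (Cv (wM w M) (M.mulVec (F + c • (1 : V → ℝ))) (li (M.mulVec g)) (li (M.mulVec 1))) c := by
      intro c
      have h2 := hasDerivAt_dL hE F g 1 c
      have e : (fun r : ℝ => dL w M (F + r • (1 : V → ℝ)) g) = D := by
        funext r
        rw [hD, ← cs_eq]
      rw [e] at h2
      have h3 : HasDerivAt (fun c : ℝ => c * b) (1 * b) c := (hasDerivAt_id c).mul_const _
      refine (h2.add h3).congr_deriv ?_
      rw [← hb]
      ring
    refine monotone_of_deriv_nonneg (fun c => (hd c).differentiableAt) fun c => ?_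
    rw [(hd c).deriv, H159.Cv_li hE]
    unfold bf
    refine Finset.sum_nonneg fun x _ => Finset.sum_nonneg fun y _ => ?_
    exact mul_nonneg (mul_nonneg (hg x) (H159.Cm_nonneg hE hol _ x y)) (h1 y)
  -- one period
  have key : ∀ c d : ℝ, c ≤ d → d ≤ c + 1 → |D c - D d| ≤ b := by
    intro c d hcd hd1
    have h2 := hmono hcd
    have h3 := hmono hd1
    simp only at h2 h3
    rw [hper c] at h3
    rw [abs_le]
    have hb0 : 0 ≤ b := by
      have := hmono (show (0 : ℝ) ≤ 1 by norm_num)
      simp only at this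
      have h4 : D 1 = D 0 := by
        have := hper 0
        rwa [zero_add] at this
      rw [h4] at this
      linarith
    constructor
    · nlinarith
    · nlinarith
  have hfc : D c = D (Int.fract c) := by
    have := hper.int_mul ⌊c⌋ (Int.fract c)
    rw [mul_one, Int.fract_add_floor] at this
    exact this
  have hfd : D d = D (Int.fract d) := by
    have := hper.int_mul ⌊d⌋ (Int.fract d)
    rw [mul_one, Int.fract_add_floor] at this
    exact this
  show |D c - D d| ≤ b
  rw [hfc, hfd]
  have c0 := Int.fract_nonneg c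
  have c1 := (Int.fract_lt_one c).le
  have d0 := Int.fract_nonneg d
  have d1 := (Int.fract_lt_one d).le
  rcases le_total (Int.fract c) (Int.fract d) with h | h
  · exact key _ _ h (by linarith)
  · rw [abs_sub_comm]
    exact key _ _ h (by linarith)

lemma bf_one_nonneg {g : V → ℝ} (hM : M.transpose = M) (hg : ∀ x, 0 ≤ M.mulVec g x) :
    0 ≤ bf M 1 g := by
  rw [bf_eq]
  simp only [dotProduct, Pi.one_apply, one_mul]
  exact Finset.sum_nonneg fun x _ => hg x

/-- sup bound for the densities of the harmonics, EVERY real background -/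
theorem norm_dW_le (hw : Per w) (hM : M.transpose = M) (hE : EM (wM w M))
    (hol : Hol (wM w M) (wM w M)) {g : V → ℝ} (hg : ∀ x, 0 ≤ M.mulVec g x)
    (h1 : ∀ x, 0 ≤ M.mulVec 1 x) {q : ℤ} (hq : q ≠ 0) (F : V → ℝ) :
    ‖dW w M q F g‖ ≤ bf M 1 g := by
  have c1 := continuous_ph q
  have c2 : Continuous fun c : ℝ => dL w M (cs F c) g :=
    (continuous_dL hE g).comp (H145.continuous_cs F)
  have e : dW w M q F g
      = ∫ c in (0 : ℝ)..1, ((dL w M (cs F c) g - dL w M (cs F 0) g : ℝ) : ℂ) * ph q c := by
    unfold dW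
    have h2 : ∫ c in (0 : ℝ)..1, ((dL w M (cs F c) g - dL w M (cs F 0) g : ℝ) : ℂ) * ph q c
        = (∫ c in (0 : ℝ)..1, (dL w M (cs F c) g : ℂ) * ph q c)
          - (dL w M (cs F 0) g : ℂ) * ∫ c in (0 : ℝ)..1, ph q c := by
      rw [← intervalIntegral.integral_const_mul, ← intervalIntegral.integral_sub]
      · refine intervalIntegral.integral_congr fun c _ => ?_
        show ((dL w M (cs F c) g - dL w M (cs F 0) g : ℝ) : ℂ) * ph q c =
          (dL w M (cs F c) g : ℂ) * ph q c - (dL w M (cs F 0) g : ℂ) * ph q c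
        push_cast; ring
      all_goals exact Continuous.intervalIntegrable (by fun_prop) _ _
    rw [h2, H43.int_ph q hq, mul_zero, sub_zero]
  rw [e]
  have h3 := intervalIntegral.norm_integral_le_of_norm_le_const (a := (0 : ℝ)) (b := 1)
    (f := fun c => ((dL w M (cs F c) g - dL w M (cs F 0) g : ℝ) : ℂ) * ph q c) (C := bf M 1 g)
    (fun c _ => by
      rw [norm_mul, norm_ph, mul_one, Complex.norm_real, Real.norm_eq_abs]
      exact dL_cs_le hw hM hE hol hg h1 F c 0)
  simpa using h3

/-- the amplitude of `el1`, EVERY real background -/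
theorem abs_el1_le (hw : Per w) (hM : M.transpose = M) (hE : EM (wM w M))
    (hol : Hol (wM w M) (wM w M)) {g : V → ℝ} (hg : ∀ x, 0 ≤ M.mulVec g x)
    (h1 : ∀ x, 0 ≤ M.mulVec 1 x) (F : V → ℝ) (c : ℝ) : |el1 w M F g c| ≤ bf M 1 g := by
  have c1 := H43.continuous_el hM hE F
  have c2 : Continuous fun c : ℝ => dL w M (cs F c) g :=
    (continuous_dL hE g).comp (H145.continuous_cs F)
  have hn := H43.int_exp_el (w := w) hM hE F
  have e : el1 w M F g c = ∫ d in (0 : ℝ)..1, Real.exp (el w M F d) *
      (dL w M (cs F c) g - dL w M (cs F d) g) := by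
    have h2 : ∫ d in (0 : ℝ)..1, Real.exp (el w M F d) *
        (dL w M (cs F c) g - dL w M (cs F d) g)
        = dL w M (cs F c) g * (∫ d in (0 : ℝ)..1, Real.exp (el w M F d)) - dL0 w M F g := by
      unfold dL0
      rw [← intervalIntegral.integral_const_mul, ← intervalIntegral.integral_sub]
      · refine intervalIntegral.integral_congr fun d _ => ?_
        show Real.exp (el w M F d) * (dL w M (cs F c) g - dL w M (cs F d) g) = _
        ring
      all_goals exact Continuous.intervalIntegrable (by fun_prop) _ _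
    rw [h2, hn, mul_one]
    rfl
  rw [e]
  have h3 := intervalIntegral.norm_integral_le_integral_norm (μ := volume) (a := (0 : ℝ)) (b := 1)
    (f := fun d => Real.exp (el w M F d) * (dL w M (cs F c) g - dL w M (cs F d) g)) zero_le_one
  rw [Real.norm_eq_abs] at h3
  refine h3.trans ?_
  have h4 : ∫ d in (0 : ℝ)..1, ‖Real.exp (el w M F d) * (dL w M (cs F c) g - dL w M (cs F d) g)‖
      ≤ ∫ d in (0 : ℝ)..1, Real.exp (el w M F d) * bf M 1 g := by
    refine intervalIntegral.integral_mono_on zero_le_one ?_ ?_ fun d _ => ?_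
    · exact Continuous.intervalIntegrable (by fun_prop) _ _
    · exact Continuous.intervalIntegrable (by fun_prop) _ _
    · rw [norm_mul, Real.norm_eq_abs, Real.norm_eq_abs, abs_of_pos (Real.exp_pos _)]
      exact mul_le_mul_of_nonneg_left (dL_cs_le hw hM hE hol hg h1 F c d) (Real.exp_pos _).le
  refine h4.trans (le_of_eq ?_)
  rw [intervalIntegral.integral_mul_const, hn, one_mul]

/-- sup bound for the densities of the charge sectors, EVERY real background -/
theorem norm_dPh_le (hw : Per w) (hM : M.transpose = M) (hE : EM (wM w M))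
    (hol : Hol (wM w M) (wM w M)) {g : V → ℝ} (hg : ∀ x, 0 ≤ M.mulVec g x)
    (h1 : ∀ x, 0 ≤ M.mulVec 1 x) (q : ℤ) (F : V → ℝ) :
    ‖dPh w M q F g‖ ≤ bf M 1 g := by
  have c1 := H43.continuous_el hM hE F
  have c2 : Continuous (el1 w M F g) := H43.continuous_el1 hE F g
  have c3 := continuous_ph q
  unfold dPh
  refine (intervalIntegral.norm_integral_le_integral_norm zero_le_one).trans ?_
  have h4 : ∫ c in (0 : ℝ)..1,
      ‖((Real.exp (el w M F c) * el1 w M F g c : ℝ) : ℂ) * ph q c‖
      ≤ ∫ c in (0 : ℝ)..1, Real.exp (el w M F c) * bf M 1 g := by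
    refine intervalIntegral.integral_mono_on zero_le_one ?_ ?_ fun d _ => ?_
    · exact Continuous.intervalIntegrable (by fun_prop) _ _
    · exact Continuous.intervalIntegrable (by fun_prop) _ _
    · rw [norm_mul, norm_ph, mul_one, Complex.norm_real, Real.norm_eq_abs, abs_mul,
        abs_of_pos (Real.exp_pos _)]
      exact mul_le_mul_of_nonneg_left (abs_el1_le hw hM hE hol hg h1 F d) (Real.exp_pos _).le
  refine h4.trans (le_of_eq ?_)
  rw [intervalIntegral.integral_mul_const, H43.int_exp_el (w := w) hM hE F, one_mul]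

/-- `D_g W_q` has charge `q` -/
theorem dW_cs (hw : Per w) (hM : M.transpose = M) (hE : EM (wM w M)) (q : ℤ) (F g : V → ℝ)
    (c : ℝ) : dW w M q (cs F c) g = ph q (-c) * dW w M q F g := by
  unfold dW
  have h1 : ∀ s : ℝ, (dL w M (cs (cs F c) s) g : ℂ) * ph q s
      = ph q (-c) * ((dL w M (cs F (s + c)) g : ℂ) * ph q (s + c)) := by
    intro s
    rw [cs_cs, add_comm c s, ph_add q s c]
    have h2 : ph q (-c) * ph q c = 1 := by
      rw [← ph_add, neg_add_cancel, H896.ph_zero_right]
    linear_combination (-(dL w M (cs F (s + c)) g : ℂ) * ph q s) * h2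
  simp only [h1]
  rw [intervalIntegral.integral_const_mul]
  congr 1
  have hp : Function.Periodic (fun s : ℝ => (dL w M (cs F s) g : ℂ) * ph q s) 1 := by
    intro s
    have h3 := dL_periodic hw hM hE F g s
    simp only at h3 ⊢
    rw [h3, ph_per q s]
  have h4 := intervalIntegral.integral_comp_add_right
    (fun s : ℝ => (dL w M (cs F s) g : ℂ) * ph q s) c (a := 0) (b := 1)
  rw [h4, zero_add, add_comm 1 c, hp.intervalIntegral_add_eq c 0, zero_add]

/-- difference of two densities from the difference of the derivatives of `log Z` -/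
theorem dW_sub_le (hE : EM (wM w M)) (q : ℤ) (F F' g : V → ℝ) {r : ℝ}
    (h : ∀ c ∈ Icc (0 : ℝ) 1, |dL w M (cs F c) g - dL w M (cs F' c) g| ≤ r) :
    ‖dW w M q F g - dW w M q F' g‖ ≤ r := by
  have c1 := continuous_ph q
  have c2 : Continuous fun c : ℝ => dL w M (cs F c) g :=
    (continuous_dL hE g).comp (H145.continuous_cs F)
  have c3 : Continuous fun c : ℝ => dL w M (cs F' c) g :=
    (continuous_dL hE g).comp (H145.continuous_cs F')
  unfold dW
  rw [← intervalIntegral.integral_sub (Continuous.intervalIntegrable (by fun_prop) _ _)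
    (Continuous.intervalIntegrable (by fun_prop) _ _)]
  have h3 := intervalIntegral.norm_integral_le_of_norm_le_const (a := (0 : ℝ)) (b := 1)
    (f := fun c => (dL w M (cs F c) g : ℂ) * ph q c - (dL w M (cs F' c) g : ℂ) * ph q c)
    (C := r) (fun c hc => by
      rw [uIoc_of_le zero_le_one] at hc
      rw [← sub_mul, norm_mul, norm_ph, mul_one, ← Complex.ofReal_sub, Complex.norm_real,
        Real.norm_eq_abs]
      exact h c ⟨hc.1.le, hc.2⟩)
  simpa using h3

lemma continuous_dW (hE : EM (wM w M)) (q : ℤ) (g : V → ℝ) :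
    Continuous fun F : V → ℝ => dW w M q F g := by
  unfold dW
  have h1 : Continuous (Function.uncurry fun (F : V → ℝ) (c : ℝ) =>
      (dL w M (cs F c) g : ℂ) * ph q c) := by
    have h2 : Continuous fun p : (V → ℝ) × ℝ => cs p.1 p.2 := by
      refine continuous_pi fun x => ?_
      simp only [cs]
      fun_prop
    exact (Complex.continuous_ofReal.comp ((continuous_dL hE g).comp h2)).mul
      ((continuous_ph q).comp continuous_snd)
  exact intervalIntegral.continuous_parametric_intervalIntegral_of_continuous' h1 0 1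

end

end Vale.Agent.P159.H552
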