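import Vale.Agent.P159.H552.Dx7c

/-!
P159 / module DX7 (helper552), part d: **fixed family of tori** `N = N(R)` (for example
`N = 2^i R`, `i` fixed), `E n R = -log Ψ_n(0)` for the pair `(N(R), R)`, `e R` its exact energy.
(STAT), (DYN) only at the end point of the window, (TOP) `E n R + log C_N(R) → 0` for the `R` of the
window at level `n`. Output: `L R + (log 2/2π) ∑ 1/S_i + (π/4)(e R - (1/π) log 2 ⌊log₂ R⌋)` converges.
-/

open Filter Topology Finset

namespace Vale.Agent.P159.H552.Dx7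

open Vale.Agent.P159.H801 (itw itw_zero itw_succ itw_ge itw_tend tend_of_inc Fl Wn T3 rp_cmp
  exp_one_le)
open Vale.Agent.P159.H264 (kap)

noncomputable section

/-- upper bounds of `E` (lower bounds of the correlation), fixed family -/
structure FL (E : ℕ → ℕ → ℝ) (e a A f : ℕ → ℝ) (k w : ℕ → ℕ) (C0 : ℝ) (n0 : ℕ) : Prop where
  w1 : ∀ n, n0 ≤ n → 1 ≤ w n
  k1 : ∀ n, n0 ≤ n → kk k n ≤ kk k (nx w n)
  f0 : ∀ n, 0 ≤ f n
  en : ∀ R : ℕ, 2 ^ kk k n0 ≤ R → |e R - 1 / Real.pi * Real.log R| ≤ C0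
  win : ∀ n, n0 ≤ n → lp * |∑ i ∈ Ico n (nx w n), (a n - A i)| +
    |a (nx w n) - a n| * (k (nx w n) * lp + C0) ≤ wF f w n
  stat : ∀ n R : ℕ, n0 ≤ n → 2 ^ kk k n ≤ R → R ≤ 2 ^ kk k (nx w n) →
    E n R - E n (2 ^ kk k n) ≤ a n / 2 * (e R - e (2 ^ kk k n)) + wF f w n
  step : ∀ n, n0 ≤ n → E (nx w n) (2 ^ kk k (nx w n)) - E n (2 ^ kk k (nx w n)) ≤ wF f w n

/-- lower bounds of `E` (upper bounds of the correlation), fixed family -/
structure FU (E : ℕ → ℕ → ℝ) (e a A f : ℕ → ℝ) (k w : ℕ → ℕ) (C0 : ℝ) (n0 : ℕ) : Prop where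
  w1 : ∀ n, n0 ≤ n → 1 ≤ w n
  k1 : ∀ n, n0 ≤ n → kk k n ≤ kk k (nx w n)
  f0 : ∀ n, 0 ≤ f n
  en : ∀ R : ℕ, 2 ^ kk k n0 ≤ R → |e R - 1 / Real.pi * Real.log R| ≤ C0
  win : ∀ n, n0 ≤ n → lp * |∑ i ∈ Ico n (nx w n), (a n - A i)| +
    |a (nx w n) - a n| * (k (nx w n) * lp + C0) ≤ wF f w n
  stat : ∀ n R : ℕ, n0 ≤ n → 2 ^ kk k n ≤ R → R ≤ 2 ^ kk k (nx w n) →
    a n / 2 * (e R - e (2 ^ kk k n)) - wF f w n ≤ E n R - E n (2 ^ kk k n)
  step : ∀ n, n0 ≤ n → -wF f w n ≤ E (nx w n) (2 ^ kk k (nx w n)) - E n (2 ^ kk k (nx w n))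

variable {E : ℕ → ℕ → ℝ} {e a A f L t : ℕ → ℝ} {k w : ℕ → ℕ} {C0 : ℝ} {n0 : ℕ}

/-- the renormalised energy -/
def bF (E : ℕ → ℕ → ℝ) (e a A : ℕ → ℝ) (k : ℕ → ℕ) (n : ℕ) : ℝ :=
  E n (2 ^ kk k n) - a n / 2 * (e (2 ^ kk k n) - 1 / Real.pi * (n * Real.log 2)) -
    lp * ∑ i ∈ range n, A i

/-- the main term -/
def mF (e A : ℕ → ℝ) (R : ℕ) : ℝ :=
  lp * ∑ i ∈ range (Nat.log 2 R), A i +
    Real.pi / 4 * (e R - 1 / Real.pi * (Nat.log 2 R * Real.log 2))

/-- the remainder at the end -/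
def vF (a A : ℕ → ℝ) (C0 : ℝ) (n l : ℕ) : ℝ :=
  lp * |∑ i ∈ Ico n l, (a n - A i)| + |a n / 2 - Real.pi / 4| * (C0 + 1)

lemma SBeq (n : ℕ) (w : ℕ → ℕ) : ((nx w n : ℕ) : ℝ) = n + w n := by unfold nx; push_cast; ring

/-- algebra of one step -/
lemma bF_step (n : ℕ) : bF E e a A k (nx w n) - bF E e a A k n =
    (E (nx w n) (2 ^ kk k (nx w n)) - E n (2 ^ kk k (nx w n))) +
    (E n (2 ^ kk k (nx w n)) - E n (2 ^ kk k n) -
      a n / 2 * (e (2 ^ kk k (nx w n)) - e (2 ^ kk k n))) -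
    (a (nx w n) - a n) / 2 * (e (2 ^ kk k (nx w n)) - 1 / Real.pi * (nx w n * Real.log 2)) +
    lp * ∑ i ∈ Ico n (nx w n), (a n - A i) := by
  have h4 := sum_A (A := A) n (nx w n) (le_nx n) (a n)
  have h5 : lp * ∑ i ∈ Ico n (nx w n), (a n - A i) = lp * ∑ i ∈ range n, A i +
      a n * ((nx w n - n : ℝ) * lp) - lp * ∑ i ∈ range (nx w n), A i := by rw [h4]; ring
  rw [h5]
  unfold bF lp
  field_simp
  ring

lemma e_kk (hk : ∀ R : ℕ, 2 ^ kk k n0 ≤ R → |e R - 1 / Real.pi * Real.log R| ≤ C0) {m n : ℕ}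
    (h : kk k n0 ≤ kk k n) :
    |e (2 ^ kk k n) - 1 / Real.pi * (m * Real.log 2)| ≤
      1 / Real.pi * (|(kk k n : ℝ) - m| * Real.log 2) + C0 := by
  have h1 := hk (2 ^ kk k n) (Nat.pow_le_pow_right (by norm_num) h)
  rw [log_kk] at h1
  have hl : 0 < Real.log 2 := Real.log_pos (by norm_num)
  have hpi := Real.pi_pos
  have h2 : e (2 ^ kk k n) - 1 / Real.pi * (m * Real.log 2) =
      (e (2 ^ kk k n) - 1 / Real.pi * (kk k n * Real.log 2)) +
        1 / Real.pi * (((kk k n : ℝ) - m) * Real.log 2) := by ring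
  rw [h2]
  refine (abs_add_le _ _).trans ?_
  rw [abs_mul (1 / Real.pi), abs_mul _ (Real.log 2), abs_of_pos (by positivity : 0 < 1 / Real.pi),
    abs_of_pos hl]
  linarith

lemma kk_mono (k1 : ∀ n, n0 ≤ n → kk k n ≤ kk k (nx w n)) (j : ℕ) :
    kk k n0 ≤ kk k (itw w n0 j) := by
  induction j with
  | zero => exact le_rfl
  | succ j ih =>
    have h1 := k1 (itw w n0 j) (le_itw (w := w) n0 j)
    rw [show itw w n0 (j + 1) = nx w (itw w n0 j) from itw_succ w n0 j]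
    exact ih.trans h1

/-- the drift term -/
lemma drift (hk : ∀ R : ℕ, 2 ^ kk k n0 ≤ R → |e R - 1 / Real.pi * Real.log R| ≤ C0) {n : ℕ}
    (h : kk k n0 ≤ kk k (nx w n)) :
    |(a (nx w n) - a n) / 2 * (e (2 ^ kk k (nx w n)) - 1 / Real.pi * (nx w n * Real.log 2))| ≤
      |a (nx w n) - a n| * (k (nx w n) * lp + C0) := by
  have h1 := e_kk (m := nx w n) hk h
  have h2 : |(kk k (nx w n) : ℝ) - nx w n| = k (nx w n) := by
    unfold kk
    push_cast
    rw [add_sub_cancel_left, abs_of_nonneg (Nat.cast_nonneg _)]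
  rw [h2] at h1
  rw [abs_mul, abs_div, abs_two]
  have hC : 0 ≤ C0 := (abs_nonneg _).trans (hk _ le_rfl)
  have h3 : 1 / Real.pi * (k (nx w n) * Real.log 2) + C0 ≤ 2 * (k (nx w n) * lp + C0) := by
    have : 1 / Real.pi * (k (nx w n) * Real.log 2) = 2 * (k (nx w n) * lp) := by
      unfold lp
      field_simp
    rw [this]
    linarith
  calc |a (nx w n) - a n| / 2 *
        |e (2 ^ kk k (nx w n)) - 1 / Real.pi * (nx w n * Real.log 2)| ≤
        |a (nx w n) - a n| / 2 * (2 * (k (nx w n) * lp + C0)) :=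
        mul_le_mul_of_nonneg_left (h1.trans h3) (by positivity)
    _ = _ := by ring

lemma FL.b_step (h : FL E e a A f k w C0 n0) {n : ℕ} (hn : n0 ≤ n)
    (hk : kk k n0 ≤ kk k (nx w n)) :
    bF E e a A k (nx w n) ≤ bF E e a A k n + 3 * wF f w n := by
  have h1 := h.step n hn
  have h2 := h.stat n (2 ^ kk k (nx w n)) hn (Nat.pow_le_pow_right (by norm_num) (h.k1 n hn)) le_rfl
  have h3 := (abs_le.1 (drift (a := a) h.en hk)).1
  have h4 : lp * ∑ i ∈ Ico n (nx w n), (a n - A i) ≤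
      lp * |∑ i ∈ Ico n (nx w n), (a n - A i)| :=
    mul_le_mul_of_nonneg_left (le_abs_self _) lp_pos.le
  have h5 := h.win n hn
  have h6 := bF_step (E := E) (e := e) (a := a) (A := A) (k := k) (w := w) n
  linarith

lemma FU.b_step (h : FU E e a A f k w C0 n0) {n : ℕ} (hn : n0 ≤ n)
    (hk : kk k n0 ≤ kk k (nx w n)) :
    bF E e a A k n - 3 * wF f w n ≤ bF E e a A k (nx w n) := by
  have h1 := h.step n hn
  have h2 := h.stat n (2 ^ kk k (nx w n)) hn (Nat.pow_le_pow_right (by norm_num) (h.k1 n hn)) le_rfl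
  have h3 := (abs_le.1 (drift (a := a) h.en hk)).2
  have h4 : -(lp * |∑ i ∈ Ico n (nx w n), (a n - A i)|) ≤
      lp * ∑ i ∈ Ico n (nx w n), (a n - A i) := by
    rw [← mul_neg]
    exact mul_le_mul_of_nonneg_left (neg_abs_le _) lp_pos.le
  have h5 := h.win n hn
  have h6 := bF_step (E := E) (e := e) (a := a) (A := A) (k := k) (w := w) n
  linarith

theorem FL.b_chain (h : FL E e a A f k w C0 n0) (j : ℕ) :
    bF E e a A k (itw w n0 j) ≤ bF E e a A k n0 + 3 * ∑ i ∈ Ico n0 (itw w n0 j), f i := by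
  rw [← chain_sum]
  induction j with
  | zero => simp [itw_zero]
  | succ j ih =>
    have h0 := kk_mono h.k1 (j + 1)
    rw [itw_succ] at h0
    have h1 := h.b_step (le_itw (w := w) n0 j) h0
    rw [sum_range_succ, itw_succ]
    unfold nx at h1
    linarith

theorem FU.b_chain (h : FU E e a A f k w C0 n0) (j : ℕ) :
    bF E e a A k n0 - 3 * ∑ i ∈ Ico n0 (itw w n0 j), f i ≤ bF E e a A k (itw w n0 j) := by
  rw [← chain_sum]
  induction j with
  | zero => simp [itw_zero]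
  | succ j ih =>
    have h0 := kk_mono h.k1 (j + 1)
    rw [itw_succ] at h0
    have h1 := h.b_step (le_itw (w := w) n0 j) h0
    rw [sum_range_succ, itw_succ]
    unfold nx at h1
    linarith

/-- the main term versus the linear term at level `n` -/
lemma mF_cmp (hk : ∀ R : ℕ, 2 ^ kk k n0 ≤ R → |e R - 1 / Real.pi * Real.log R| ≤ C0) {n R : ℕ}
    (hR0 : 2 ^ kk k n0 ≤ R) (hn : n ≤ Nat.log 2 R) :
    |mF e A R - (lp * ∑ i ∈ range n, A i +
      a n / 2 * (e R - 1 / Real.pi * (n * Real.log 2)))| ≤ vF a A C0 n (Nat.log 2 R) := by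
  have h1 := sum_A (A := A) n (Nat.log 2 R) hn (a n)
  have hR : 1 ≤ R := Nat.one_le_two_pow.trans hR0
  have h2 := log_sub R hR
  have h3 := hk R hR0
  have hpi := Real.pi_pos
  have hl : Real.log 2 ≤ 1 := by
    have := Real.log_two_lt_d9
    linarith
  unfold mF vF
  rw [h1]
  have h4 : lp * ∑ i ∈ range n, A i + a n * ((Nat.log 2 R - n : ℝ) * lp) -
      lp * ∑ i ∈ Ico n (Nat.log 2 R), (a n - A i) +
      Real.pi / 4 * (e R - 1 / Real.pi * (Nat.log 2 R * Real.log 2)) -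
      (lp * ∑ i ∈ range n, A i + a n / 2 * (e R - 1 / Real.pi * (n * Real.log 2))) =
      -(lp * ∑ i ∈ Ico n (Nat.log 2 R), (a n - A i)) -
      (a n / 2 - Real.pi / 4) * (e R - 1 / Real.pi * (Nat.log 2 R * Real.log 2)) := by
    unfold lp
    field_simp
    ring
  rw [h4]
  refine (abs_sub _ _).trans ?_
  rw [abs_neg, abs_mul, abs_mul, abs_of_pos lp_pos]
  refine add_le_add le_rfl (mul_le_mul_of_nonneg_left ?_ (abs_nonneg _))
  have h5 : e R - 1 / Real.pi * (Nat.log 2 R * Real.log 2) =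
      (e R - 1 / Real.pi * Real.log R) +
        1 / Real.pi * (Real.log R - Nat.log 2 R * Real.log 2) := by ring
  rw [h5]
  refine (abs_add_le _ _).trans (add_le_add h3 ?_)
  rw [abs_mul, abs_of_nonneg h2.1, abs_of_pos (by positivity : 0 < 1 / Real.pi), one_div,
    inv_mul_le_iff₀ hpi]
  have := Real.pi_gt_three
  linarith [h2.2]

theorem FL.one (h : FL E e a A f k w C0 n0) {n R : ℕ} {τ : ℝ} (hn : n0 ≤ n)
    (hR0 : 2 ^ kk k n0 ≤ R) (hr1 : 2 ^ kk k n ≤ R) (hr2 : R ≤ 2 ^ kk k (nx w n))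
    (hL : -L R ≤ E n R + τ) :
    -L R ≤ bF E e a A k n + mF e A R + wF f w n + vF a A C0 n (Nat.log 2 R) + τ := by
  have hl : n ≤ Nat.log 2 R := by
    refine (Nat.le_add_right n (k n)).trans ?_
    exact Nat.le_log_of_pow_le (by norm_num) hr1
  have h1 := h.stat n R hn hr1 hr2
  have h2 := (abs_le.1 (mF_cmp (A := A) (a := a) h.en hR0 hl)).1
  unfold bF
  linarith

theorem FU.one (h : FU E e a A f k w C0 n0) {n R : ℕ} {τ : ℝ} (hn : n0 ≤ n)
    (hR0 : 2 ^ kk k n0 ≤ R) (hr1 : 2 ^ kk k n ≤ R) (hr2 : R ≤ 2 ^ kk k (nx w n))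
    (hL : E n R - τ ≤ -L R) :
    bF E e a A k n + mF e A R - wF f w n - vF a A C0 n (Nat.log 2 R) - τ ≤ -L R := by
  have hl : n ≤ Nat.log 2 R := by
    refine (Nat.le_add_right n (k n)).trans ?_
    exact Nat.le_log_of_pow_le (by norm_num) hr1
  have h1 := h.stat n R hn hr1 hr2
  have h2 := (abs_le.1 (mF_cmp (A := A) (a := a) h.en hR0 hl)).2
  unfold bF
  linarith

lemma exists_winF (w1 : ∀ n, n0 ≤ n → 1 ≤ w n) {r : ℕ} (hr : 2 ^ kk k n0 ≤ r) :
    ∃ j, 2 ^ kk k (itw w n0 j) ≤ r ∧ r ≤ 2 ^ kk k (nx w (itw w n0 j)) := by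
  by_contra hcon
  push Not at hcon
  have key : ∀ j, 2 ^ kk k (itw w n0 j) ≤ r := by
    intro j
    induction j with
    | zero => exact hr
    | succ j ih =>
      rw [itw_succ]
      exact (hcon j ih).le
  have h1 := key (r + 1)
  have h2 := itw_ge w1 le_rfl (r + 1)
  have h3 : r + 1 ≤ kk k (itw w n0 (r + 1)) := by unfold kk; omega
  have h4 : 2 ^ (r + 1) ≤ 2 ^ kk k (itw w n0 (r + 1)) := Nat.pow_le_pow_right (by norm_num) h3
  have h5 : r + 1 < 2 ^ (r + 1) := Nat.lt_two_pow_self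
  omega

/-- **(S_low), fixed family, bounded form** (`g` = majorant of the summed window errors) -/
theorem FL.bdd (h : FL E e a A f k w C0 n0)
    (ht : ∀ n R : ℕ, n0 ≤ n → 2 ^ kk k n ≤ R → R ≤ 2 ^ kk k (nx w n) → -L R ≤ E n R + t R)
    {V : ℝ} {g : ℕ → ℝ} (hV : ∀ n l, n0 ≤ n → n ≤ l → l ≤ kk k (nx w n) → vF a A C0 n l ≤ V)
    (hT : ∀ R, 2 ^ kk k n0 ≤ R → t R ≤ V)
    (hg : ∀ n l, n0 ≤ n → kk k n ≤ l → ∑ i ∈ Ico n0 (nx w n), f i ≤ g l) :
    ∃ K : ℝ, ∀ R : ℕ, 2 ^ kk k n0 ≤ R → -mF e A R - 3 * g (Nat.log 2 R) - K ≤ L R := by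
  refine ⟨bF E e a A k n0 + 2 * V, fun R hR => ?_⟩
  obtain ⟨j, h1, h2⟩ := exists_winF (k := k) h.w1 hR
  have hn := le_itw (w := w) n0 j
  have h3 := h.one (L := L) hn hR h1 h2 (ht _ _ hn h1 h2)
  have h4 := h.b_chain j
  set n := itw w n0 j with hnd
  have h5 : ∑ i ∈ Ico n0 n, f i + wF f w n = ∑ i ∈ Ico n0 (nx w n), f i :=
    sum_Ico_consecutive _ hn (le_nx _)
  have h6 := wF_nonneg (w := w) h.f0 n
  have hl0 := Nat.le_log_of_pow_le (b := 2) (by norm_num) h1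
  have hl1 : n ≤ Nat.log 2 R := (Nat.le_add_right n (k n)).trans hl0
  have hl2 : Nat.log 2 R ≤ kk k (nx w n) := by
    have := Nat.log_mono_right (b := 2) h2
    rwa [Nat.log_pow (by norm_num)] at this
  have h7 := hV n _ hn hl1 hl2
  have h8 := hT R hR
  have h9 := hg n _ hn hl0
  linarith

/-- **(S_up), fixed family, bounded form** -/
theorem FU.bdd (h : FU E e a A f k w C0 n0)
    (ht : ∀ n R : ℕ, n0 ≤ n → 2 ^ kk k n ≤ R → R ≤ 2 ^ kk k (nx w n) → E n R - t R ≤ -L R)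
    {V : ℝ} {g : ℕ → ℝ} (hV : ∀ n l, n0 ≤ n → n ≤ l → l ≤ kk k (nx w n) → vF a A C0 n l ≤ V)
    (hT : ∀ R, 2 ^ kk k n0 ≤ R → t R ≤ V)
    (hg : ∀ n l, n0 ≤ n → kk k n ≤ l → ∑ i ∈ Ico n0 (nx w n), f i ≤ g l) :
    ∃ K : ℝ, ∀ R : ℕ, 2 ^ kk k n0 ≤ R → L R ≤ -mF e A R + 3 * g (Nat.log 2 R) + K := by
  refine ⟨-bF E e a A k n0 + 2 * V, fun R hR => ?_⟩
  obtain ⟨j, h1, h2⟩ := exists_winF (k := k) h.w1 hR
  have hn := le_itw (w := w) n0 j
  have h3 := h.one (L := L) hn hR h1 h2 (ht _ _ hn h1 h2)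
  have h4 := h.b_chain j
  set n := itw w n0 j with hnd
  have h5 : ∑ i ∈ Ico n0 n, f i + wF f w n = ∑ i ∈ Ico n0 (nx w n), f i :=
    sum_Ico_consecutive _ hn (le_nx _)
  have h6 := wF_nonneg (w := w) h.f0 n
  have hl0 := Nat.le_log_of_pow_le (b := 2) (by norm_num) h1
  have hl1 : n ≤ Nat.log 2 R := (Nat.le_add_right n (k n)).trans hl0
  have hl2 : Nat.log 2 R ≤ kk k (nx w n) := by
    have := Nat.log_mono_right (b := 2) h2
    rwa [Nat.log_pow (by norm_num)] at this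
  have h7 := hV n _ hn hl1 hl2
  have h8 := hT R hR
  have h9 := hg n _ hn hl0
  linarith

/-- **(S), fixed family, convergence form** -/
theorem convF (hl : FL E e a A f k w C0 n0) (hu : FU E e a A f k w C0 n0)
    (htop : ∀ n R : ℕ, n0 ≤ n → 2 ^ kk k n ≤ R → R ≤ 2 ^ kk k (nx w n) →
      |E n R + L R| ≤ t R) (hf : Summable f)
    (hve : ∀ ε : ℝ, 0 < ε → ∀ᶠ n in atTop, ∀ l, n ≤ l → l ≤ kk k (nx w n) → vF a A C0 n l ≤ ε)
    (ht : Tendsto t atTop (𝓝 0)) :
    ∃ c' : ℝ, Tendsto (fun R => L R + mF e A R) atTop (𝓝 c') := by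
  classical
  set b : ℕ → ℝ := fun j => bF E e a A k (itw w n0 j) with hb
  have hbs : Summable fun j => 3 * wF f w (itw w n0 j) := by
    refine Summable.mul_left 3 ?_
    refine summable_of_sum_range_le (c := ∑' i, f i) (fun j => wF_nonneg hl.f0 _) fun j => ?_
    rw [chain_sum]
    have h1 := Ico_le_tsum hf hl.f0 n0 (itw w n0 j)
    have h2 : 0 ≤ ∑ i ∈ range n0, f i := sum_nonneg fun i _ => hl.f0 i
    linarith
  obtain ⟨β, hβ⟩ := tend_of_inc (g := b) hbs (Eventually.of_forall fun j => by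
    have hn := le_itw (w := w) n0 j
    have h0 := kk_mono hl.k1 (j + 1)
    have h3 : nx w (itw w n0 j) = itw w n0 (j + 1) := (itw_succ w n0 j).symm
    rw [← h3] at h0
    have h1 := hl.b_step hn h0
    have h2 := hu.b_step hn h0
    rw [h3] at h1 h2
    rw [abs_le]
    constructor <;> simp only [hb] <;> linarith)
  have hJ : ∀ r : ℕ, 2 ^ kk k n0 ≤ r → ∃ j, 2 ^ kk k (itw w n0 j) ≤ r ∧
      r ≤ 2 ^ kk k (nx w (itw w n0 j)) := fun r hr => exists_winF hl.w1 hr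
  choose! J hJ1 hJ2 using hJ
  have hkmono : Monotone fun j => kk k (itw w n0 j) := by
    refine monotone_nat_of_le_succ fun j => ?_
    have h1 := hl.k1 (itw w n0 j) (le_itw (w := w) n0 j)
    have h3 : nx w (itw w n0 j) = itw w n0 (j + 1) := (itw_succ w n0 j).symm
    rwa [h3] at h1
  have hJt : Tendsto J atTop atTop := by
    rw [tendsto_atTop]
    intro j
    filter_upwards [eventually_ge_atTop (2 ^ kk k n0),
      eventually_gt_atTop (2 ^ kk k (itw w n0 j))] with r hr hr2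
    by_contra hcon
    push Not at hcon
    have h1 := hJ2 r hr
    have h3 : nx w (itw w n0 (J r)) = itw w n0 (J r + 1) := (itw_succ w n0 (J r)).symm
    rw [h3] at h1
    have h4 : 2 ^ kk k (itw w n0 (J r + 1)) ≤ 2 ^ kk k (itw w n0 j) :=
      Nat.pow_le_pow_right (by norm_num) (hkmono (by omega : J r + 1 ≤ j))
    omega
  have hnt : Tendsto (itw w n0) atTop atTop := itw_tend hl.w1 le_rfl
  refine ⟨-β, ?_⟩
  rw [Metric.tendsto_atTop]
  intro ε hε
  have e1 : ∀ᶠ r in atTop, |b (J r) - β| ≤ ε / 8 := by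
    obtain ⟨R, hR⟩ := (Metric.tendsto_atTop.1 (hβ.comp hJt)) (ε / 8) (by positivity)
    filter_upwards [eventually_ge_atTop R] with r hr
    have := hR r hr
    rw [Real.dist_eq] at this
    exact this.le
  have e2 : ∀ᶠ r in atTop, ∑' i, f i - ∑ i ∈ range (itw w n0 (J r)), f i ≤ ε / 8 := by
    have h1 := ((tail_tend hf).comp (hnt.comp hJt)).eventually
      (gt_mem_nhds (show (0 : ℝ) < ε / 8 by positivity))
    filter_upwards [h1] with r hr using hr.le
  have e3 : ∀ᶠ r in atTop, ∀ l, itw w n0 (J r) ≤ l → l ≤ kk k (nx w (itw w n0 (J r))) →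
      vF a A C0 (itw w n0 (J r)) l ≤ ε / 8 :=
    (hnt.comp hJt).eventually (hve (ε / 8) (by positivity))
  have e4 : ∀ᶠ r in atTop, |t r| ≤ ε / 8 := by
    obtain ⟨R, hR⟩ := (Metric.tendsto_atTop.1 ht) (ε / 8) (by positivity)
    filter_upwards [eventually_ge_atTop R] with r hr
    have := hR r hr
    rw [Real.dist_eq, sub_zero] at this
    exact this.le
  have hfin : ∀ᶠ r in atTop, |L r + mF e A r - -β| < ε := by
    filter_upwards [e1, e2, e3, e4, eventually_ge_atTop (2 ^ kk k n0)] with r h1 h2 h3 h4 hr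
    have g1 := hJ1 r hr
    have g2 := hJ2 r hr
    have hn := le_itw (w := w) n0 (J r)
    set n := itw w n0 (J r) with hnd
    have g3 := abs_le.1 (htop n r hn g1 g2)
    have k1 := hl.one (L := L) (τ := t r) hn hr g1 g2 (by linarith [g3.1])
    have k2 := hu.one (L := L) (τ := t r) hn hr g1 g2 (by linarith [g3.2])
    have k3 : wF f w n ≤ ∑' i, f i - ∑ i ∈ range n, f i := Ico_le_tsum hf hl.f0 _ _
    have hl1 : n ≤ Nat.log 2 r := (Nat.le_add_right n (k n)).trans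
      (Nat.le_log_of_pow_le (by norm_num) g1)
    have hl2 : Nat.log 2 r ≤ kk k (nx w n) := by
      have := Nat.log_mono_right (b := 2) g2
      rwa [Nat.log_pow (by norm_num)] at this
    have k5 := h3 _ hl1 hl2
    have k6 := abs_le.1 h4
    have k7 := abs_le.1 h1
    have k8 : b (J r) = bF E e a A k n := rfl
    rw [k8] at k7
    rw [abs_lt]
    constructor <;> linarith [k6.1, k6.2, k7.1, k7.2]
  obtain ⟨R, hR⟩ := eventually_atTop.1 hfin
  exact ⟨R, fun r hr => by rw [Real.dist_eq]; exact hR r hr⟩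

/-- raw inputs, fixed family -/
structure RawF (E : ℕ → ℕ → ℝ) (e a x y L t : ℕ → ℝ) (k w : ℕ → ℕ) (c' C0 : ℝ) : Prop where
  c0 : 0 < c'
  kw : ∀ᶠ n in atTop, k (nx w n) ≤ 3 * w n
  k1 : ∀ᶠ n in atTop, kk k n ≤ kk k (nx w n)
  av : ∀ᶠ n in atTop, |a n - invS x n| ≤ y n ^ (1 + c')
  en : ∀ᶠ R : ℕ in atTop, |e R - 1 / Real.pi * Real.log R| ≤ C0
  stat : ∀ᶠ n in atTop, ∀ R : ℕ, 2 ^ kk k n ≤ R → R ≤ 2 ^ kk k (nx w n) →
    |E n R - E n (2 ^ kk k n) - a n / 2 * (e R - e (2 ^ kk k n))| ≤ y n ^ (1 + c')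
  dyn : ∀ᶠ n in atTop, |E (nx w n) (2 ^ kk k (nx w n)) - E n (2 ^ kk k (nx w n))| ≤ y n ^ (1 + c')
  top : ∀ᶠ n in atTop, ∀ R : ℕ, 2 ^ kk k n ≤ R → R ≤ 2 ^ kk k (nx w n) → |E n R + L R| ≤ t R
  t0 : Tendsto t atTop (𝓝 0)

variable {x y : ℕ → ℝ} {c' c r q B A₁ κ : ℝ} {N : ℕ}

/-- window estimates for `a` and `1/S` (as `Raw.est`) -/
lemma est' (h : T3 x y κ c r q B A₁ w N)
    (hav : ∀ᶠ n in atTop, |a n - invS x n| ≤ y n ^ (1 + c')) {c1 : ℝ}
    (hc1 : 0 < c1) (h1 : c1 ≤ c') (h2 : 1 + c1 < r) :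
    ∀ᶠ n in atTop, (∀ l, n ≤ l → l ≤ n + 4 * w n →
        |∑ i ∈ Ico n l, (a n - invS x i)| ≤ 20 * (w n * y n ^ (1 + c1))) ∧
      |a (nx w n) - a n| ≤ 8 * y n ^ (1 + c1) := by
  have hpos : ∀ᶠ n in atTop, 0 < x n := by
    obtain ⟨K, _, hK⟩ := h.lower
    filter_upwards [hK] with n hn using hn.1
  obtain ⟨n1, hn1⟩ := eventually_atTop.1 (hpos.and (hav.and h.fl.ev_one))
  have e1 := h.fl.xvar h.wn (b := 1 + c1) (by linarith) h2
  have e2 := h.fl.var h.wn (η := 1 / (1 + c1)) (by positivity)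
  filter_upwards [e1, e2, eventually_ge_atTop n1] with n g1 g2 g3
  have ha : ∀ i, n ≤ i → |a i - invS x i| ≤ y i ^ (1 + c1) := by
    intro i hi
    obtain ⟨_, h4, h5⟩ := hn1 i (g3.trans hi)
    exact h4.trans (Real.rpow_le_rpow_of_exponent_ge (h.fl.y0 i) h5 (by linarith))
  have hA : ∀ i, n ≤ i → i ≤ n + 4 * w n → |invS x n - invS x i| ≤ 4 * y n ^ (1 + c1) := by
    intro i hi hi2
    refine (invS_sub (hn1 n g3).1 (hn1 i (g3.trans hi)).1).trans ?_
    rw [abs_sub_comm]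
    exact mul_le_mul_of_nonneg_left (g1 i n hi hi2 le_rfl (by omega)) (by norm_num)
  constructor
  · intro l hl1 hl2
    have h3 : ∀ i ∈ Ico n l, |a n - invS x i| ≤ 5 * y n ^ (1 + c1) := by
      intro i hi
      rw [mem_Ico] at hi
      have h4 := ha n le_rfl
      have h5 := hA i hi.1 (by omega)
      have h6 := abs_add_le (a n - invS x n) (invS x n - invS x i)
      rw [sub_add_sub_cancel] at h6
      linarith
    refine (abs_sum_le_sum_abs _ _).trans ((sum_le_sum h3).trans ?_)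
    rw [sum_const, Nat.card_Ico, nsmul_eq_mul]
    have h4 : ((l - n : ℕ) : ℝ) ≤ 4 * w n := by exact_mod_cast (by omega : l - n ≤ 4 * w n)
    have h5 : 0 ≤ y n ^ (1 + c1) := Real.rpow_nonneg (h.fl.y0 n).le _
    have h6 := mul_le_mul_of_nonneg_right h4 h5
    nlinarith
  · have h4 := ha n le_rfl
    have h5 := ha (nx w n) (le_nx n)
    have h6 := hA (nx w n) (le_nx n) (by unfold nx; omega)
    have h7 : y (nx w n) ^ (1 + c1) ≤ 3 * y n ^ (1 + c1) := by
      refine (rp_cmp (h.fl.y0 _) (h.fl.y0 n) (η := 1 / (1 + c1)) ?_ (by linarith)).trans ?_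
      · rw [abs_sub_comm]
        exact g2 _ (le_nx n) (by unfold nx; omega)
      · refine mul_le_mul_of_nonneg_right ?_ (Real.rpow_nonneg (h.fl.y0 n).le _)
        rw [mul_one_div_cancel (by linarith)]
        exact exp_one_le
    have h8 : a (nx w n) - a n = (a (nx w n) - invS x (nx w n)) -
        (invS x n - invS x (nx w n)) - (a n - invS x n) := by ring
    rw [h8]
    have h9 := abs_sub (a (nx w n) - invS x (nx w n) - (invS x n - invS x (nx w n)))
      (a n - invS x n)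
    have h10 := abs_sub (a (nx w n) - invS x (nx w n)) (invS x n - invS x (nx w n))
    linarith

/-- `a n → π/2` -/
lemma a_tend (h : T3 x y κ c r q B A₁ w N) (hc : 0 < c')
    (hav : ∀ᶠ n in atTop, |a n - invS x n| ≤ y n ^ (1 + c')) :
    Tendsto a atTop (𝓝 (Real.pi / 2)) := by
  have hx := h.fl.xt
  have h2 : (2 / Real.pi + 0 : ℝ) ≠ 0 := by
    have := Real.pi_pos; positivity
  have h3 : Tendsto (invS x) atTop (𝓝 (1 / (2 / Real.pi + 0))) := by
    refine Tendsto.div tendsto_const_nhds (tendsto_const_nhds.add hx) h2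
  have h4 : Tendsto (fun n => a n - invS x n) atTop (𝓝 0) := by
    have h5 : Tendsto (fun n => y n ^ (1 + c')) atTop (𝓝 0) := by
      have := h.fl.yt.rpow_const (p := 1 + c') (Or.inr (by linarith))
      rwa [Real.zero_rpow (by linarith)] at this
    exact squeeze_zero_norm' (by filter_upwards [hav] with n hn using hn) h5
  have h5 := h4.add h3
  simp only [sub_add_cancel, zero_add, add_zero, one_div_div] at h5
  exact h5

/-- **(S) in the convergent form, fixed family of tori** -/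
theorem S_convF (h : T3 x y kap c r q B A₁ w N) (hR : RawF E e a x y L t k w c' C0) :
    ∃ l : ℝ, Tendsto (fun R => L R + mF e (invS x) R) atTop (𝓝 l) := by
  have hy := h.fl.y0
  have hc' := hR.c0
  have hr1 := h.r1
  set m0 : ℝ := min (min c' (r - 1)) 1 with hm0
  have hm0p : 0 < m0 := lt_min (lt_min hc' (by linarith)) one_pos
  have hm0c : m0 ≤ c' := (min_le_left _ _).trans (min_le_left _ _)
  have hm0r : m0 ≤ r - 1 := (min_le_left _ _).trans (min_le_right _ _)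
  have hm01 : m0 ≤ 1 := min_le_right _ _
  have hest := est' h hR.av (c1 := m0 / 2) (by positivity) (by linarith) (by linarith)
  set c2 : ℝ := m0 / 4 with hc2
  have hc2p : 0 < c2 := by positivity
  have hlp := lp_pos
  obtain ⟨R1, hR1⟩ := eventually_atTop.1 hR.en
  have hC0 : 0 ≤ C0 := (abs_nonneg _).trans (hR1 R1 le_rfl)
  have e1 := h.fl.ev_w h.wn (b := m0 / 4) (e := 4 / (44 * lp + 8 * C0)) (by positivity)
    (by positivity)
  obtain ⟨n0, hn0⟩ := eventually_atTop.1 ((eventually_ge_atTop (max R1 N)).and <| e1.and <|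
    hest.and <| hR.kw.and <| hR.k1.and <| hR.stat.and <| hR.dyn.and <| hR.top.and h.fl.ev_one)
  have hpw : ∀ n, n0 ≤ n → y n ^ (1 + c') ≤ y n ^ (1 + c2) := by
    intro n hn
    obtain ⟨-, -, -, -, -, -, -, -, g9⟩ := hn0 n hn
    exact Real.rpow_le_rpow_of_exponent_ge (hy n) g9 (by linarith)
  have hw1 : ∀ n, n0 ≤ n → 1 ≤ w n := fun n hn =>
    h.wn.w1 n ((le_max_right _ _).trans (hn0 n hn).1)
  have hwf : ∀ n, n0 ≤ n → y n ^ (1 + c2) ≤ wF (fun n => y n ^ (1 + c2)) w n := by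
    intro n hn
    have h1 := hw1 n hn
    refine single_le_sum (f := fun i => y i ^ (1 + c2)) (fun i _ => Real.rpow_nonneg (hy i).le _)
      (mem_Ico.2 ⟨le_rfl, ?_⟩)
    unfold nx; omega
  have hk1 : ∀ n, n0 ≤ n → kk k n ≤ kk k (nx w n) := fun n hn => (hn0 n hn).2.2.2.2.1
  have hf0 : ∀ n, 0 ≤ y n ^ (1 + c2) := fun n => Real.rpow_nonneg (hy n).le _
  have hen : ∀ R : ℕ, 2 ^ kk k n0 ≤ R → |e R - 1 / Real.pi * Real.log R| ≤ C0 := by
    intro R hRR
    refine hR1 R ?_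
    have h1 : n0 < 2 ^ n0 := Nat.lt_two_pow_self
    have h2 : 2 ^ n0 ≤ 2 ^ kk k n0 := Nat.pow_le_pow_right (by norm_num) (Nat.le_add_right _ _)
    have h3 := (le_max_left R1 N).trans (hn0 n0 le_rfl).1
    omega
  have hwin : ∀ n, n0 ≤ n → lp * |∑ i ∈ Ico n (nx w n), (a n - invS x i)| +
      |a (nx w n) - a n| * (k (nx w n) * lp + C0) ≤ wF (fun n => y n ^ (1 + c2)) w n := by
    intro n hn
    obtain ⟨-, g1, g5, g6, -⟩ := hn0 n hn
    have k1 := g5.1 (nx w n) (le_nx n) (by unfold nx; omega)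
    have k2 := g5.2
    have k3 : (k (nx w n) : ℝ) ≤ 3 * w n := by exact_mod_cast g6
    have hyp : 0 ≤ y n ^ (1 + m0 / 2) := Real.rpow_nonneg (hy n).le _
    have hw0 : (1 : ℝ) ≤ w n := by exact_mod_cast hw1 n hn
    have k4 : lp * |∑ i ∈ Ico n (nx w n), (a n - invS x i)| ≤
        lp * (20 * (w n * y n ^ (1 + m0 / 2))) := mul_le_mul_of_nonneg_left k1 hlp.le
    have k5 : |a (nx w n) - a n| * (k (nx w n) * lp + C0) ≤
        8 * y n ^ (1 + m0 / 2) * (3 * w n * lp + w n * C0) := by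
      refine mul_le_mul k2 ?_ (by positivity) (by positivity)
      have h1 := mul_le_mul_of_nonneg_right k3 hlp.le
      have h2 := mul_le_mul_of_nonneg_right hw0 hC0
      linarith
    have k6 : y n ^ (1 + m0 / 2) = y n ^ (m0 / 4) * y n ^ (1 + c2) := by
      rw [← Real.rpow_add (hy n)]; congr 1; rw [hc2]; ring
    have k7 : (44 * lp + 8 * C0) * (w n * y n ^ (m0 / 4)) ≤ 1 := by
      rw [le_div_iff₀ (by positivity)] at g1
      linarith
    have k9 := mul_le_mul_of_nonneg_right k7 (hf0 n)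
    have k10 := hwf n hn
    have k11 : lp * (20 * (w n * y n ^ (1 + m0 / 2))) +
        8 * y n ^ (1 + m0 / 2) * (3 * w n * lp + w n * C0) =
        (44 * lp + 8 * C0) * (w n * y n ^ (m0 / 4)) * y n ^ (1 + c2) := by rw [k6]; ring
    linarith
  have hFL : FL E e a (invS x) (fun n => y n ^ (1 + c2)) k w C0 n0 :=
    { w1 := hw1
      k1 := hk1
      f0 := hf0
      en := hen
      win := hwin
      stat := by
        intro n R hn h1 h2
        have g := (abs_le.1 ((hn0 n hn).2.2.2.2.2.1 R h1 h2)).2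
        have := hpw n hn
        have := hwf n hn
        linarith
      step := by
        intro n hn
        have g := (abs_le.1 (hn0 n hn).2.2.2.2.2.2.1).2
        have := hpw n hn
        have := hwf n hn
        linarith }
  have hFU : FU E e a (invS x) (fun n => y n ^ (1 + c2)) k w C0 n0 :=
    { w1 := hw1
      k1 := hk1
      f0 := hf0
      en := hen
      win := hwin
      stat := by
        intro n R hn h1 h2
        have g := (abs_le.1 ((hn0 n hn).2.2.2.2.2.1 R h1 h2)).1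
        have := hpw n hn
        have := hwf n hn
        linarith
      step := by
        intro n hn
        have g := (abs_le.1 (hn0 n hn).2.2.2.2.2.2.1).1
        have := hpw n hn
        have := hwf n hn
        linarith }
  refine convF hFL hFU (fun n R hn h1 h2 => (hn0 n hn).2.2.2.2.2.2.2.1 R h1 h2)
    (h.summ (by linarith)) ?_ hR.t0
  intro ε hε
  have e2 := h.fl.ev_w h.wn (b := 1 + m0 / 2) (e := ε / (10 * lp)) (by positivity) (by positivity)
  have e3 : ∀ᶠ n in atTop, |a n / 2 - Real.pi / 4| * (C0 + 1) ≤ ε / 2 := by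
    have h1 := (((a_tend h hc' hR.av).div_const 2).sub_const (Real.pi / 4)).abs.mul_const (C0 + 1)
    have h2 : |Real.pi / 2 / 2 - Real.pi / 4| * (C0 + 1) = 0 := by
      have : Real.pi / 2 / 2 - Real.pi / 4 = 0 := by ring
      rw [this, abs_zero, zero_mul]
    rw [h2] at h1
    filter_upwards [h1.eventually (gt_mem_nhds (show (0 : ℝ) < ε / 2 by positivity))]
      with n hn using hn.le
  filter_upwards [hest, e2, e3, hR.kw] with n g1 g2 g3 g4 l hl1 hl2
  unfold vF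
  have k1 := g1.1 l hl1 (by unfold kk nx at hl2; unfold nx at g4; omega)
  have k2 := mul_le_mul_of_nonneg_left k1 hlp.le
  have k3 : lp * (20 * (w n * y n ^ (1 + m0 / 2))) ≤ ε / 2 := by
    rw [le_div_iff₀ (by positivity)] at g2
    linarith
  linarith

/-- the dyadic form: `L(2^k) + (log 2/2π) ∑_{i<k} 1/S_i → c'_i`, if the energy of the family is
`(1/π) log R + κ + o(1)` along `R = 2^k` -/
theorem S_dyadic (h : T3 x y kap c r q B A₁ w N) (hR : RawF E e a x y L t k w c' C0) {κ₁ : ℝ}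
    (hκ : Tendsto (fun m : ℕ => e (2 ^ m) - 1 / Real.pi * (m * Real.log 2)) atTop (𝓝 κ₁)) :
    ∃ l : ℝ, Tendsto (fun m : ℕ => L (2 ^ m) + lp * ∑ i ∈ range m, invS x i) atTop (𝓝 l) := by
  obtain ⟨l, hl⟩ := S_convF h hR
  have h1 : Tendsto (fun m : ℕ => 2 ^ m) atTop (atTop : Filter ℕ) :=
    tendsto_atTop_mono (fun m => (Nat.lt_two_pow_self (n := m)).le) tendsto_id
  have h2 := (hl.comp h1).sub (hκ.const_mul (Real.pi / 4))
  refine ⟨_, h2.congr fun m => ?_⟩
  simp only [Function.comp, mF, Nat.log_pow (show 1 < 2 by norm_num)]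
  ring

end

end Vale.Agent.P159.H552.Dx7
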