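import Vale.Agent.P159.H883.Brg5
import Vale.Agent.P159.H963.Vb1e

/-!
P159, helper552, module Tl3: invariance of the law `nuM` of the field modulo constants.

* `SL_gen` : the integral of a function invariant under constants does not depend on the section,
* `Sy σ` : `σ` preserves the volume and commutes with constants up to a sign,
* `Sy.slab`, `Sy.nuM` : `q0 x₀ ∘ σ` preserves `nuM w M x₀` when `Zn w M ∘ σ = Zn w M`,
* `Sy.int`, `Sy.integrable`, `Sy.real`, `Sy.Enu` : consequences for functions invariant under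
  constants,
* instances: `sy_comp` (relabelling of the sites), `sy_neg`.
-/

set_option linter.unusedSectionVars false

namespace Vale.Agent.P159.H552.Inv

open Finset Matrix MeasureTheory
open Vale.Agent.P159.H37 (wM ZM qf bf Zn Un Rs Zs re gau Gm)
open Vale.Agent.P159.H963 (GrI pin MF ntr GW nM An)
open Vale.Agent.P159.H883

noncomputable section

variable {V : Type} [Fintype V] [DecidableEq V] [Nonempty V]

/-! ### sections -/

/-- a section of the fields modulo constants: `∫ a (F + c) dc = 1` -/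
def Sec (a : (V → ℝ) → ENNReal) : Prop :=
  Measurable a ∧ ∀ F : V → ℝ, ∫⁻ c : ℝ, a (fun x => F x + c) = 1

lemma meas_line : Measurable fun p : (V → ℝ) × ℝ => (fun x => p.1 x + p.2 : V → ℝ) :=
  measurable_pi_lambda _ fun x => ((measurable_pi_apply x).comp measurable_fst).add measurable_snd

lemma sec_two {a b H : (V → ℝ) → ENNReal} (hb : Sec b) : ∫⁻ F, a F * H F = ∫⁻ F, ∫⁻ c : ℝ, a F * b (fun x => F x + c) * H F := by
  refine lintegral_congr fun F => ?_
  have hbm : Measurable fun c : ℝ => b fun x => F x + c :=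
    hb.1.comp (meas_line.comp (measurable_const.prodMk measurable_id))
  have e : ∀ c : ℝ, a F * b (fun x => F x + c) * H F = a F * H F * b (fun x => F x + c) :=
    fun c => mul_right_comm _ _ _
  simp only [e]
  rw [lintegral_const_mul _ hbm, hb.2 F, mul_one]

/-- **independence of the section** -/
theorem SL_gen {a b H : (V → ℝ) → ENNReal} (hH : CI H) (hm : Measurable H) (ha : Sec a)
    (hb : Sec b) : ∫⁻ F, a F * H F = ∫⁻ F, b F * H F := by
  have hm1 : Measurable fun p : (V → ℝ) × ℝ => a p.1 * b (fun x => p.1 x + p.2) * H p.1 :=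
    ((ha.1.comp measurable_fst).mul (hb.1.comp meas_line)).mul (hm.comp measurable_fst)
  have hm2 : Measurable fun p : (V → ℝ) × ℝ => b p.1 * a (fun x => p.1 x + p.2) * H p.1 :=
    ((hb.1.comp measurable_fst).mul (ha.1.comp meas_line)).mul (hm.comp measurable_fst)
  have s1 := lintegral_lintegral_swap (μ := (volume : Measure (V → ℝ)))
    (ν := (volume : Measure ℝ)) (f := fun (F : V → ℝ) (c : ℝ) =>
      a F * b (fun x => F x + c) * H F) hm1.aemeasurable
  have s2 := lintegral_lintegral_swap (μ := (volume : Measure (V → ℝ)))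
    (ν := (volume : Measure ℝ)) (f := fun (F : V → ℝ) (c : ℝ) =>
      b F * a (fun x => F x + c) * H F) hm2.aemeasurable
  -- reflect `c`, translate `F`
  have h1 : ∀ c : ℝ, ∫⁻ F : V → ℝ, a F * b (fun x => F x + c) * H F =
      ∫⁻ F : V → ℝ, b F * a (fun x => F x + -c) * H F := by
    intro c
    rw [← lintegral_add_right_eq_self (fun F : V → ℝ => a F * b (fun x => F x + c) * H F)
      fun _ : V => -c]
    refine lintegral_congr fun F => ?_
    have e1 : (F + fun _ => -c) = fun x => F x + -c := rfl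
    have e2 : (fun x => (fun x => F x + -c) x + c) = F := by
      funext x
      simp
    simp only [e1]
    rw [e2, hH F (-c)]
    ring
  rw [sec_two hb, sec_two ha, s1, s2]
  simp only [h1]
  exact lintegral_neg_eq_self (μ := (volume : Measure ℝ))
    (fun c : ℝ => ∫⁻ F : V → ℝ, b F * a (fun x => F x + c) * H F)

/-- the indicator of an interval of length one at a site, composed with `σ` -/
def ind (x₀ : V) (F : V → ℝ) : ENNReal := (slab x₀).indicator 1 F

lemma meas_ind (x₀ : V) : Measurable (ind x₀) :=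
  measurable_one.indicator (measurableSet_slab x₀)

lemma sec_ind (x₀ : V) : Sec (ind x₀) := by
  refine ⟨meas_ind x₀, fun F => ?_⟩
  have e : ∀ c : ℝ, ind x₀ (fun x => F x + c) =
      (Set.Ico (-F x₀) (-F x₀ + 1)).indicator (fun _ => (1 : ENNReal)) c := by
    intro c
    unfold ind
    have h : (fun x => F x + c) ∈ slab x₀ ↔ c ∈ Set.Ico (-F x₀) (-F x₀ + 1) := by
      show F x₀ + c ∈ Set.Ico (0 : ℝ) 1 ↔ _
      simp only [Set.mem_Ico]
      constructor
      · rintro ⟨h1, h2⟩
        constructor <;> linarith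
      · rintro ⟨h1, h2⟩
        constructor <;> linarith
    by_cases hc : c ∈ Set.Ico (-F x₀) (-F x₀ + 1)
    · rw [Set.indicator_of_mem hc, Set.indicator_of_mem (h.2 hc)]
      rfl
    · rw [Set.indicator_of_notMem hc, Set.indicator_of_notMem fun h' => hc (h.1 h')]
  simp only [e]
  rw [lintegral_indicator measurableSet_Ico, lintegral_const, one_mul,
    Measure.restrict_apply MeasurableSet.univ, Set.univ_inter, Real.volume_Ico]
  simp

lemma slab_ind (x₀ : V) (H : (V → ℝ) → ENNReal) :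
    ∫⁻ F in slab x₀, H F = ∫⁻ F, ind x₀ F * H F := by
  rw [← lintegral_indicator (measurableSet_slab x₀)]
  refine lintegral_congr fun F => ?_
  unfold ind
  by_cases hF : F ∈ slab x₀
  · rw [Set.indicator_of_mem hF, Set.indicator_of_mem hF, Pi.one_apply, one_mul]
  · rw [Set.indicator_of_notMem hF, Set.indicator_of_notMem hF, zero_mul]

/-- independence of the base point -/
theorem SL_base {H : (V → ℝ) → ENNReal} (hH : CI H) (hm : Measurable H) (x₀ x₁ : V) :
    ∫⁻ F in slab x₀, H F = ∫⁻ F in slab x₁, H F := by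
  rw [slab_ind, slab_ind, SL_gen hH hm (sec_ind x₀) (sec_ind x₁)]

/-! ### symmetries -/

/-- volume preserving maps of the fields which commute with constants up to a sign -/
structure Sy (σ : (V → ℝ) → V → ℝ) : Prop where
  mp : MeasurePreserving σ (volume : Measure (V → ℝ)) volume
  cst : ∃ ε : ℝ, (ε = 1 ∨ ε = -1) ∧ ∀ (F : V → ℝ) (c : ℝ),
    σ (fun x => F x + c) = fun x => σ F x + ε * c

variable {σ : (V → ℝ) → V → ℝ}

lemma Sy.ci {α : Type*} (h : Sy σ) {H : (V → ℝ) → α} (hH : CI H) : CI fun F => H (σ F) := by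
  obtain ⟨ε, -, hc⟩ := h.cst
  intro F c
  simp only [hc F c]
  exact hH (σ F) (ε * c)

lemma Sy.sec (h : Sy σ) {a : (V → ℝ) → ENNReal} (ha : Sec a) : Sec fun F => a (σ F) := by
  obtain ⟨ε, hε, hc⟩ := h.cst
  refine ⟨ha.1.comp h.mp.measurable, fun F => ?_⟩
  simp only [hc F]
  rcases hε with rfl | rfl
  · simp only [one_mul]
    exact ha.2 (σ F)
  · simp only [neg_mul, one_mul]
    rw [lintegral_neg_eq_self (fun c : ℝ => a fun x => σ F x + c)]
    exact ha.2 (σ F)

/-- **invariance of the slab integral** -/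
theorem Sy.slab (h : Sy σ) {H : (V → ℝ) → ENNReal} (hH : CI H) (hm : Measurable H) (x₀ : V) :
    ∫⁻ F in slab x₀, H (σ F) = ∫⁻ F in slab x₀, H F := by
  rw [slab_ind, slab_ind, SL_gen (h.ci hH) (hm.comp h.mp.measurable) (sec_ind x₀)
    (h.sec (sec_ind x₀))]
  exact h.mp.lintegral_comp ((meas_ind x₀).mul hm)

lemma Sy.comp {τ : (V → ℝ) → V → ℝ} (h : Sy σ) (h' : Sy τ) : Sy fun F => σ (τ F) where
  mp := h.mp.comp h'.mp
  cst := by
    obtain ⟨ε, hε, hc⟩ := h.cst
    obtain ⟨δ, hδ, hd⟩ := h'.cst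
    refine ⟨ε * δ, ?_, fun F c => ?_⟩
    · rcases hε with rfl | rfl <;> rcases hδ with rfl | rfl <;> simp
    · simp only [hd F c, hc (τ F), mul_assoc]

/-- reflection of the field -/
theorem sy_neg : Sy fun F : V → ℝ => -F where
  mp := Measure.measurePreserving_neg _
  cst := ⟨-1, Or.inr rfl, fun F c => by
    funext x
    simp only [Pi.neg_apply]
    ring⟩

/-- relabelling of the sites -/
theorem sy_comp (e : V ≃ V) : Sy fun F : V → ℝ => F ∘ e where
  mp := by
    have hmp := volume_measurePreserving_piCongrLeft (fun _ : V => ℝ) e.symm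
    have e1 : ⇑(MeasurableEquiv.piCongrLeft (fun _ : V => ℝ) e.symm) =
        fun F : V → ℝ => F ∘ e := by
      funext F b
      obtain ⟨a, rfl⟩ := e.symm.surjective b
      rw [Function.comp_apply, Equiv.apply_symm_apply]
      exact Equiv.piCongrLeft_apply_apply (P := fun _ : V => ℝ) (e := e.symm) F a
    rw [e1] at hmp
    exact hmp
  cst := ⟨1, Or.inl rfl, fun F c => by
    funext x
    simp⟩

/-! ### the law -/

section law

variable {X Ω : Type*} [MeasurableSpace X] [MeasurableSpace Ω]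

lemma law_lint {ν : Measure X} {ρ : X → ℝ} {r : X → Ω} {z : ℝ} (hρ : Measurable ρ)
    (hr : Measurable r) {f : Ω → ENNReal} (hf : Measurable f) :
    ∫⁻ ω, f ω ∂(law ν ρ r z) =
      (ENNReal.ofReal z)⁻¹ * ∫⁻ x, ENNReal.ofReal (ρ x) * f (r x) ∂ν := by
  unfold law
  rw [lintegral_smul_measure, lintegral_map hf hr,
    lintegral_withDensity_eq_lintegral_mul ν hρ.ennreal_ofReal (g := fun x => f (r x))
      (hf.comp hr), smul_eq_mul]
  rfl

end law

variable {w : (V → ℤ) → ℝ} {M : Matrix V V ℝ} {m : ℝ}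

/-- **invariance of the law of the field modulo constants** -/
theorem Sy.nuM (h : Sy σ) (hb : BW w) (hM : MF M m) (x₀ : V)
    (hZ : ∀ F, Zn w M (σ F) = Zn w M F) :
    MeasurePreserving (fun F => q0 x₀ (σ F)) (nuM w M x₀) (nuM w M x₀) := by
  have hq : Measurable fun F => q0 x₀ (σ F) := (measurable_q0 x₀).comp h.mp.measurable
  have hz := (hb.contZn hM).measurable
  refine ⟨hq, ?_⟩
  refine Measure.ext_of_lintegral _ fun f hf => ?_
  rw [lintegral_map hf hq]
  unfold H883.nuM
  rw [law_lint hz (measurable_q0 x₀) (f := fun F => f (q0 x₀ (σ F))) (hf.comp hq),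
    law_lint hz (measurable_q0 x₀) hf]
  congr 1
  have hci : CI fun F => f (q0 x₀ (σ F)) := (h.ci (ci_q0 x₀)).comp f
  have hH : CI fun F => ENNReal.ofReal (Zn w M F) * f (q0 x₀ F) := by
    intro F c
    simp only
    rw [hb.ci M F c, ci_q0 x₀ F c]
  have h1 := h.slab hH (hz.ennreal_ofReal.mul (hf.comp (measurable_q0 x₀))) x₀
  rw [← h1]
  refine lintegral_congr fun F => ?_
  simp only [hZ F]
  congr 1
  exact hci.q0 x₀ F

section cons

variable {Φ : (V → ℝ) → ℝ}

/-- integrals of functions invariant under constants -/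
theorem Sy.int (h : Sy σ) (hb : BW w) (hM : MF M m) (x₀ : V)
    (hZ : ∀ F, Zn w M (σ F) = Zn w M F) (hc : CI Φ) (hΦ : Measurable Φ) :
    ∫ F, Φ (σ F) ∂(H883.nuM w M x₀) = ∫ F, Φ F ∂(H883.nuM w M x₀) := by
  have h1 := h.nuM hb hM x₀ hZ
  have h2 := integral_map (μ := H883.nuM w M x₀) h1.measurable.aemeasurable (f := Φ)
    hΦ.aestronglyMeasurable
  rw [h1.map_eq] at h2
  rw [h2]
  refine integral_congr_ae (Filter.Eventually.of_forall fun F => ?_)
  exact (hc.q0 x₀ (σ F)).symm

theorem Sy.integrable (h : Sy σ) (hb : BW w) (hM : MF M m) (x₀ : V)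
    (hZ : ∀ F, Zn w M (σ F) = Zn w M F) (hc : CI Φ) (hΦ : Measurable Φ) :
    Integrable (fun F => Φ (σ F)) (H883.nuM w M x₀) ↔ Integrable Φ (H883.nuM w M x₀) := by
  have h1 := h.nuM hb hM x₀ hZ
  have h2 := h1.integrable_comp (g := Φ) hΦ.aestronglyMeasurable
  rw [← h2]
  refine integrable_congr (Filter.Eventually.of_forall fun F => ?_)
  exact (hc.q0 x₀ (σ F)).symm

/-- restricted integrals -/
theorem Sy.set_int (h : Sy σ) (hb : BW w) (hM : MF M m) (x₀ : V)
    (hZ : ∀ F, Zn w M (σ F) = Zn w M F) (hc : CI Φ) (hΦ : Measurable Φ) {A : Set (V → ℝ)}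
    (hA : MeasurableSet A) (hcA : CI fun F => F ∈ A) :
    ∫ F in {F | σ F ∈ A}, Φ (σ F) ∂(H883.nuM w M x₀) = ∫ F in A, Φ F ∂(H883.nuM w M x₀) := by
  have hAσ : MeasurableSet {F | σ F ∈ A} := h.mp.measurable hA
  rw [← integral_indicator hA, ← integral_indicator hAσ]
  have hcI : CI (A.indicator Φ) := by
    intro F c
    have h1 : ((fun x => F x + c) ∈ A) = (F ∈ A) := hcA F c
    by_cases hF : F ∈ A
    · rw [Set.indicator_of_mem hF, Set.indicator_of_mem (h1.symm ▸ hF), hc F c]
    · rw [Set.indicator_of_notMem hF, Set.indicator_of_notMem (h1.symm ▸ hF)]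
  rw [← h.int hb hM x₀ hZ hcI (hΦ.indicator hA)]
  refine integral_congr_ae (Filter.Eventually.of_forall fun F => ?_)
  rfl

/-- probabilities of sets invariant under constants -/
theorem Sy.real (h : Sy σ) (hb : BW w) (hM : MF M m) (x₀ : V)
    (hZ : ∀ F, Zn w M (σ F) = Zn w M F) {A : Set (V → ℝ)} (hA : MeasurableSet A)
    (hcA : CI fun F => F ∈ A) :
    (H883.nuM w M x₀).real {F | σ F ∈ A} = (H883.nuM w M x₀).real A := by
  have h1 := h.nuM hb hM x₀ hZ
  have h2 := h1.measureReal_preimage hA.nullMeasurableSet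
  rw [← h2]
  congr 1
  ext F
  show σ F ∈ A ↔ q0 x₀ (σ F) ∈ A
  have h3 : (q0 x₀ (σ F) ∈ A) = (σ F ∈ A) := hcA.q0 x₀ (σ F)
  rw [h3]

end cons

/-! ### equivariance -/

section eqv

variable {w' wD wD' : (V → ℤ) → ℝ}

/-- relabelling of the sites, two weights -/
theorem Zn_rel (e : V ≃ V) (hw : ∀ h : V → ℤ, w' (h ∘ e) = w h)
    (hM : ∀ x y, M (e x) (e y) = M x y) (F : V → ℝ) : Zn w' M (F ∘ e) = Zn w M F := by
  unfold Zn
  refine intervalIntegral.integral_congr fun c _ => ?_
  show ZM w' M ((fun x => F x + c) ∘ e) = ZM w M fun x => F x + c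
  unfold ZM
  rw [← Equiv.tsum_eq (e.symm.arrowCongr (Equiv.refl ℤ))]
  refine tsum_congr fun h => ?_
  have e1 : (e.symm.arrowCongr (Equiv.refl ℤ)) h = h ∘ e := by
    funext x
    simp [Equiv.arrowCongr]
  rw [e1, hw]
  have e2 : re (h ∘ e) - (fun x => F x + c) ∘ e = (re h - fun x => F x + c) ∘ e := by
    funext x
    simp [re]
  rw [e2, H963.qf_comp e hM]

theorem Psi_rel (e : V ≃ V) (hw : ∀ h : V → ℤ, w (h ∘ e) = w h)
    (hD : ∀ h : V → ℤ, wD' (h ∘ e) = wD h) (hM : ∀ x y, M (e x) (e y) = M x y) (φ F : V → ℝ) :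
    Psi w wD' M (φ ∘ e) (F ∘ e) = Psi w wD M φ F := by
  have e1 : φ ∘ e + F ∘ e = (φ + F) ∘ e := rfl
  unfold Psi
  rw [e1, Zn_rel e hD hM, Zn_rel e hw hM]

end eqv

end

end Vale.Agent.P159.H552.Inv
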