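import Vale.Agent.P159.H552.Tl2
import Vale.Agent.P159.H552.Tl3
import Vale.Agent.P159.H883.Prc2
import Vale.Agent.P159.H883.Brg7

/-!
P159, helper552, module Tl4: the smeared Ginibre inequalities under the law `nuM`.

Data: `w` a `GWF` family, `MF M m`, vectors `X : B × (V → ℝ)` (dislocation, real background),
`Px w M X F = Psi (w 0) (w X.1) M X.2 F`, `CX w x₀ X = Zp (w X.1) x₀ / Zp (w 0) x₀`,
`Gx w M m x₀ X F = gP w M m x₀ (X, F)`, `Rw = Rs (nM (w 0)) (ntr *ᵥ F)`.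

* `sm_pt`  : `(∑ p_u e^{G(X_u,F) + G(X_u,-F)})² ≤ S0 e^{R(2F)}`,
* `sm2_pt` : `(∑ p_u Ψ_u(F) Ψ_u(0))² ≤ ∑ p_u p_v Ψ_{u+v}(F) Ψ_{u-v}(0)` for every `F`,
* `sm_nu`  : `∫_{R(2sF) ≤ r} e^{G(X_u,sF) + G(X_u,-sF)} dν ≤ √SS e^{r/2}` (average over `u`, and for
  one `u₀` when the integrals do not depend on `u`),
* `sm2_nu` : `∫ (∑ p_u Ψ_u(F) Ψ_u(0))² dν ≤ SS`, `sm2_Q` : `∑ p_u ∫_A Ψ_u dν ≤ √(SS ν(A)) / ψ₀`.
-/

open scoped Matrix
open Finset MeasureTheory

set_option linter.unusedSectionVars false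

namespace Vale.Agent.P159.H552.Sm

open Vale.Agent.P159.TM.H104 (EM T Ex Cv Lg li nh Gr)
open Vale.Agent.P159.H37
open Vale.Agent.P159.H770 (PSDF DisF GWF ZB)
open Vale.Agent.P159.H963 (GrI pin Neu ntr nM MF GW An)
open Vale.Agent.P159.H883

noncomputable section

variable {B V : Type} [AddCommGroup B] [Fintype V] [DecidableEq V] [Nonempty V]
variable {w : B → (V → ℤ) → ℝ} {M : Matrix V V ℝ} {m : ℝ} {x₀ : V}

/-- the functional of the vector `X` -/
def Px (w : B → (V → ℤ) → ℝ) (M : Matrix V V ℝ) (X : B × (V → ℝ)) (F : V → ℝ) : ℝ :=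
  Psi (w 0) (w X.1) M X.2 F

/-- its massless mean -/
def CX (w : B → (V → ℤ) → ℝ) (x₀ : V) (X : B × (V → ℝ)) : ℝ := Zp (w X.1) x₀ / Zp (w 0) x₀

/-- its logarithm plus the quadratic form -/
def Gx (w : B → (V → ℤ) → ℝ) (M : Matrix V V ℝ) (m : ℝ) (x₀ : V) (X : B × (V → ℝ))
    (F : V → ℝ) : ℝ := gP w M m x₀ (X, F)

/-- the non-quadratic part without dislocation -/
def Rw (w : B → (V → ℤ) → ℝ) (M : Matrix V V ℝ) (m : ℝ) (x₀ : V) (F : V → ℝ) : ℝ :=
  Rs (nM (w 0) M m x₀) (ntr M m *ᵥ F)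

variable {ι : Type*} [Fintype ι]

/-- the double average at the zero background -/
def S0 (w : B → (V → ℤ) → ℝ) (M : Matrix V V ℝ) (p : ι → ℝ) (d : ι → B × (V → ℝ)) : ℝ :=
  ∑ u, ∑ v, p u * p v * (Px w M (d u + d v) 0 * Px w M (d u - d v) 0)

/-- the double average of the massless means -/
def SS (w : B → (V → ℤ) → ℝ) (x₀ : V) (p : ι → ℝ) (d : ι → B × (V → ℝ)) : ℝ :=
  ∑ u, ∑ v, p u * p v * (CX w x₀ (d u + d v) * CX w x₀ (d u - d v))

/-! ### pointwise -/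

lemma Px_eq (X : B × (V → ℝ)) (F : V → ℝ) : Px w M X F = ZG w M (X + (0, F)) / ZG w M (0, F) := by
  unfold Px Psi ZG
  simp only [Prod.fst_add, Prod.snd_add, add_zero]

lemma Px_pos (hw : GWF w) (hM : MF M m) (X : B × (V → ℝ)) (F : V → ℝ) : 0 < Px w M X F :=
  div_pos (hw.Zn_pos hM _ _) (hw.Zn_pos hM _ _)

lemma Px_le (hw : GWF w) (hE : ∀ b x₀, EM (pin (w b) x₀)) (hM : MF M m) (x₀ : V)
    (X : B × (V → ℝ)) : Px w M X 0 ≤ CX w x₀ X := Psi_zero_le hw hE hM x₀ X.1 X.2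

lemma CX_pos (hw : GWF w) (hE : ∀ b x₀, EM (pin (w b) x₀)) (x₀ : V) (X : B × (V → ℝ)) :
    0 < CX w x₀ X := div_pos ((gwf_bw hw hE _).Zp_pos x₀) ((gwf_bw hw hE _).Zp_pos x₀)

lemma exp_Gx (hw : GWF w) (hM : MF M m) (X : B × (V → ℝ)) (F : V → ℝ) :
    Real.exp (Gx w M m x₀ X F) =
      ZG w M (X + (0, F)) / ZG w M 0 * Real.exp (qf (An (w 0) M m x₀) F / 2) := by
  have p1 := hw.Zn_pos hM X.1 (X.2 + F)
  have p2 := hw.Zn_pos hM 0 (0 : V → ℝ)
  unfold Gx gP ZG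
  simp only [Prod.fst_add, Prod.snd_add, add_zero, Prod.fst_zero, Prod.snd_zero]
  rw [Real.exp_add, Real.exp_sub, Real.exp_log p1, Real.exp_log p2]

lemma exp_Rw (hw : GWF w) (hM : MF M m) (F : V → ℝ) :
    Real.exp (Rw w M m x₀ F) =
      ZG w M (0, F) / ZG w M 0 * Real.exp (qf (An (w 0) M m x₀) F / 2) := by
  have h := exp_Gx (x₀ := x₀) hw hM (0 : B × (V → ℝ)) F
  rw [zero_add] at h
  rw [← h]
  unfold Rw Gx
  rw [← gP_real (B := B) hw hM F]
  rfl

lemma log_Px (hw : GWF w) (hM : MF M m) (X : B × (V → ℝ)) (F : V → ℝ) :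
    Real.log (Px w M X F) = Gx w M m x₀ X F - Rw w M m x₀ F :=
  log_Psi (x₀ := x₀) hw hM X.1 X.2 F

lemma Px_exp (hw : GWF w) (hM : MF M m) (X : B × (V → ℝ)) (F : V → ℝ) :
    Px w M X F = Real.exp (Gx w M m x₀ X F - Rw w M m x₀ F) := by
  rw [← log_Px hw hM, Real.exp_log (Px_pos hw hM X F)]

lemma S0_le (hw : GWF w) (hE : ∀ b x₀, EM (pin (w b) x₀)) (hM : MF M m) (x₀ : V) {p : ι → ℝ}
    (hp : ∀ u, 0 ≤ p u) (d : ι → B × (V → ℝ)) : S0 w M p d ≤ SS w x₀ p d := by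
  refine Finset.sum_le_sum fun u _ => Finset.sum_le_sum fun v _ => ?_
  refine mul_le_mul_of_nonneg_left ?_ (mul_nonneg (hp u) (hp v))
  exact mul_le_mul (Px_le hw hE hM x₀ _) (Px_le hw hE hM x₀ _) (Px_pos hw hM _ _).le
    (CX_pos hw hE x₀ _).le

lemma SS_nonneg (hw : GWF w) (hE : ∀ b x₀, EM (pin (w b) x₀)) (x₀ : V) {p : ι → ℝ}
    (hp : ∀ u, 0 ≤ p u) (d : ι → B × (V → ℝ)) : 0 ≤ SS w x₀ p d :=
  Finset.sum_nonneg fun u _ => Finset.sum_nonneg fun v _ =>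
    mul_nonneg (mul_nonneg (hp u) (hp v)) (mul_pos (CX_pos hw hE x₀ _) (CX_pos hw hE x₀ _)).le

/-- **(SM)** pointwise -/
theorem sm_pt (hw : GWF w) (hM : MF M m) (x₀ : V) (p : ι → ℝ) (d : ι → B × (V → ℝ))
    (F : V → ℝ) :
    (∑ u, p u * Real.exp (Gx w M m x₀ (d u) F + Gx w M m x₀ (d u) (-F))) ^ 2 ≤
      S0 w M p d * Real.exp (Rw w M m x₀ ((2 : ℝ) • F)) := by
  have h := sm_zero (psdZG hw hM) (negZG hw hM) p d ((0, F) : B × (V → ℝ))
  have z0 := posZG hw hM (0 : B × (V → ℝ))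
  set z := ZG w M 0 with hz
  set q := qf (An (w 0) M m x₀) F with hq
  have eL : ∑ u, p u * Real.exp (Gx w M m x₀ (d u) F + Gx w M m x₀ (d u) (-F)) =
      (∑ u, p u * (ZG w M (d u + (0, F)) * ZG w M (d u - (0, F)))) * (Real.exp q / z ^ 2) := by
    rw [Finset.sum_mul]
    refine Finset.sum_congr rfl fun u _ => ?_
    rw [Real.exp_add, exp_Gx hw hM, exp_Gx hw hM, qf_neg, ← hq, ← hz]
    have e1 : d u + ((0 : B), -F) = d u - (0, F) := by
      ext <;> simp [sub_eq_add_neg]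
    have e2 : Real.exp q = Real.exp (q / 2) * Real.exp (q / 2) := by
      rw [← Real.exp_add]; congr 1; ring
    rw [e1, e2]
    field_simp
  have eS : S0 w M p d = (∑ u, ∑ v, p u * p v * (ZG w M (d u + d v) * ZG w M (d u - d v))) /
      z ^ 2 := by
    unfold S0
    rw [Finset.sum_div]
    refine Finset.sum_congr rfl fun u _ => ?_
    rw [Finset.sum_div]
    refine Finset.sum_congr rfl fun v _ => ?_
    rw [Px_eq, Px_eq]
    have e0 : ((0 : B), (0 : V → ℝ)) = 0 := rfl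
    rw [e0, add_zero, add_zero, ← hz]
    field_simp
  have eR : Real.exp (Rw w M m x₀ ((2 : ℝ) • F)) =
      ZG w M ((0, F) + (0, F)) / z * Real.exp q ^ 2 := by
    rw [exp_Rw hw hM, ← hz, qf_smul, ← hq, ← Real.exp_nat_mul]
    have e1 : ((0 : B), F) + (0, F) = (0, (2 : ℝ) • F) := by
      rw [two_smul]
      ext <;> simp
    rw [e1]
    congr 2
    push_cast
    ring
  rw [eL, mul_pow, eS, eR]
  have hc : 0 ≤ (Real.exp q / z ^ 2) ^ 2 := sq_nonneg _
  calc (∑ u, p u * (ZG w M (d u + (0, F)) * ZG w M (d u - (0, F)))) ^ 2 *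
        (Real.exp q / z ^ 2) ^ 2 ≤ _ := mul_le_mul_of_nonneg_right h hc
    _ = _ := by field_simp

/-- (SM) as a bound of the sum -/
theorem sm_pt' (hw : GWF w) (hE : ∀ b x₀, EM (pin (w b) x₀)) (hM : MF M m) (x₀ : V) {p : ι → ℝ}
    (hp : ∀ u, 0 ≤ p u) (d : ι → B × (V → ℝ)) (F : V → ℝ) :
    ∑ u, p u * Real.exp (Gx w M m x₀ (d u) F + Gx w M m x₀ (d u) (-F)) ≤
      Real.sqrt (SS w x₀ p d) * Real.exp (Rw w M m x₀ ((2 : ℝ) • F) / 2) := by
  have h := (sm_pt hw hM x₀ p d F).trans (mul_le_mul_of_nonneg_right (S0_le hw hE hM x₀ hp d)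
    (Real.exp_pos _).le)
  have e : Real.sqrt (SS w x₀ p d) * Real.exp (Rw w M m x₀ ((2 : ℝ) • F) / 2) =
      Real.sqrt (SS w x₀ p d * Real.exp (Rw w M m x₀ ((2 : ℝ) • F))) := by
    rw [Real.sqrt_mul (SS_nonneg hw hE x₀ hp d), ← Real.exp_half]
  rw [e]
  exact Real.le_sqrt_of_sq_le h

/-- **(SM2)** pointwise, every real `F` -/
theorem sm2_pt (hw : GWF w) (hM : MF M m) (p : ι → ℝ) (d : ι → B × (V → ℝ)) (F : V → ℝ) :
    (∑ u, p u * (Px w M (d u) F * Px w M (d u) 0)) ^ 2 ≤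
      ∑ u, ∑ v, p u * p v * (Px w M (d u + d v) F * Px w M (d u - d v) 0) := by
  have h := sm_two (psdZG hw hM) (negZG hw hM) p d ((0, (1 / 2 : ℝ) • F) : B × (V → ℝ))
  have e1 : ((0 : B), (1 / 2 : ℝ) • F) + (0, (1 / 2 : ℝ) • F) = (0, F) := by
    have : (1 / 2 : ℝ) • F + (1 / 2 : ℝ) • F = F := by
      rw [← add_smul]
      norm_num
    ext
    · simp
    · simp only [Prod.snd_add]
      rw [this]
  rw [e1] at h
  have z0 := posZG hw hM (0 : B × (V → ℝ))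
  have zF := posZG hw hM ((0, F) : B × (V → ℝ))
  have e0 : ((0 : B), (0 : V → ℝ)) = 0 := rfl
  set z := ZG w M 0 with hz
  set y := ZG w M (0, F) with hy
  have eL : ∑ u, p u * (Px w M (d u) F * Px w M (d u) 0) =
      (∑ u, p u * (ZG w M (d u + (0, F)) * ZG w M (d u))) / (y * z) := by
    rw [Finset.sum_div]
    refine Finset.sum_congr rfl fun u _ => ?_
    rw [Px_eq, Px_eq, e0, add_zero, ← hz, ← hy]
    field_simp
  have eR : ∑ u, ∑ v, p u * p v * (Px w M (d u + d v) F * Px w M (d u - d v) 0) =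
      (∑ u, ∑ v, p u * p v * (ZG w M (d u + d v + (0, F)) * ZG w M (d u - d v))) / (y * z) := by
    rw [Finset.sum_div]
    refine Finset.sum_congr rfl fun u _ => ?_
    rw [Finset.sum_div]
    refine Finset.sum_congr rfl fun v _ => ?_
    rw [Px_eq, Px_eq, e0, add_zero, ← hz, ← hy]
    field_simp
  rw [eL, eR, div_pow, div_le_div_iff₀ (by positivity) (by positivity)]
  nlinarith [mul_le_mul_of_nonneg_right h (mul_pos zF z0).le]

/-! ### Cauchy-Schwarz on a set -/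

section csset

variable {Ω : Type*} [MeasurableSpace Ω] {μ : Measure Ω} [IsProbabilityMeasure μ] {f : Ω → ℝ}

lemma int_of_sq (hf : Measurable f) (hi : Integrable (fun x => f x ^ 2) μ) : Integrable f μ := by
  refine ((integrable_const (1 : ℝ)).add hi).mono' hf.aestronglyMeasurable
    (Filter.Eventually.of_forall fun x => ?_)
  simp only [Pi.add_apply, Real.norm_eq_abs]
  nlinarith [sq_nonneg (|f x| - 1), sq_abs (f x)]

theorem cs_set (hf : Measurable f) (hi : Integrable (fun x => f x ^ 2) μ) {A : Set Ω}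
    (hA : MeasurableSet A) : (∫ x in A, f x ∂μ) ^ 2 ≤ (∫ x, f x ^ 2 ∂μ) * μ.real A := by
  have h1 := int_of_sq hf hi
  refine H789.disc fun s t => ?_
  have h2 : 0 ≤ ∫ x, (s * f x + t * A.indicator 1 x) ^ 2 ∂μ :=
    integral_nonneg fun x => sq_nonneg _
  have e : ∀ x, (s * f x + t * A.indicator (1 : Ω → ℝ) x) ^ 2 =
      s ^ 2 * f x ^ 2 + 2 * (s * t) * A.indicator f x + t ^ 2 * A.indicator (1 : Ω → ℝ) x := by
    intro x
    by_cases hx : x ∈ A
    · rw [Set.indicator_of_mem hx, Set.indicator_of_mem hx, Pi.one_apply]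
      ring
    · rw [Set.indicator_of_notMem hx, Set.indicator_of_notMem hx]
      ring
  simp only [e] at h2
  have i1 : Integrable (fun x => s ^ 2 * f x ^ 2) μ := hi.const_mul _
  have i2 : Integrable (fun x => 2 * (s * t) * A.indicator f x) μ := (h1.indicator hA).const_mul _
  have i3 : Integrable (fun x => t ^ 2 * A.indicator (1 : Ω → ℝ) x) μ :=
    ((integrable_const (1 : ℝ)).indicator hA).const_mul _
  have i12 : Integrable (fun x => s ^ 2 * f x ^ 2 + 2 * (s * t) * A.indicator f x) μ := i1.add i2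
  rw [integral_add i12 i3, integral_add i1 i2, integral_const_mul, integral_const_mul,
    integral_const_mul, integral_indicator hA, integral_indicator_one hA] at h2
  linarith

/-- the same with the square integrable on `D` only -/
theorem cs_on (hf : Measurable f) {D : Set Ω} (hD : MeasurableSet D)
    (hi : IntegrableOn (fun x => f x ^ 2) D μ) {A : Set Ω} (hA : MeasurableSet A) :
    (∫ x in A ∩ D, f x ∂μ) ^ 2 ≤ (∫ x in D, f x ^ 2 ∂μ) * μ.real A := by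
  have e : ∀ x, (D.indicator f x) ^ 2 = D.indicator (fun x => f x ^ 2) x := by
    intro x
    by_cases hx : x ∈ D
    · rw [Set.indicator_of_mem hx, Set.indicator_of_mem hx]
    · rw [Set.indicator_of_notMem hx, Set.indicator_of_notMem hx]
      ring
  have h1 : Integrable (fun x => (D.indicator f x) ^ 2) μ := by
    simp only [e]
    exact (integrable_indicator_iff hD).2 hi
  have h2 := cs_set (hf.indicator hD) h1 hA
  simp only [e] at h2
  have e2 : ∫ x, D.indicator (fun x => f x ^ 2) x ∂μ = ∫ x in D, f x ^ 2 ∂μ :=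
    integral_indicator hD
  rw [setIntegral_indicator hD, e2] at h2
  exact h2

end csset

/-! ### under the law -/

lemma gw0 (hw : GWF w) : GW (w 0) where
  nn := hw.nn 0
  bdd := by obtain ⟨Wb, h⟩ := hw.bdd; exact ⟨Wb, h 0⟩
  pos := hw.pos 0
  ev h := by
    have := hw.ev 0 h
    rwa [neg_zero] at this
  grd := hw.grd 0
  dup := by
    have h := hw.dup.comp (AddMonoidHom.inl (V → ℤ) B)
    exact h

lemma cont_qf (A : Matrix V V ℝ) : Continuous fun F : V → ℝ => qf A F := by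
  unfold qf
  fun_prop

lemma cont_Gx (hw : GWF w) (hE : ∀ b x₀, EM (pin (w b) x₀)) (hM : MF M m)
    (X : B × (V → ℝ)) : Continuous (Gx w M m x₀ X) := by
  unfold Gx gP
  simp only
  have h1 : Continuous fun F : V → ℝ => Real.log (Zn (w X.1) M (X.2 + F)) :=
    (((gwf_bw hw hE X.1).contZn hM).comp (continuous_const.add continuous_id)).log
      fun F => (hw.Zn_pos hM _ _).ne'
  exact (h1.sub continuous_const).add ((cont_qf _).div_const 2)

lemma Rw_eq (hw : GWF w) (hM : MF M m) (F : V → ℝ) :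
    Rw w M m x₀ F = Gx w M m x₀ (0 : B × (V → ℝ)) F := by
  unfold Rw Gx
  rw [← gP_real (B := B) hw hM F]
  rfl

lemma cont_Rw (hw : GWF w) (hE : ∀ b x₀, EM (pin (w b) x₀)) (hM : MF M m) :
    Continuous (Rw w M m x₀) := by
  have e : Rw w M m x₀ = Gx w M m x₀ (0 : B × (V → ℝ)) := funext fun F => Rw_eq hw hM F
  rw [e]
  exact cont_Gx hw hE hM _

lemma cont_Px (hw : GWF w) (hE : ∀ b x₀, EM (pin (w b) x₀)) (hM : MF M m)
    (X : B × (V → ℝ)) : Continuous (Px w M X) :=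
  continuous_Psi (gwf_bw hw hE 0) (gwf_bw hw hE X.1) hM X.2

/-- mean of the functional -/
lemma Px_mean (hw : GWF w) (hE : ∀ b x₀, EM (pin (w b) x₀)) (hM : MF M m) (x₀ : V)
    (X : B × (V → ℝ)) : Integrable (Px w M X) (nuM (w 0) M x₀) ∧
      ∫ F, Px w M X F ∂(nuM (w 0) M x₀) = CX w x₀ X := by
  obtain ⟨_, _, h3, h4, _⟩ := Psi_fields (gw0 hw) (gwf_bw hw hE 0) (gwf_bw hw hE X.1) hM x₀ X.2
  exact ⟨h3, h4⟩

lemma prob0 (hw : GWF w) (hE : ∀ b x₀, EM (pin (w b) x₀)) (hM : MF M m) (x₀ : V) :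
    IsProbabilityMeasure (nuM (w 0) M x₀) := prob_nuM (gw0 hw) (gwf_bw hw hE 0) hM x₀

/-- the symmetric exponential -/
def ES (w : B → (V → ℤ) → ℝ) (M : Matrix V V ℝ) (m : ℝ) (x₀ : V) (X : B × (V → ℝ)) (s : ℝ)
    (F : V → ℝ) : ℝ := Real.exp (Gx w M m x₀ X (s • F) + Gx w M m x₀ X (-(s • F)))

/-- the good set `R(2 s F) ≤ r` -/
def Ag (w : B → (V → ℤ) → ℝ) (M : Matrix V V ℝ) (m : ℝ) (x₀ : V) (s r : ℝ) : Set (V → ℝ) :=
  {F | Rw w M m x₀ ((2 : ℝ) • (s • F)) ≤ r}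

lemma meas_Ag (hw : GWF w) (hE : ∀ b x₀, EM (pin (w b) x₀)) (hM : MF M m) (s r : ℝ) :
    MeasurableSet (Ag w M m x₀ s r) := by
  have h1 : Continuous fun F : V → ℝ => Rw w M m x₀ ((2 : ℝ) • (s • F)) :=
    (cont_Rw hw hE hM).comp (by fun_prop)
  exact measurableSet_le h1.measurable measurable_const

lemma cont_ES (hw : GWF w) (hE : ∀ b x₀, EM (pin (w b) x₀)) (hM : MF M m) (X : B × (V → ℝ))
    (s : ℝ) : Continuous (ES w M m x₀ X s) := by
  have h1 : Continuous fun F : V → ℝ => Gx w M m x₀ X (s • F) :=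
    (cont_Gx hw hE hM X).comp (by fun_prop)
  have h2 : Continuous fun F : V → ℝ => Gx w M m x₀ X (-(s • F)) :=
    (cont_Gx hw hE hM X).comp (by fun_prop)
  exact Real.continuous_exp.comp (h1.add h2)

lemma ES_pos (X : B × (V → ℝ)) (s : ℝ) (F : V → ℝ) : 0 < ES w M m x₀ X s F := Real.exp_pos _

lemma ES_sum_le (hw : GWF w) (hE : ∀ b x₀, EM (pin (w b) x₀)) (hM : MF M m) (x₀ : V) {p : ι → ℝ}
    (hp : ∀ u, 0 ≤ p u) (d : ι → B × (V → ℝ)) {s r : ℝ} {F : V → ℝ}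
    (hF : F ∈ Ag w M m x₀ s r) :
    ∑ u, p u * ES w M m x₀ (d u) s F ≤ Real.sqrt (SS w x₀ p d) * Real.exp (r / 2) := by
  refine (sm_pt' hw hE hM x₀ hp d (s • F)).trans ?_
  refine mul_le_mul_of_nonneg_left (Real.exp_le_exp.2 ?_) (Real.sqrt_nonneg _)
  have : Rw w M m x₀ ((2 : ℝ) • (s • F)) ≤ r := hF
  linarith

lemma ES_intOn (hw : GWF w) (hE : ∀ b x₀, EM (pin (w b) x₀)) (hM : MF M m) (x₀ : V) {p : ι → ℝ}
    (hp : ∀ u, 0 ≤ p u) (d : ι → B × (V → ℝ)) (s r : ℝ) (u : ι) :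
    IntegrableOn (fun F => p u * ES w M m x₀ (d u) s F) (Ag w M m x₀ s r) (nuM (w 0) M x₀) := by
  have := prob0 hw hE hM x₀
  refine Measure.integrableOn_of_bounded (M := Real.sqrt (SS w x₀ p d) * Real.exp (r / 2))
    (measure_ne_top _ _) ((cont_ES hw hE hM (d u) s).measurable.const_mul _).aestronglyMeasurable ?_
  refine (ae_restrict_iff' (meas_Ag hw hE hM s r)).2 (Filter.Eventually.of_forall fun F hF => ?_)
  rw [Real.norm_eq_abs, abs_of_nonneg (mul_nonneg (hp u) (ES_pos _ _ _).le)]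
  refine le_trans ?_ (ES_sum_le hw hE hM x₀ hp d hF)
  exact Finset.single_le_sum (f := fun u => p u * ES w M m x₀ (d u) s F)
    (fun v _ => mul_nonneg (hp v) (ES_pos _ _ _).le) (Finset.mem_univ u)

/-- **(SM) under the law**, average over the positions -/
theorem sm_nu (hw : GWF w) (hE : ∀ b x₀, EM (pin (w b) x₀)) (hM : MF M m) (x₀ : V) {p : ι → ℝ}
    (hp : ∀ u, 0 ≤ p u) (d : ι → B × (V → ℝ)) (s r : ℝ) :
    ∑ u, p u * ∫ F in Ag w M m x₀ s r, ES w M m x₀ (d u) s F ∂(nuM (w 0) M x₀) ≤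
      Real.sqrt (SS w x₀ p d) * Real.exp (r / 2) := by
  have := prob0 hw hE hM x₀
  have h1 : ∑ u, p u * ∫ F in Ag w M m x₀ s r, ES w M m x₀ (d u) s F ∂(nuM (w 0) M x₀) =
      ∫ F in Ag w M m x₀ s r, ∑ u, p u * ES w M m x₀ (d u) s F ∂(nuM (w 0) M x₀) := by
    rw [integral_finsetSum _ fun u _ => ES_intOn hw hE hM x₀ hp d s r u]
    exact Finset.sum_congr rfl fun u _ => (integral_const_mul _ _).symm
  rw [h1]
  have hK : 0 ≤ Real.sqrt (SS w x₀ p d) * Real.exp (r / 2) := by positivity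
  have h2 : ∫ F in Ag w M m x₀ s r, ∑ u, p u * ES w M m x₀ (d u) s F ∂(nuM (w 0) M x₀) ≤
      ∫ F in Ag w M m x₀ s r, Real.sqrt (SS w x₀ p d) * Real.exp (r / 2) ∂(nuM (w 0) M x₀) := by
    refine setIntegral_mono_on (integrable_finsetSum _ fun u _ =>
      ES_intOn hw hE hM x₀ hp d s r u) (integrable_const _) (meas_Ag hw hE hM s r) fun F hF => ?_
    exact ES_sum_le hw hE hM x₀ hp d hF
  refine h2.trans ?_
  rw [setIntegral_const, smul_eq_mul]
  exact (mul_le_mul_of_nonneg_right measureReal_le_one hK).trans (one_mul _).le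

/-- **(SM) under the law**, one position -/
theorem sm_one (hw : GWF w) (hE : ∀ b x₀, EM (pin (w b) x₀)) (hM : MF M m) (x₀ : V) {p : ι → ℝ}
    (hp : ∀ u, 0 ≤ p u) (hp1 : ∑ u, p u = 1) (d : ι → B × (V → ℝ)) (X : B × (V → ℝ)) (s r : ℝ)
    (hI : ∀ u, ∫ F in Ag w M m x₀ s r, ES w M m x₀ (d u) s F ∂(nuM (w 0) M x₀) =
      ∫ F in Ag w M m x₀ s r, ES w M m x₀ X s F ∂(nuM (w 0) M x₀)) :
    ∫ F in Ag w M m x₀ s r, ES w M m x₀ X s F ∂(nuM (w 0) M x₀) ≤
      Real.sqrt (SS w x₀ p d) * Real.exp (r / 2) := by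
  have h := sm_nu hw hE hM x₀ hp d s r
  simp only [hI] at h
  rwa [← Finset.sum_mul, hp1, one_mul] at h

/-- **(SM2) under the law** -/
theorem sm2_nu (hw : GWF w) (hE : ∀ b x₀, EM (pin (w b) x₀)) (hM : MF M m) (x₀ : V) {p : ι → ℝ}
    (hp : ∀ u, 0 ≤ p u) (d : ι → B × (V → ℝ)) :
    Integrable (fun F => (∑ u, p u * (Px w M (d u) F * Px w M (d u) 0)) ^ 2) (nuM (w 0) M x₀) ∧
    ∫ F, (∑ u, p u * (Px w M (d u) F * Px w M (d u) 0)) ^ 2 ∂(nuM (w 0) M x₀) ≤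
      SS w x₀ p d := by
  have hi : ∀ u v, Integrable (fun F => p u * p v * (Px w M (d u + d v) F *
      Px w M (d u - d v) 0)) (nuM (w 0) M x₀) := fun u v =>
    ((Px_mean hw hE hM x₀ (d u + d v)).1.mul_const _).const_mul _
  have hS : Integrable (fun F => ∑ u, ∑ v, p u * p v * (Px w M (d u + d v) F *
      Px w M (d u - d v) 0)) (nuM (w 0) M x₀) :=
    integrable_finsetSum _ fun u _ => integrable_finsetSum _ fun v _ => hi u v
  have hc : Continuous fun F => (∑ u, p u * (Px w M (d u) F * Px w M (d u) 0)) ^ 2 := by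
    refine Continuous.pow (continuous_finsetSum _ fun u _ => ?_) 2
    exact continuous_const.mul ((cont_Px hw hE hM (d u)).mul continuous_const)
  have h1 : Integrable (fun F => (∑ u, p u * (Px w M (d u) F * Px w M (d u) 0)) ^ 2)
      (nuM (w 0) M x₀) := by
    refine hS.mono' hc.measurable.aestronglyMeasurable (Filter.Eventually.of_forall fun F => ?_)
    rw [Real.norm_eq_abs, abs_of_nonneg (sq_nonneg _)]
    exact sm2_pt hw hM p d F
  refine ⟨h1, (integral_mono h1 hS fun F => sm2_pt hw hM p d F).trans ?_⟩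
  rw [integral_finsetSum _ fun u _ => integrable_finsetSum _ fun v _ => hi u v]
  unfold SS
  refine Finset.sum_le_sum fun u _ => ?_
  rw [integral_finsetSum _ fun v _ => hi u v]
  refine Finset.sum_le_sum fun v _ => ?_
  rw [integral_const_mul, integral_mul_const, (Px_mean hw hE hM x₀ (d u + d v)).2]
  refine mul_le_mul_of_nonneg_left ?_ (mul_nonneg (hp u) (hp v))
  exact mul_le_mul_of_nonneg_left (Px_le hw hE hM x₀ _) (CX_pos hw hE x₀ _).le

/-- **(SM2)**, average over the positions of the `Q` measure of one event -/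
theorem sm2_Q (hw : GWF w) (hE : ∀ b x₀, EM (pin (w b) x₀)) (hM : MF M m) (x₀ : V) {p : ι → ℝ}
    (hp : ∀ u, 0 ≤ p u) (d : ι → B × (V → ℝ)) {ψ : ℝ} (hψ : 0 < ψ)
    (hψ0 : ∀ u, ψ ≤ Px w M (d u) 0) {A : Set (V → ℝ)} (hA : MeasurableSet A) :
    ∑ u, p u * ∫ F in A, Px w M (d u) F ∂(nuM (w 0) M x₀) ≤
      Real.sqrt (SS w x₀ p d * (nuM (w 0) M x₀).real A) / ψ := by
  have := prob0 hw hE hM x₀
  obtain ⟨h1, h2⟩ := sm2_nu hw hE hM x₀ hp d
  set f : (V → ℝ) → ℝ := fun F => ∑ u, p u * (Px w M (d u) F * Px w M (d u) 0) with hf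
  have hfc : Continuous f := continuous_finsetSum _ fun u _ =>
    continuous_const.mul ((cont_Px hw hE hM (d u)).mul continuous_const)
  have h3 := cs_set hfc.measurable h1 hA
  have h4 : (∫ F in A, f F ∂(nuM (w 0) M x₀)) ^ 2 ≤
      SS w x₀ p d * (nuM (w 0) M x₀).real A :=
    h3.trans (mul_le_mul_of_nonneg_right h2 measureReal_nonneg)
  have h5 := Real.le_sqrt_of_sq_le h4
  rw [le_div_iff₀ hψ]
  refine le_trans ?_ h5
  have h6 : ∫ F in A, f F ∂(nuM (w 0) M x₀) =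
      ∑ u, p u * ∫ F in A, Px w M (d u) F * Px w M (d u) 0 ∂(nuM (w 0) M x₀) := by
    rw [hf, integral_finsetSum _ fun u _ =>
      (((Px_mean hw hE hM x₀ (d u)).1.mul_const _).const_mul _).integrableOn]
    exact Finset.sum_congr rfl fun u _ => integral_const_mul _ _
  rw [h6, Finset.sum_mul]
  refine Finset.sum_le_sum fun u _ => ?_
  rw [mul_assoc, integral_mul_const]
  refine mul_le_mul_of_nonneg_left ?_ (hp u)
  exact mul_le_mul_of_nonneg_left (hψ0 u) (integral_nonneg fun F => (Px_pos hw hM _ _).le)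

/-- **(SM2)**, one position, event with the same `Q` measure at all positions -/
theorem sm2_Q_one (hw : GWF w) (hE : ∀ b x₀, EM (pin (w b) x₀)) (hM : MF M m) (x₀ : V)
    {p : ι → ℝ} (hp : ∀ u, 0 ≤ p u) (hp1 : ∑ u, p u = 1) (d : ι → B × (V → ℝ)) {ψ : ℝ}
    (hψ : 0 < ψ) (hψ0 : ∀ u, ψ ≤ Px w M (d u) 0) {A : Set (V → ℝ)} (hA : MeasurableSet A)
    (X : B × (V → ℝ))
    (hI : ∀ u, ∫ F in A, Px w M (d u) F ∂(nuM (w 0) M x₀) =
      ∫ F in A, Px w M X F ∂(nuM (w 0) M x₀)) :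
    ∫ F in A, Px w M X F ∂(nuM (w 0) M x₀) ≤
      Real.sqrt (SS w x₀ p d * (nuM (w 0) M x₀).real A) / ψ := by
  have h := sm2_Q hw hE hM x₀ hp d hψ hψ0 hA
  simp only [hI] at h
  rwa [← Finset.sum_mul, hp1, one_mul] at h

/-- **(SM2)**, any event: one position out of the family -/
theorem sm2_Q_exists (hw : GWF w) (hE : ∀ b x₀, EM (pin (w b) x₀)) (hM : MF M m) (x₀ : V)
    {p : ι → ℝ} (hp : ∀ u, 0 ≤ p u) (hp1 : ∑ u, p u = 1) (d : ι → B × (V → ℝ)) {ψ : ℝ}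
    (hψ : 0 < ψ) (hψ0 : ∀ u, ψ ≤ Px w M (d u) 0) {A : Set (V → ℝ)} (hA : MeasurableSet A) :
    ∃ u, ∫ F in A, Px w M (d u) F ∂(nuM (w 0) M x₀) ≤
      Real.sqrt (SS w x₀ p d * (nuM (w 0) M x₀).real A) / ψ := by
  by_contra hcon
  push Not at hcon
  have h := sm2_Q hw hE hM x₀ hp d hψ hψ0 hA
  obtain ⟨u₀, hu₀⟩ : ∃ u, 0 < p u := by
    by_contra h0
    push Not at h0
    have : ∑ u, p u ≤ 0 := Finset.sum_nonpos fun u _ => h0 u
    linarith
  have h1 : (∑ u, p u) * (Real.sqrt (SS w x₀ p d * (nuM (w 0) M x₀).real A) / ψ) <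
      ∑ u, p u * ∫ F in A, Px w M (d u) F ∂(nuM (w 0) M x₀) := by
    rw [Finset.sum_mul]
    exact Finset.sum_lt_sum (fun u _ => mul_le_mul_of_nonneg_left (hcon u).le (hp u))
      ⟨u₀, Finset.mem_univ _, mul_lt_mul_of_pos_left (hcon u₀) hu₀⟩
  rw [hp1, one_mul] at h1
  linarith

end

end Vale.Agent.P159.H552.Sm
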