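import Vale.Agent.P159.H552.In5a
import Vale.Agent.P159.H363.Win
import Vale.Agent.P159.H612.Local5

/-!
P159 / module IN5, part b (helper552): the charge-one cell densities
`u_x(F) = (2πi)⁻¹ D_x W₁(F)` on cell fields `F : Λ → ℝ` in the letters `Ch`, `Loc` of helper363:
charge one, sup bound and Lipschitz bound in every real field (FKG), locality on the good set.
-/

namespace Vale.Agent.P159.H552

open MeasureTheory Set
open Vale.Agent.P159.TM.H104 (EM Lg Ex Cv Gr li T)
open Vale.Agent.P159.T1.H897 (Hol)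
open Vale.Agent.P159.H37
open Vale.Agent.P159.H145 (LM L0 cs OscZ Per cs_cs cs_zero)
open Vale.Agent.P159.H43 (dL dL0 el el1 dW dPh hasDerivAt_LM continuous_dL cs_line)
open Vale.Agent.P159.H896 (ph continuous_ph norm_ph ph_add ph_per)
open Vale.Agent.P159.H363 (Ch Loc mainf)

noncomputable section

variable {V : Type*} [Fintype V] {w : (V → ℤ) → ℝ}

/-- only the mean enters in `dW` for `q ≠ 0` -/
theorem dW_sub_le' {M : Matrix V V ℝ} (hE : EM (wM w M)) {q : ℤ} (hq : q ≠ 0) (F F' g : V → ℝ)
    {h : ℝ → ℝ} (hc : Continuous h)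
    (hh : ∀ c ∈ Icc (0 : ℝ) 1, |Ex (wM w M) (M.mulVec (cs F c)) (li (M.mulVec g))
      - Ex (wM w M) (M.mulVec (cs F' c)) (li (M.mulVec g))| ≤ h c) :
    ‖dW w M q F g - dW w M q F' g‖ ≤ ∫ c in (0 : ℝ)..1, h c := by
  have c1 := continuous_ph q
  have c2 : Continuous fun c : ℝ => dL w M (cs F c) g :=
    (continuous_dL hE g).comp (H145.continuous_cs F)
  have c3 : Continuous fun c : ℝ => dL w M (cs F' c) g :=
    (continuous_dL hE g).comp (H145.continuous_cs F')
  set k : ℝ := bf M F g - bf M F' g with hk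
  have hbf : ∀ (F : V → ℝ) (c : ℝ), bf M (cs F c) g = bf M F g + c * bf M 1 g := by
    intro F c
    rw [cs_eq, bf_add_left, bf_smul_left]
  have e : ∀ c : ℝ, dL w M (cs F c) g - dL w M (cs F' c) g
      = (Ex (wM w M) (M.mulVec (cs F c)) (li (M.mulVec g))
        - Ex (wM w M) (M.mulVec (cs F' c)) (li (M.mulVec g))) - k := by
    intro c
    unfold dL
    rw [hbf F c, hbf F' c, hk]
    ring
  have e2 : dW w M q F g - dW w M q F' g
      = ∫ c in (0 : ℝ)..1, ((Ex (wM w M) (M.mulVec (cs F c)) (li (M.mulVec g))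
        - Ex (wM w M) (M.mulVec (cs F' c)) (li (M.mulVec g)) : ℝ) : ℂ) * ph q c := by
    have e3 : ∀ c : ℝ, ((Ex (wM w M) (M.mulVec (cs F c)) (li (M.mulVec g))
        - Ex (wM w M) (M.mulVec (cs F' c)) (li (M.mulVec g)) : ℝ) : ℂ) * ph q c
        = ((dL w M (cs F c) g : ℂ) * ph q c - (dL w M (cs F' c) g : ℂ) * ph q c)
          + (k : ℂ) * ph q c := by
      intro c
      have := e c
      have h2 : (Ex (wM w M) (M.mulVec (cs F c)) (li (M.mulVec g))
        - Ex (wM w M) (M.mulVec (cs F' c)) (li (M.mulVec g)))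
        = (dL w M (cs F c) g - dL w M (cs F' c) g) + k := by linarith
      rw [h2]
      push_cast
      ring
    simp only [e3]
    rw [intervalIntegral.integral_add (Continuous.intervalIntegrable (by fun_prop) _ _)
      (Continuous.intervalIntegrable (by fun_prop) _ _), intervalIntegral.integral_const_mul,
      H43.int_ph q hq, mul_zero, add_zero,
      intervalIntegral.integral_sub (Continuous.intervalIntegrable (by fun_prop) _ _)
      (Continuous.intervalIntegrable (by fun_prop) _ _)]
    rfl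
  rw [e2]
  refine (intervalIntegral.norm_integral_le_integral_norm zero_le_one).trans ?_
  have cE : ∀ F : V → ℝ, Continuous fun c : ℝ =>
      Ex (wM w M) (M.mulVec (cs F c)) (li (M.mulVec g)) := by
    intro F
    have h1 := TM.H104.continuous_Ex hE (Gr.li (M.mulVec g))
    have h2 : Continuous fun F : V → ℝ => M.mulVec F := by fun_prop
    exact h1.comp (h2.comp (H145.continuous_cs F))
  refine intervalIntegral.integral_mono_on zero_le_one ?_ (hc.intervalIntegrable _ _)
    fun c hcc => ?_
  · have c4 := (cE F).sub (cE F')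
    exact Continuous.intervalIntegrable
      (((Complex.continuous_ofReal.comp c4).mul c1).norm) _ _
  · rw [norm_mul, norm_ph, mul_one, Complex.norm_real, Real.norm_eq_abs]
    exact hh c hcc

section scalar

variable [DecidableEq V] {t : ℝ}

lemma smul_one_mulVec (t : ℝ) (u : V → ℝ) : (t • (1 : Matrix V V ℝ)).mulVec u = t • u := by
  rw [Matrix.smul_mulVec, Matrix.one_mulVec]

lemma bf_smul_one (t : ℝ) (u v : V → ℝ) : bf (t • (1 : Matrix V V ℝ)) u v = t * ∑ x, u x * v x := by
  rw [bf_eq, smul_one_mulVec, dotProduct_smul, smul_eq_mul]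
  rfl

lemma tr_smul_one (t : ℝ) : (t • (1 : Matrix V V ℝ)).transpose = t • (1 : Matrix V V ℝ) := by
  rw [Matrix.transpose_smul, Matrix.transpose_one]

/-- **Lipschitz bound in the sup norm, EVERY real background** (scalar mass, FKG) -/
theorem dW_lip (hw : Per w) (ht : 0 < t) (hE : EM (wM w (t • (1 : Matrix V V ℝ))))
    (hol : Hol (wM w (t • (1 : Matrix V V ℝ))) (wM w (t • (1 : Matrix V V ℝ))))
    {g : V → ℝ} (hg : ∀ x, 0 ≤ g x) {q : ℤ} (hq : q ≠ 0) {F F' : V → ℝ} {K : ℝ}
    (hK : ∀ x, |F x - F' x| ≤ K) :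
    ‖dW w (t • (1 : Matrix V V ℝ)) q F g - dW w (t • (1 : Matrix V V ℝ)) q F' g‖
      ≤ 2 * K * (t * ∑ x, g x) := by
  set M : Matrix V V ℝ := t • (1 : Matrix V V ℝ) with hMd
  have hM : M.transpose = M := tr_smul_one t
  set b : ℝ := t * ∑ x, g x with hb
  have hbf1 : bf M 1 g = b := by
    rw [hMd, bf_smul_one, hb]
    simp
  -- `E c = E_{F'+c}(t g)`, monotone, `E - c b` periodic
  set E : ℝ → ℝ := fun c => Ex (wM w M) (M.mulVec (cs F' c)) (li (M.mulVec g)) with hEd
  have hgt : ∀ x, 0 ≤ M.mulVec g x := by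
    intro x
    rw [hMd, smul_one_mulVec]
    exact mul_nonneg ht.le (hg x)
  have hgm : Monotone (li (M.mulVec g)) := by
    intro h k hk
    unfold li
    refine Finset.sum_le_sum fun x _ => mul_le_mul_of_nonneg_left ?_ (hgt x)
    exact_mod_cast hk x
  have hmono : ∀ {G G' : V → ℝ}, (∀ x, G x ≤ G' x) →
      Ex (wM w M) (M.mulVec G) (li (M.mulVec g)) ≤ Ex (wM w M) (M.mulVec G') (li (M.mulVec g)) := by
    intro G G' hG
    refine H159.Ex_mono_source hE hol (Gr.li _) hgm ?_
    intro x
    rw [hMd, smul_one_mulVec, smul_one_mulVec]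
    exact mul_le_mul_of_nonneg_left (hG x) ht.le
  have hEeq : ∀ c, E c = dL w M (cs F' c) g + (bf M F' g + c * b) := by
    intro c
    have : bf M (cs F' c) g = bf M F' g + c * bf M 1 g := by
      rw [cs_eq, bf_add_left, bf_smul_left]
    rw [hEd]
    simp only
    unfold dL
    rw [this, hbf1]
    ring
  have hcD : Continuous fun c : ℝ => dL w M (cs F' c) g :=
    (continuous_dL hE g).comp (H145.continuous_cs F')
  have hcE : Continuous E := by
    have : E = fun c => dL w M (cs F' c) g + (bf M F' g + c * b) := funext hEeq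
    rw [this]
    fun_prop
  have hp := dL_periodic hw hM hE F' g
  have h1 := dW_sub_le' hE hq F F' g (h := fun c => E (c + K) - E (c - K))
    ((hcE.comp (by fun_prop)).sub (hcE.comp (by fun_prop))) (fun c _ => by
      have a1 : Ex (wM w M) (M.mulVec (cs F c)) (li (M.mulVec g)) ≤ E (c + K) := by
        refine hmono fun x => ?_
        have := (abs_le.1 (hK x)).2
        simp only [cs]
        linarith
      have a2 : E (c - K) ≤ Ex (wM w M) (M.mulVec (cs F c)) (li (M.mulVec g)) := by
        refine hmono fun x => ?_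
        have := (abs_le.1 (hK x)).1
        simp only [cs]
        linarith
      have hK0 : 0 ≤ K ∨ IsEmpty V := by
        rcases isEmpty_or_nonempty V with h | ⟨⟨x⟩⟩
        · exact Or.inr h
        · exact Or.inl ((abs_nonneg _).trans (hK x))
      have a3 : Ex (wM w M) (M.mulVec (cs F' c)) (li (M.mulVec g)) ≤ E (c + K) := by
        refine hmono fun x => ?_
        rcases hK0 with h | h
        · simp only [cs]
          linarith
        · exact (h.false x).elim
      have a4 : E (c - K) ≤ Ex (wM w M) (M.mulVec (cs F' c)) (li (M.mulVec g)) := by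
        refine hmono fun x => ?_
        rcases hK0 with h | h
        · simp only [cs]
          linarith
        · exact (h.false x).elim
      rw [abs_le]
      constructor <;> linarith)
  refine h1.trans (le_of_eq ?_)
  have i1 : ∀ a : ℝ, ∫ c in (0 : ℝ)..1, E (c + a)
      = (∫ c in (0 : ℝ)..1, dL w M (cs F' c) g) + (bf M F' g + (1 / 2 + a) * b) := by
    intro a
    simp only [hEeq]
    have cc : Continuous fun c : ℝ => dL w M (cs F' (c + a)) g := hcD.comp (by fun_prop)
    rw [intervalIntegral.integral_add (cc.intervalIntegrable _ _)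
      (Continuous.intervalIntegrable (by fun_prop) _ _)]
    congr 1
    · have h4 := intervalIntegral.integral_comp_add_right
        (fun s : ℝ => dL w M (cs F' s) g) a (a := 0) (b := 1)
      rw [h4, zero_add, add_comm 1 a, hp.intervalIntegral_add_eq a 0, zero_add]
    · have h5 : ∀ c : ℝ, bf M F' g + (c + a) * b = (bf M F' g + a * b) + b * c := fun c => by ring
      simp only [h5]
      rw [intervalIntegral.integral_add (Continuous.intervalIntegrable (by fun_prop) _ _)
        (Continuous.intervalIntegrable (by fun_prop) _ _), intervalIntegral.integral_const,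
        intervalIntegral.integral_const_mul, integral_id]
      simp only [sub_zero, smul_eq_mul, one_mul]
      ring
  have i2 : ∀ a : ℝ, IntervalIntegrable (fun c => E (c + a)) volume 0 1 := fun a =>
    (hcE.comp (by fun_prop : Continuous fun c : ℝ => c + a)).intervalIntegrable _ _
  have e1 : ∀ c, E (c - K) = E (c + -K) := fun c => by rw [sub_eq_add_neg]
  simp only [e1]
  rw [intervalIntegral.integral_sub (i2 K) (i2 (-K)), i1 K, i1 (-K)]
  ring

end scalar

/-! ### cell letters -/

section cells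

variable {Λ : Type*}

/-- lift of a cell field -/
def lft (cl : V → Λ) (F : Λ → ℝ) : V → ℝ := fun v => F (cl v)

/-- indicator of a cell -/
def idc [DecidableEq Λ] (cl : V → Λ) (x : Λ) : V → ℝ := fun v => if cl v = x then 1 else 0

/-- cut field: `F` on `B`, constant `F x` off `B` -/
def cutB [DecidableEq Λ] (B : Finset Λ) (x : Λ) (F : Λ → ℝ) : Λ → ℝ :=
  fun y => if y ∈ B then F y else F x

/-- oscillation of a cell field -/
def OscF (F : Λ → ℝ) (L : ℝ) : Prop := ∀ x y, |F x - F y| ≤ L

variable [DecidableEq Λ]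

/-- the charge-one cell density `(2πi)⁻¹ D_x W₁` -/
def uq (w : (V → ℤ) → ℝ) (M : Matrix V V ℝ) (cl : V → Λ) (x : Λ) (F : Λ → ℝ) : ℂ :=
  (2 * Real.pi * Complex.I)⁻¹ * dW w M 1 (lft cl F) (idc cl x)

omit [Fintype V] [DecidableEq Λ] in
lemma lft_add (cl : V → Λ) (F : Λ → ℝ) (c : ℝ) : lft cl (fun x => F x + c) = cs (lft cl F) c := rfl

lemma cutB_add (B : Finset Λ) (x : Λ) (F : Λ → ℝ) (c : ℝ) :
    cutB B x (fun y => F y + c) = fun y => cutB B x F y + c := by
  funext y
  unfold cutB
  split_ifs <;> rfl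

lemma cutB_of_mem {B : Finset Λ} {x y : Λ} (hy : y ∈ B) (F : Λ → ℝ) : cutB B x F y = F y := by
  unfold cutB
  rw [if_pos hy]

lemma cutB_congr {B : Finset Λ} {x : Λ} (hx : x ∈ B) {F F' : Λ → ℝ} (h : ∀ y ∈ B, F y = F' y) :
    cutB B x F = cutB B x F' := by
  funext y
  unfold cutB
  split_ifs with hy
  · exact h y hy
  · exact h x hx

lemma OscF.cut {F : Λ → ℝ} {L : ℝ} (h : OscF F L) (B : Finset Λ) (x : Λ) :
    OscF (cutB B x F) L := by
  intro y z
  unfold cutB
  split_ifs
  · exact h y z
  · exact h y x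
  · exact h x z
  · exact h x x

lemma measurable_cutB (B : Finset Λ) (x : Λ) : Measurable (cutB B x) := by
  refine measurable_pi_iff.2 fun y => ?_
  unfold cutB
  split_ifs
  · exact measurable_pi_apply y
  · exact measurable_pi_apply x

lemma continuous_cutB (B : Finset Λ) (x : Λ) : Continuous (cutB B x) := by
  refine continuous_pi fun y => ?_
  unfold cutB
  split_ifs
  · exact continuous_apply y
  · exact continuous_apply x

/-- charge one is kept by cutting -/
lemma ch_cut {ψ : (Λ → ℝ) → ℂ} (h : Ch ψ) (B : Finset Λ) (x : Λ) : Ch fun F => ψ (cutB B x F) := by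
  intro F c
  simp only
  rw [cutB_add]
  exact h _ c

/-- a cut functional is local -/
lemma loc_cut (ψ : (Λ → ℝ) → ℂ) {B : Finset Λ} {x : Λ} (hx : x ∈ B) :
    Loc B fun F => ψ (cutB B x F) := by
  intro F F' h
  simp only
  rw [cutB_congr hx h]

variable {M : Matrix V V ℝ} {cl : V → Λ}

theorem ch_uq (hw : Per w) (hM : M.transpose = M) (hE : EM (wM w M)) (x : Λ) :
    Ch (uq w M cl x) := by
  intro F c
  unfold uq
  rw [lft_add, dW_cs hw hM hE]
  have h1 : ph 1 (-c) = Complex.exp (((2 * Real.pi * c : ℝ) : ℂ) * Complex.I) := by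
    unfold ph
    congr 1
    push_cast
    ring
  rw [h1]
  ring

theorem continuous_uq (hE : EM (wM w M)) (x : Λ) : Continuous (uq w M cl x) := by
  unfold uq
  refine continuous_const.mul ((continuous_dW hE 1 (idc cl x)).comp ?_)
  refine continuous_pi fun v => ?_
  exact continuous_apply (cl v)

lemma norm_two_pi_I_inv : ‖(2 * Real.pi * Complex.I : ℂ)⁻¹‖ = (2 * Real.pi)⁻¹ := by
  rw [norm_inv, norm_mul, Complex.norm_I, mul_one]
  congr 1
  rw [norm_mul, Complex.norm_real, Real.norm_eq_abs, abs_of_pos Real.pi_pos]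
  simp

/-- **sup bound, every real field** -/
theorem norm_uq_le (hw : Per w) (hM : M.transpose = M) (hE : EM (wM w M))
    (hol : Hol (wM w M) (wM w M)) {x : Λ} (hg : ∀ v, 0 ≤ M.mulVec (idc cl x) v)
    (h1 : ∀ v, 0 ≤ M.mulVec 1 v) (F : Λ → ℝ) :
    ‖uq w M cl x F‖ ≤ (2 * Real.pi)⁻¹ * bf M 1 (idc cl x) := by
  unfold uq
  rw [norm_mul, norm_two_pi_I_inv]
  exact mul_le_mul_of_nonneg_left (norm_dW_le hw hM hE hol hg h1 one_ne_zero _) (by positivity)

end cells

end

end Vale.Agent.P159.H552
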