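import Vale.Agent.P159.H37.Gau

/-!
P159 / module GauHS (helper552): change of the Gaussian law when the covariance changes by a
small Hilbert-Schmidt amount ((V8) of the V list).
-/

namespace Vale.Agent.P159.H552

open MeasureTheory ProbabilityTheory Finset
open Vale.Agent.P159.H37 (gau)

noncomputable section

/-! ### densities of product measures with respect to the standard Gaussian measure -/

variable {I : Type*} [Fintype I]

lemma pi_dens (ν : I → Measure ℝ) [∀ i, SigmaFinite (ν i)] (d : I → ℝ → ℝ)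
    (hd0 : ∀ i x, 0 ≤ d i x) (hdi : ∀ i, Integrable (d i) (gaussianReal 0 1))
    (hν : ∀ i, ν i = (gaussianReal 0 1).withDensity fun x => ENNReal.ofReal (d i x)) :
    Measure.pi ν = (gau I).withDensity fun g => ENNReal.ofReal (∏ i, d i (g i)) := by
  apply Measure.pi_eq
  intro s hs
  have hbox : MeasurableSet (Set.univ.pi s) := MeasurableSet.univ_pi hs
  rw [withDensity_apply _ hbox]
  have hint : Integrable (fun J : I → ℝ => ∏ i, d i (J i)) (gau I) := by
    unfold gau
    exact Integrable.fintype_prod (f := fun i x => d i x) hdi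
  have hp0 : ∀ J : I → ℝ, 0 ≤ ∏ i, d i (J i) := fun J => Finset.prod_nonneg fun i _ => hd0 i _
  rw [← ofReal_integral_eq_lintegral_ofReal hint.integrableOn
    (Filter.Eventually.of_forall fun x => hp0 x)]
  rw [← integral_indicator hbox]
  have hind : (Set.univ.pi s).indicator (fun J : I → ℝ => ∏ i, d i (J i))
      = fun J => ∏ i, (s i).indicator (fun x => d i x) (J i) := by
    funext J
    by_cases hJ : J ∈ Set.univ.pi s
    · rw [Set.indicator_of_mem hJ]
      apply Finset.prod_congr rfl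
      intro i _
      rw [Set.indicator_of_mem (hJ i (Set.mem_univ i))]
    · rw [Set.indicator_of_notMem hJ]
      simp only [Set.mem_univ_pi, not_forall] at hJ
      obtain ⟨i, hi⟩ := hJ
      symm
      apply Finset.prod_eq_zero (Finset.mem_univ i)
      rw [Set.indicator_of_notMem hi]
  unfold gau
  rw [hind, integral_fintype_prod_eq_prod (𝕜 := ℝ)
    (fun (i : I) (x : ℝ) => (s i).indicator (fun x => d i x) x)
    (μ := fun _ => gaussianReal 0 1)]
  rw [ENNReal.ofReal_prod_of_nonneg]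
  · apply Finset.prod_congr rfl
    intro i _
    rw [hν i, withDensity_apply _ (hs i), integral_indicator (hs i)]
    rw [ofReal_integral_eq_lintegral_ofReal]
    · exact (hdi i).integrableOn
    · exact Filter.Eventually.of_forall fun x => hd0 i x
  · intro i _
    apply integral_nonneg
    intro x
    apply Set.indicator_nonneg
    intro x _
    exact hd0 i x

/-- density of `N(0,1+a)` with respect to `N(0,1)` -/
def dn (a x : ℝ) : ℝ := (√(1 + a))⁻¹ * Real.exp (a / (1 + a) * (x ^ 2 / 2))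

lemma dn_nonneg (a x : ℝ) : 0 ≤ dn a x := by unfold dn; positivity

lemma dn_meas (a : ℝ) : Measurable (dn a) := by unfold dn; fun_prop

lemma gauss_scale {a : ℝ} (ha : 0 < 1 + a) :
    (gaussianReal 0 1).map (fun x => √(1 + a) * x)
      = (gaussianReal 0 1).withDensity fun x => ENNReal.ofReal (dn a x) := by
  have hs : √(1 + a) ^ 2 = 1 + a := Real.sq_sqrt ha.le
  rw [gaussianReal_map_const_mul, mul_zero]
  have hv : (NNReal.mk (√(1 + a) ^ 2) (sq_nonneg _) * 1 : NNReal) ≠ 0 := by
    rw [mul_one]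
    intro h
    have := congrArg NNReal.toReal h
    simp only [NNReal.coe_mk, NNReal.coe_zero] at this
    rw [hs] at this
    exact ha.ne' this
  rw [gaussianReal_of_var_ne_zero _ hv, gaussianReal_of_var_ne_zero _ one_ne_zero,
    ← withDensity_mul _ (measurable_gaussianPDF 0 1) (by unfold dn; fun_prop)]
  congr 1
  funext x
  simp only [Pi.mul_apply, gaussianPDF_def]
  rw [← ENNReal.ofReal_mul (gaussianPDFReal_nonneg _ _ _)]
  congr 1
  simp only [gaussianPDFReal_def, mul_one, NNReal.coe_mk, NNReal.coe_one, sub_zero]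
  rw [hs]
  unfold dn
  have e1 : √(2 * Real.pi * (1 + a)) = √(2 * Real.pi) * √(1 + a) :=
    Real.sqrt_mul (by positivity) _
  rw [e1, mul_inv]
  have e2 : Real.exp (-x ^ 2 / (2 * (1 + a)))
      = Real.exp (-x ^ 2 / 2) * Real.exp (a / (1 + a) * (x ^ 2 / 2)) := by
    rw [← Real.exp_add]
    congr 1
    field_simp
    ring
  rw [e2]
  ring

lemma lint_dn {a : ℝ} (ha : 0 < 1 + a) :
    ∫⁻ x, ENNReal.ofReal (dn a x) ∂(gaussianReal 0 1) = 1 := by
  have h := congrArg (fun m : Measure ℝ => m Set.univ) (gauss_scale ha)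
  rw [Measure.map_apply (by fun_prop) MeasurableSet.univ, Set.preimage_univ, measure_univ,
    withDensity_apply _ MeasurableSet.univ, Measure.restrict_univ] at h
  exact h.symm

lemma integrable_dn {a : ℝ} (ha : 0 < 1 + a) : Integrable (dn a) (gaussianReal 0 1) := by
  refine ⟨(dn_meas a).aestronglyMeasurable, ?_⟩
  rw [hasFiniteIntegral_iff_ofReal (Filter.Eventually.of_forall (dn_nonneg a)), lint_dn ha]
  exact ENNReal.one_lt_top

lemma int_dn {a : ℝ} (ha : 0 < 1 + a) : ∫ x, dn a x ∂(gaussianReal 0 1) = 1 := by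
  rw [integral_eq_lintegral_of_nonneg_ae (Filter.Eventually.of_forall (dn_nonneg a))
    (dn_meas a).aestronglyMeasurable, lint_dn ha]
  rfl

/-- `E exp (c x² / 2) = (1 - c)^(-1/2)` -/
lemma integrable_exp_sq {c : ℝ} (hc : c < 1) :
    Integrable (fun x => Real.exp (c * (x ^ 2 / 2))) (gaussianReal 0 1) := by
  have h1 : (0 : ℝ) < 1 - c := by linarith
  have h2 : 1 + c / (1 - c) = (1 - c)⁻¹ := by field_simp; ring
  have h3 : 0 < 1 + c / (1 - c) := by rw [h2]; positivity
  have h := (integrable_dn h3).const_mul (√(1 + c / (1 - c)))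
  refine h.congr (Filter.Eventually.of_forall fun x => ?_)
  simp only [dn]
  rw [← mul_assoc, mul_inv_cancel₀ (Real.sqrt_pos.2 h3).ne', one_mul]
  congr 2
  rw [h2]
  field_simp

lemma int_exp_sq {c : ℝ} (hc : c < 1) :
    ∫ x, Real.exp (c * (x ^ 2 / 2)) ∂(gaussianReal 0 1) = (√(1 - c))⁻¹ := by
  have h1 : (0 : ℝ) < 1 - c := by linarith
  have h2 : 1 + c / (1 - c) = (1 - c)⁻¹ := by field_simp; ring
  have h3 : 0 < 1 + c / (1 - c) := by rw [h2]; positivity
  have h := int_dn h3
  have e : ∀ x, Real.exp (c * (x ^ 2 / 2)) = √(1 + c / (1 - c)) * dn (c / (1 - c)) x := by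
    intro x
    simp only [dn]
    rw [← mul_assoc, mul_inv_cancel₀ (Real.sqrt_pos.2 h3).ne', one_mul]
    congr 2
    rw [h2]
    field_simp
  simp only [e]
  rw [integral_const_mul, h, mul_one, h2, Real.sqrt_inv]

/-- density of the scaled Gaussian vector -/
def dnp (a : I → ℝ) (g : I → ℝ) : ℝ := ∏ i, dn (a i) (g i)

lemma dnp_nonneg (a : I → ℝ) (g : I → ℝ) : 0 ≤ dnp a g :=
  Finset.prod_nonneg fun i _ => dn_nonneg _ _

lemma dnp_meas (a : I → ℝ) : Measurable (dnp a) := by
  unfold dnp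
  exact Finset.measurable_prod _ fun i _ => (dn_meas (a i)).comp (measurable_pi_apply i)

lemma gau_map_scale {a : I → ℝ} (ha : ∀ i, 0 < 1 + a i) :
    (gau I).map (fun g i => √(1 + a i) * g i)
      = (gau I).withDensity fun g => ENNReal.ofReal (dnp a g) := by
  have h1 : (gau I).map (fun g i => √(1 + a i) * g i)
      = Measure.pi fun i => (gaussianReal 0 1).map (fun x => √(1 + a i) * x) := by
    unfold gau
    have : ∀ i, SigmaFinite ((gaussianReal 0 1).map (fun x => √(1 + a i) * x)) := by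
      intro i
      have : IsProbabilityMeasure ((gaussianReal 0 1).map (fun x => √(1 + a i) * x)) :=
        Measure.isProbabilityMeasure_map (by fun_prop)
      infer_instance
    exact Measure.pi_map_pi (μ := fun _ : I => gaussianReal 0 1)
      (f := fun i x => √(1 + a i) * x) (fun i => by fun_prop)
  rw [h1]
  have : ∀ i, SigmaFinite ((gaussianReal 0 1).map (fun x => √(1 + a i) * x)) := by
    intro i
    have : IsProbabilityMeasure ((gaussianReal 0 1).map (fun x => √(1 + a i) * x)) :=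
      Measure.isProbabilityMeasure_map (by fun_prop)
    infer_instance
  exact pi_dens _ (fun i => dn (a i)) (fun i x => dn_nonneg _ _) (fun i => integrable_dn (ha i))
    fun i => gauss_scale (ha i)

/-- change of variables: no integrability needed -/
lemma gau_scale {a : I → ℝ} (ha : ∀ i, 0 < 1 + a i) (f : (I → ℝ) → ℝ) :
    ∫ g, f (fun i => √(1 + a i) * g i) ∂(gau I) = ∫ g, dnp a g * f g ∂(gau I) := by
  have hne : ∀ i, √(1 + a i) ≠ 0 := fun i => (Real.sqrt_pos.2 (ha i)).ne'
  have hemb : MeasurableEmbedding (fun (g : I → ℝ) i => √(1 + a i) * g i) := by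
    let e : (I → ℝ) ≃ᵐ (I → ℝ) :=
      { toFun := fun g i => √(1 + a i) * g i
        invFun := fun g i => (√(1 + a i))⁻¹ * g i
        left_inv := fun g => by
          funext i
          simp only
          rw [← mul_assoc, inv_mul_cancel₀ (hne i), one_mul]
        right_inv := fun g => by
          funext i
          simp only
          rw [← mul_assoc, mul_inv_cancel₀ (hne i), one_mul]
        measurable_toFun := by
          simp only [Equiv.coe_fn_mk]
          fun_prop
        measurable_invFun := by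
          simp only [Equiv.symm_mk, Equiv.coe_fn_mk]
          fun_prop }
    exact e.measurableEmbedding
  rw [← hemb.integral_map (μ := gau I) f, gau_map_scale ha,
    integral_withDensity_eq_integral_toReal_smul ((dnp_meas a).ennreal_ofReal)
      (Filter.Eventually.of_forall fun x => ENNReal.ofReal_lt_top)]
  apply integral_congr_ae
  refine Filter.Eventually.of_forall fun J => ?_
  simp only [smul_eq_mul]
  rw [ENNReal.toReal_ofReal (dnp_nonneg a J)]

/-- `log (1+a) ≥ a - 2a²` -/
lemma log_low {a : ℝ} (ha : |a| ≤ 1 / 2) : a - 2 * a ^ 2 ≤ Real.log (1 + a) := by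
  have h := Real.abs_log_sub_add_sum_range_le (x := -a) (by rw [abs_neg]; linarith) 1
  simp only [Finset.sum_range_one, zero_add, pow_one, Nat.cast_zero, div_one,
    sub_neg_eq_add, abs_neg, one_add_one_eq_two] at h
  have h2 : |a| ^ 2 / (1 - |a|) ≤ 2 * a ^ 2 := by
    rw [sq_abs, div_le_iff₀ (by linarith)]
    nlinarith [sq_nonneg a, abs_nonneg a]
  have h3 := abs_le.1 (h.trans h2)
  linarith [h3.1]

/-- moments of the density: `E dn^(1+lam) ≤ exp (2 lam² a²)` -/
lemma int_dn_rpow {a lam : ℝ} (ha : |a| ≤ 1 / 2) (hl : 1 ≤ lam) (hla : lam * |a| ≤ 1 / 2) :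
    Integrable (fun x => dn a x ^ (1 + lam)) (gaussianReal 0 1) ∧
      ∫ x, dn a x ^ (1 + lam) ∂(gaussianReal 0 1) ≤ Real.exp (2 * lam ^ 2 * a ^ 2) := by
  have h1 := abs_le.1 ha
  have h2 : (0 : ℝ) < 1 + a := by linarith [h1.1]
  have hc : 1 - (1 + lam) * (a / (1 + a)) = (1 - lam * a) / (1 + a) := by
    field_simp
    ring
  have hla' : |lam * a| ≤ 1 / 2 := by
    rw [abs_mul, abs_of_nonneg (by linarith : (0 : ℝ) ≤ lam)]; exact hla
  have h3 : (0 : ℝ) < 1 - lam * a := by linarith [(abs_le.1 hla').2]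
  have hc1 : (1 + lam) * (a / (1 + a)) < 1 := by
    have : 0 < 1 - (1 + lam) * (a / (1 + a)) := by rw [hc]; positivity
    linarith
  have e : ∀ x, dn a x ^ (1 + lam)
      = (√(1 + a))⁻¹ ^ (1 + lam) * Real.exp ((1 + lam) * (a / (1 + a)) * (x ^ 2 / 2)) := by
    intro x
    unfold dn
    rw [Real.mul_rpow (by positivity) (Real.exp_pos _).le, ← Real.exp_mul]
    congr 2
    ring
  simp only [e]
  refine ⟨(integrable_exp_sq hc1).const_mul _, ?_⟩
  rw [integral_const_mul, int_exp_sq hc1, hc]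
  have hs : 0 < √(1 + a) := Real.sqrt_pos.2 h2
  have e1 : (√(1 + a))⁻¹ ^ (1 + lam) = Real.exp (-((1 + lam) / 2) * Real.log (1 + a)) := by
    rw [Real.rpow_def_of_pos (by positivity), Real.log_inv, Real.log_sqrt h2.le]
    congr 1
    ring
  have e2 : (√((1 - lam * a) / (1 + a)))⁻¹
      = Real.exp (1 / 2 * Real.log (1 + a) - 1 / 2 * Real.log (1 - lam * a)) := by
    rw [← Real.exp_log (show 0 < (√((1 - lam * a) / (1 + a)))⁻¹ by positivity), Real.log_inv,
      Real.log_sqrt (by positivity), Real.log_div h3.ne' h2.ne']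
    congr 1
    ring
  rw [e1, e2, ← Real.exp_add]
  refine Real.exp_le_exp.2 ?_
  have l1 := log_low ha
  have l2 := log_low (a := -(lam * a)) (by rw [abs_neg]; exact hla')
  have e3 : 1 + -(lam * a) = 1 - lam * a := by ring
  rw [e3] at l2
  have h5 : -((1 + lam) / 2) * Real.log (1 + a)
      + (1 / 2 * Real.log (1 + a) - 1 / 2 * Real.log (1 - lam * a))
      = -(lam / 2) * Real.log (1 + a) - 1 / 2 * Real.log (1 - lam * a) := by ring
  rw [h5]
  have h6 : -(lam / 2) * Real.log (1 + a) ≤ -(lam / 2) * (a - 2 * a ^ 2) := by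
    nlinarith
  nlinarith [sq_nonneg a, mul_nonneg (by linarith : (0 : ℝ) ≤ lam) (sq_nonneg a),
    mul_nonneg (mul_nonneg (by linarith : (0 : ℝ) ≤ lam) (by linarith : (0 : ℝ) ≤ lam - 1))
      (sq_nonneg a)]

lemma int_dnp_rpow {a : I → ℝ} {lam : ℝ} (ha : ∀ i, |a i| ≤ 1 / 2) (hl : 1 ≤ lam)
    (hla : ∀ i, lam * |a i| ≤ 1 / 2) :
    Integrable (fun g => dnp a g ^ (1 + lam)) (gau I) ∧
      ∫ g, dnp a g ^ (1 + lam) ∂(gau I) ≤ Real.exp (2 * lam ^ 2 * ∑ i, a i ^ 2) := by
  have e : ∀ g : I → ℝ, dnp a g ^ (1 + lam) = ∏ i, dn (a i) (g i) ^ (1 + lam) := by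
    intro g
    unfold dnp
    exact (Real.finsetProd_rpow _ _ (fun i _ => dn_nonneg _ _) _).symm
  simp only [e]
  unfold gau
  refine ⟨Integrable.fintype_prod (f := fun i x => dn (a i) x ^ (1 + lam)) fun i =>
    (int_dn_rpow (ha i) hl (hla i)).1, ?_⟩
  rw [integral_fintype_prod_eq_prod (𝕜 := ℝ) (fun (i : I) (x : ℝ) => dn (a i) x ^ (1 + lam))
    (μ := fun _ => gaussianReal 0 1), Finset.mul_sum, Real.exp_sum]
  refine Finset.prod_le_prod (fun i _ => integral_nonneg fun x => Real.rpow_nonneg (dn_nonneg _ _) _)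
    fun i _ => (int_dn_rpow (ha i) hl (hla i)).2

lemma integrable_dnp {a : I → ℝ} (ha : ∀ i, 0 < 1 + a i) : Integrable (dnp a) (gau I) := by
  unfold gau dnp
  exact Integrable.fintype_prod (f := fun i x => dn (a i) x) fun i => integrable_dn (ha i)

lemma int_dnp {a : I → ℝ} (ha : ∀ i, 0 < 1 + a i) : ∫ g, dnp a g ∂(gau I) = 1 := by
  have h := gau_scale ha fun _ => 1
  simp only [mul_one] at h
  rw [← h]
  simp

/-! ### (a) comparison of the laws, diagonal form -/

/-- (V8), diagonal form: `E f(D g) ≤ κ E f(g) + 2 B κ^(-1/(2η))` -/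
theorem diag_le {a : I → ℝ} {η κ B : ℝ} (hη : 0 < η) (hη2 : η ≤ 1 / 2) (hκ : 1 ≤ κ)
    (ha : ∑ i, a i ^ 2 ≤ η ^ 2) {f : (I → ℝ) → ℝ} (hf : Measurable f) (hf0 : ∀ g, 0 ≤ f g)
    (hfB : ∀ g, f g ≤ B) :
    ∫ g, f (fun i => √(1 + a i) * g i) ∂(gau I)
      ≤ κ * ∫ g, f g ∂(gau I) + 2 * B * κ ^ (-(1 / (2 * η))) := by
  have hai : ∀ i, |a i| ≤ η := fun i => by
    have h1 : a i ^ 2 ≤ η ^ 2 :=
      (Finset.single_le_sum (f := fun i => a i ^ 2) (fun j _ => sq_nonneg _)
        (Finset.mem_univ i)).trans ha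
    exact abs_le_of_sq_le_sq h1 hη.le
  have ha1 : ∀ i, 0 < 1 + a i := fun i => by
    have := (abs_le.1 (hai i)).1
    linarith
  set lam : ℝ := 1 / (2 * η) with hlam
  have hl1 : 1 ≤ lam := by
    rw [hlam, le_div_iff₀ (by positivity)]
    linarith
  have hle : lam * η = 1 / 2 := by rw [hlam]; field_simp
  obtain ⟨hi, hm⟩ := int_dnp_rpow (a := a) (lam := lam) (fun i => (hai i).trans hη2) hl1
    (fun i => by
      have := mul_le_mul_of_nonneg_left (hai i) (by linarith : (0 : ℝ) ≤ lam)
      linarith)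
  have hκ0 : 0 < κ := by linarith
  have hB : 0 ≤ B := (hf0 0).trans (hfB 0)
  rw [gau_scale ha1]
  have hfi : Integrable f (gau I) :=
    Integrable.of_bound hf.aestronglyMeasurable B
      (Filter.Eventually.of_forall fun g => by
        rw [Real.norm_eq_abs, abs_of_nonneg (hf0 g)]; exact hfB g)
  have hpt : ∀ g : I → ℝ, dnp a g * f g ≤ κ * f g + B * κ ^ (-lam) * dnp a g ^ (1 + lam) := by
    intro g
    have hd := dnp_nonneg a g
    rcases le_or_gt (dnp a g) κ with h | h
    · have h1 : dnp a g * f g ≤ κ * f g := mul_le_mul_of_nonneg_right h (hf0 g)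
      have h2 : 0 ≤ B * κ ^ (-lam) * dnp a g ^ (1 + lam) := by positivity
      linarith
    · have h1 : 0 ≤ κ * f g := mul_nonneg hκ0.le (hf0 g)
      have h2 : dnp a g * f g ≤ dnp a g * B := mul_le_mul_of_nonneg_left (hfB g) hd
      have h3 : (1 : ℝ) ≤ κ ^ (-lam) * dnp a g ^ lam := by
        rw [Real.rpow_neg hκ0.le, ← div_eq_inv_mul, one_le_div (by positivity)]
        exact Real.rpow_le_rpow hκ0.le h.le (by linarith)
      have h4 : dnp a g ^ (1 + lam) = dnp a g * dnp a g ^ lam := by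
        rw [Real.rpow_add (by linarith), Real.rpow_one]
      rw [h4]
      have h5 : dnp a g * B ≤ dnp a g * B * (κ ^ (-lam) * dnp a g ^ lam) :=
        le_mul_of_one_le_right (by positivity) h3
      nlinarith
  have hcm : Integrable (fun g => dnp a g * f g) (gau I) :=
    ((integrable_dnp ha1).mul_const B).mono'
      ((dnp_meas a).mul hf).aestronglyMeasurable
      (Filter.Eventually.of_forall fun g => by
        rw [Real.norm_eq_abs, abs_of_nonneg (mul_nonneg (dnp_nonneg a g) (hf0 g))]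
        exact mul_le_mul_of_nonneg_left (hfB g) (dnp_nonneg a g))
  have h := integral_mono hcm ((hfi.const_mul κ).add (hi.const_mul (B * κ ^ (-lam)))) hpt
  refine h.trans ?_
  simp only [Pi.add_apply]
  rw [integral_add (hfi.const_mul κ) (hi.const_mul _), integral_const_mul, integral_const_mul]
  have h6 : ∫ g, dnp a g ^ (1 + lam) ∂(gau I) ≤ 2 := by
    refine hm.trans ?_
    have h7 : 2 * lam ^ 2 * ∑ i, a i ^ 2 ≤ 1 / 2 := by
      have : 2 * lam ^ 2 * ∑ i, a i ^ 2 ≤ 2 * lam ^ 2 * η ^ 2 :=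
        mul_le_mul_of_nonneg_left ha (by positivity)
      nlinarith
    refine (Real.exp_le_exp.2 h7).trans ?_
    have h8 : Real.exp (1 / 2) ^ 2 ≤ 2 ^ 2 := by
      rw [← Real.exp_nat_mul]
      norm_num
      have := Real.exp_one_lt_d9
      linarith
    exact le_of_sq_le_sq h8 (by norm_num)
  have h9 : B * κ ^ (-lam) * ∫ g, dnp a g ^ (1 + lam) ∂(gau I) ≤ B * κ ^ (-lam) * 2 :=
    mul_le_mul_of_nonneg_left h6 (by positivity)
  linarith

/-- Cauchy-Schwarz -/
lemma int_cs {Ω : Type*} [MeasurableSpace Ω] {m : Measure Ω} {u v : Ω → ℝ}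
    (hu : Integrable (fun x => u x ^ 2) m) (hv : Integrable (fun x => v x ^ 2) m)
    (huv : Integrable (fun x => u x * v x) m) :
    (∫ x, u x * v x ∂m) ^ 2 ≤ (∫ x, u x ^ 2 ∂m) * ∫ x, v x ^ 2 ∂m := by
  have h : ∀ s : ℝ, 0 ≤ (∫ x, u x ^ 2 ∂m) * (s * s) + 2 * (∫ x, u x * v x ∂m) * s
      + ∫ x, v x ^ 2 ∂m := by
    intro s
    have h1 : 0 ≤ ∫ x, (s * u x + v x) ^ 2 ∂m := integral_nonneg fun x => sq_nonneg _
    have e : ∀ x, (s * u x + v x) ^ 2 = (s * s) * u x ^ 2 + 2 * s * (u x * v x) + v x ^ 2 :=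
      fun x => by ring
    simp only [e] at h1
    have i1 : Integrable (fun x => s * s * u x ^ 2 + 2 * s * (u x * v x)) m :=
      (hu.const_mul _).add (huv.const_mul _)
    rw [integral_add i1 hv,
      integral_add (hu.const_mul _) (huv.const_mul _), integral_const_mul,
      integral_const_mul] at h1
    linarith
  have h2 := discrim_le_zero h
  unfold discrim at h2
  nlinarith

/-- `L²` form: `|E f(D g) - E f(g)| ≤ 2 η (E f²)^(1/2)` -/
theorem diag_l2 {a : I → ℝ} {η : ℝ} (hη : 0 ≤ η) (hη2 : η ≤ 1 / 2)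
    (ha : ∑ i, a i ^ 2 ≤ η ^ 2) {f : (I → ℝ) → ℝ} (hf : Measurable f)
    (hf2 : Integrable (fun g => f g ^ 2) (gau I)) :
    Integrable (fun g => f fun i => √(1 + a i) * g i) (gau I) ∧
    (∫ g, f (fun i => √(1 + a i) * g i) ∂(gau I) - ∫ g, f g ∂(gau I)) ^ 2
      ≤ 4 * η ^ 2 * ∫ g, f g ^ 2 ∂(gau I) := by
  have hai : ∀ i, |a i| ≤ η := fun i => by
    have h1 : a i ^ 2 ≤ η ^ 2 :=
      (Finset.single_le_sum (f := fun i => a i ^ 2) (fun j _ => sq_nonneg _)
        (Finset.mem_univ i)).trans ha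
    exact abs_le_of_sq_le_sq h1 hη
  have ha1 : ∀ i, 0 < 1 + a i := fun i => by
    have := (abs_le.1 (hai i)).1
    linarith
  obtain ⟨hi, hm⟩ := int_dnp_rpow (a := a) (lam := 1) (fun i => (hai i).trans hη2) le_rfl
    (fun i => by linarith [hai i])
  have e2 : ∀ g : I → ℝ, dnp a g ^ ((1 : ℝ) + 1) = dnp a g ^ 2 := fun g => by
    rw [one_add_one_eq_two, Real.rpow_two]
  simp only [e2] at hi hm
  have hd1 := integrable_dnp ha1
  -- `(ρ - 1)²`
  have hr2 : Integrable (fun g => (dnp a g - 1) ^ 2) (gau I) := by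
    have := (hi.sub (hd1.const_mul 2)).add (integrable_const (1 : ℝ))
    refine this.congr (Filter.Eventually.of_forall fun g => ?_)
    simp only [Pi.add_apply, Pi.sub_apply]
    ring
  have hr2v : ∫ g, (dnp a g - 1) ^ 2 ∂(gau I) ≤ 4 * η ^ 2 := by
    have e : ∀ g : I → ℝ, (dnp a g - 1) ^ 2 = dnp a g ^ 2 - 2 * dnp a g + 1 := fun g => by ring
    simp only [e]
    have i1 : Integrable (fun g => dnp a g ^ 2 - 2 * dnp a g) (gau I) :=
      hi.sub (hd1.const_mul 2)
    rw [integral_add i1 (integrable_const _),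
      integral_sub hi (hd1.const_mul 2), integral_const_mul, int_dnp ha1]
    simp only [integral_const, probReal_univ, smul_eq_mul, mul_one]
    have h1 : 2 * (1 : ℝ) ^ 2 * ∑ i, a i ^ 2 ≤ 2 * η ^ 2 := by linarith
    have h2 : Real.exp (2 * η ^ 2) ≤ 1 + 4 * η ^ 2 := by
      have h3 : (2 * η ^ 2) ≤ 1 := by nlinarith
      have h4 := Real.abs_exp_sub_one_le (x := 2 * η ^ 2) (by
        rw [abs_of_nonneg (by positivity)]; exact h3)
      rw [abs_of_nonneg (by positivity : (0 : ℝ) ≤ 2 * η ^ 2)] at h4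
      linarith [le_abs_self (Real.exp (2 * η ^ 2) - 1)]
    have h5 := hm.trans ((Real.exp_le_exp.2 h1).trans h2)
    linarith
  have hprod : Integrable (fun g => dnp a g * f g) (gau I) := by
    refine (hi.add hf2).mono' ((dnp_meas a).mul hf).aestronglyMeasurable
      (Filter.Eventually.of_forall fun g => ?_)
    rw [Real.norm_eq_abs, abs_mul, Pi.add_apply]
    nlinarith [sq_nonneg (|dnp a g| - |f g|), sq_abs (dnp a g), sq_abs (f g)]
  have hf1 : Integrable f (gau I) := by
    refine ((integrable_const (1 : ℝ)).add hf2).mono' hf.aestronglyMeasurable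
      (Filter.Eventually.of_forall fun g => ?_)
    rw [Real.norm_eq_abs, Pi.add_apply]
    nlinarith [sq_nonneg (1 - |f g|), sq_abs (f g)]
  refine ⟨?_, ?_⟩
  · have hm1 : (gau I).map (fun g i => √(1 + a i) * g i)
        = (gau I).withDensity fun g => ENNReal.ofReal (dnp a g) := gau_map_scale ha1
    have hmeas : Measurable fun (g : I → ℝ) i => √(1 + a i) * g i := by fun_prop
    have : Integrable f ((gau I).map fun g i => √(1 + a i) * g i) := by
      rw [hm1]
      rw [integrable_withDensity_iff_integrable_smul' ((dnp_meas a).ennreal_ofReal)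
        (Filter.Eventually.of_forall fun x => ENNReal.ofReal_lt_top)]
      refine hprod.congr (Filter.Eventually.of_forall fun g => ?_)
      simp only [smul_eq_mul]
      rw [ENNReal.toReal_ofReal (dnp_nonneg a g)]
    exact this.comp_measurable hmeas
  · have e : ∫ g, f (fun i => √(1 + a i) * g i) ∂(gau I) - ∫ g, f g ∂(gau I)
        = ∫ g, (dnp a g - 1) * f g ∂(gau I) := by
      rw [gau_scale ha1, ← integral_sub hprod hf1]
      refine integral_congr_ae (Filter.Eventually.of_forall fun g => ?_)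
      simp only
      ring
    have hpr : Integrable (fun g => (dnp a g - 1) * f g) (gau I) := by
      refine (hprod.sub hf1).congr (Filter.Eventually.of_forall fun g => ?_)
      simp only [Pi.sub_apply]
      ring
    rw [e]
    refine (int_cs hr2 hf2 hpr).trans ?_
    exact mul_le_mul_of_nonneg_right hr2v (integral_nonneg fun g => sq_nonneg _)

end

end Vale.Agent.P159.H552
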