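import Vale.Agent.P159.H801.Wode3

/-!
P159 / module DX7 (helper552), part a: the scalar assembly of (S).

`E n N r` = `-log Ψ` at level `n` (`ξ = 2^n`) on the torus of side `N`, distance `r`;
`L r = log C(r)`; `a n` = coefficient of the Hessian at level `n`, `A i = 1/S_i`;
the window at level `n` ends at level `n + w n`, its distances are `2^(n + k n) ≤ r ≤ 2^(n' + k n')`.
(STAT) `E n N' r - E n N (2^(n + k n)) ≈ (a n / 2π) log (r / 2^(n + k n))`,
(DYN) `E n N r - E n' N r ≈ 0`, errors `∑_{i ∈ [n, n')} f i`.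
-/

open Filter Topology Finset

namespace Vale.Agent.P159.H552.Dx7

open Vale.Agent.P159.H801 (itw itw_zero itw_succ itw_ge itw_tend)

noncomputable section

/-- end of the window -/
def nx (w : ℕ → ℕ) (n : ℕ) : ℕ := n + w n

/-- exponent of the base distance at level `n` -/
def kk (k : ℕ → ℕ) (n : ℕ) : ℕ := n + k n

/-- error of the window -/
def wF (f : ℕ → ℝ) (w : ℕ → ℕ) (n : ℕ) : ℝ := ∑ i ∈ Ico n (nx w n), f i

/-- `log 2 / 2π` -/
def lp : ℝ := Real.log 2 / (2 * Real.pi)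

lemma lp_pos : 0 < lp := by
  have h1 : 0 < Real.log 2 := Real.log_pos (by norm_num)
  have h2 := Real.pi_pos
  unfold lp
  positivity

/-- common data of both halves of (S) -/
structure SB (a A f : ℕ → ℝ) (k w : ℕ → ℕ) (G : ℕ → ℕ → Prop) (n0 : ℕ) : Prop where
  w1 : ∀ n, n0 ≤ n → 1 ≤ w n
  k1 : ∀ n, n0 ≤ n → kk k n ≤ kk k (nx w n)
  f0 : ∀ n, 0 ≤ f n
  Gm : ∀ n m N : ℕ, n0 ≤ n → n ≤ m → G m N → G n N
  win : ∀ n, n0 ≤ n → lp * |∑ i ∈ Ico n (nx w n), (a n - A i)| +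
    |a (nx w n) - a n| * (k (nx w n) * lp) ≤ wF f w n

/-- (S_low): upper bounds of `E` -/
structure SL (E : ℕ → ℕ → ℕ → ℝ) (a A f : ℕ → ℝ) (k w : ℕ → ℕ) (G : ℕ → ℕ → Prop) (n0 : ℕ) : Prop
    extends SB a A f k w G n0 where
  stat : ∀ n N N' r : ℕ, n0 ≤ n → G n N → G n N' → 2 ^ kk k n ≤ r → r ≤ 2 ^ kk k (nx w n) →
    E n N' r - E n N (2 ^ kk k n) ≤
      a n * (1 / (2 * Real.pi)) * (Real.log r - kk k n * Real.log 2) + wF f w n
  step : ∀ n N : ℕ, n0 ≤ n → G (nx w n) N →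
    E (nx w n) N (2 ^ kk k (nx w n)) - E n N (2 ^ kk k (nx w n)) ≤ 0

/-- (S_up): lower bounds of `E` -/
structure SU (E : ℕ → ℕ → ℕ → ℝ) (a A f : ℕ → ℝ) (k w : ℕ → ℕ) (G : ℕ → ℕ → Prop) (n0 : ℕ) : Prop
    extends SB a A f k w G n0 where
  stat : ∀ n N N' r : ℕ, n0 ≤ n → G n N → G n N' → 2 ^ kk k n ≤ r → r ≤ 2 ^ kk k (nx w n) →
    a n * (1 / (2 * Real.pi)) * (Real.log r - kk k n * Real.log 2) - wF f w n ≤
      E n N' r - E n N (2 ^ kk k n)
  dyn : ∀ n N r : ℕ, n0 ≤ n → G n N → 1 ≤ r → r ≤ 2 ^ kk k (nx w n) →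
    E n N r - E (nx w n) N r ≤ wF f w n

variable {E : ℕ → ℕ → ℕ → ℝ} {a A f L t : ℕ → ℝ} {k w Nc : ℕ → ℕ} {G : ℕ → ℕ → Prop} {n0 : ℕ}

/-- the renormalised energy `b n` -/
def bb (E : ℕ → ℕ → ℕ → ℝ) (a A : ℕ → ℝ) (k Nc : ℕ → ℕ) (n : ℕ) : ℝ :=
  E n (Nc n) (2 ^ kk k n) - a n * (k n * lp) - lp * ∑ i ∈ range n, A i

lemma wF_nonneg (hf : ∀ n, 0 ≤ f n) (n : ℕ) : 0 ≤ wF f w n := sum_nonneg fun i _ => hf i

lemma le_nx (n : ℕ) : n ≤ nx w n := Nat.le_add_right _ _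

lemma log_kk (m : ℕ) : Real.log ((2 ^ m : ℕ) : ℝ) = m * Real.log 2 := by
  push_cast
  rw [Real.log_pow]

lemma sum_A (n m : ℕ) (h : n ≤ m) (α : ℝ) :
    lp * ∑ i ∈ range m, A i = lp * ∑ i ∈ range n, A i + α * ((m - n : ℝ) * lp) -
      lp * ∑ i ∈ Ico n m, (α - A i) := by
  have h1 := sum_range_add_sum_Ico A h
  rw [← h1, sum_sub_distrib, sum_const, Nat.card_Ico, nsmul_eq_mul, Nat.cast_sub h]
  ring

lemma SL.b_step (h : SL E a A f k w G n0) (hG : ∀ n, n0 ≤ n → G n (Nc n)) {n : ℕ} (hn : n0 ≤ n) :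
    bb E a A k Nc (nx w n) ≤ bb E a A k Nc n + 2 * wF f w n := by
  have h1 := h.step n (Nc (nx w n)) hn (hG _ (hn.trans (le_nx n)))
  have h2 := h.stat n (Nc n) (Nc (nx w n)) (2 ^ kk k (nx w n)) hn (hG n hn)
    (h.Gm n _ _ hn (le_nx n) (hG _ (hn.trans (le_nx n))))
    (Nat.pow_le_pow_right (by norm_num) (h.k1 n hn)) le_rfl
  rw [log_kk] at h2
  have h3 := h.win n hn
  have h4 := sum_A (A := A) n (nx w n) (le_nx n) (a n)
  have h5 : lp * ∑ i ∈ Ico n (nx w n), (a n - A i) ≤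
      lp * |∑ i ∈ Ico n (nx w n), (a n - A i)| :=
    mul_le_mul_of_nonneg_left (le_abs_self _) lp_pos.le
  have h6 : -(|a (nx w n) - a n| * (k (nx w n) * lp)) ≤
      (a (nx w n) - a n) * (k (nx w n) * lp) := by
    rw [← neg_mul]
    exact mul_le_mul_of_nonneg_right (neg_abs_le _)
      (mul_nonneg (Nat.cast_nonneg _) lp_pos.le)
  have h7 : a n * (1 / (2 * Real.pi)) * ((kk k (nx w n) : ℕ) * Real.log 2 -
      (kk k n : ℕ) * Real.log 2) = a n * ((nx w n - n : ℝ) * lp) + a n * (k (nx w n) * lp) -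
      a n * (k n * lp) := by
    unfold kk lp
    push_cast
    ring
  rw [h7] at h2
  unfold bb
  rw [h4]
  linarith

lemma SU.b_step (h : SU E a A f k w G n0) (hG : ∀ n, n0 ≤ n → G n (Nc n)) {n : ℕ} (hn : n0 ≤ n) :
    bb E a A k Nc n - 3 * wF f w n ≤ bb E a A k Nc (nx w n) := by
  have hg : G n (Nc (nx w n)) := h.Gm n _ _ hn (le_nx n) (hG _ (hn.trans (le_nx n)))
  have h1 := h.dyn n (Nc (nx w n)) (2 ^ kk k (nx w n)) hn hg Nat.one_le_two_pow le_rfl
  have h2 := h.stat n (Nc n) (Nc (nx w n)) (2 ^ kk k (nx w n)) hn (hG n hn) hg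
    (Nat.pow_le_pow_right (by norm_num) (h.k1 n hn)) le_rfl
  rw [log_kk] at h2
  have h3 := h.win n hn
  have h4 := sum_A (A := A) n (nx w n) (le_nx n) (a n)
  have h5 : -(lp * |∑ i ∈ Ico n (nx w n), (a n - A i)|) ≤
      lp * ∑ i ∈ Ico n (nx w n), (a n - A i) := by
    rw [← mul_neg]
    exact mul_le_mul_of_nonneg_left (neg_abs_le _) lp_pos.le
  have h6 : (a (nx w n) - a n) * (k (nx w n) * lp) ≤
      |a (nx w n) - a n| * (k (nx w n) * lp) :=
    mul_le_mul_of_nonneg_right (le_abs_self _)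
      (mul_nonneg (Nat.cast_nonneg _) lp_pos.le)
  have h7 : a n * (1 / (2 * Real.pi)) * ((kk k (nx w n) : ℕ) * Real.log 2 -
      (kk k n : ℕ) * Real.log 2) = a n * ((nx w n - n : ℝ) * lp) + a n * (k (nx w n) * lp) -
      a n * (k n * lp) := by
    unfold kk lp
    push_cast
    ring
  rw [h7] at h2
  unfold bb
  rw [h4]
  linarith

/-- sums over the windows of a chain -/
lemma chain_sum (n : ℕ) (j : ℕ) : ∑ i ∈ range j, wF f w (itw w n i) =
    ∑ i ∈ Ico n (itw w n j), f i := by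
  induction j with
  | zero => simp [itw_zero]
  | succ j ih =>
    rw [sum_range_succ, ih, itw_succ, wF, nx]
    refine sum_Ico_consecutive _ ?_ (Nat.le_add_right _ _)
    clear ih
    induction j with
    | zero => exact le_rfl
    | succ j ih => rw [itw_succ]; exact ih.trans (Nat.le_add_right _ _)

lemma itw_le_succ (n j : ℕ) : itw w n j ≤ itw w n (j + 1) := by
  rw [itw_succ]; exact Nat.le_add_right _ _

lemma itw_mono (n : ℕ) : Monotone (itw w n) := monotone_nat_of_le_succ (itw_le_succ n)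

lemma le_itw (n j : ℕ) : n ≤ itw w n j := itw_mono n (Nat.zero_le j)

theorem SL.b_chain (h : SL E a A f k w G n0) (hG : ∀ n, n0 ≤ n → G n (Nc n)) {n : ℕ}
    (hn : n0 ≤ n) (j : ℕ) :
    bb E a A k Nc (itw w n j) ≤ bb E a A k Nc n + 2 * ∑ i ∈ Ico n (itw w n j), f i := by
  rw [← chain_sum]
  induction j with
  | zero => simp [itw_zero]
  | succ j ih =>
    have h1 := h.b_step hG (hn.trans (le_itw (w := w) n j))
    rw [sum_range_succ, itw_succ]
    unfold nx at h1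
    linarith

theorem SU.b_chain (h : SU E a A f k w G n0) (hG : ∀ n, n0 ≤ n → G n (Nc n)) {n : ℕ}
    (hn : n0 ≤ n) (j : ℕ) :
    bb E a A k Nc n - 3 * ∑ i ∈ Ico n (itw w n j), f i ≤ bb E a A k Nc (itw w n j) := by
  rw [← chain_sum]
  induction j with
  | zero => simp [itw_zero]
  | succ j ih =>
    have h1 := h.b_step hG (hn.trans (le_itw (w := w) n j))
    rw [sum_range_succ, itw_succ]
    unfold nx at h1
    linarith

/-- the energy along a chain decreases by at most the errors -/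
theorem SU.e_chain (h : SU E a A f k w G n0) {n N r : ℕ} (hn : n0 ≤ n) (j : ℕ)
    (hG : ∀ i, i < j → G (itw w n i) N) (hr1 : 1 ≤ r) (hr : r ≤ 2 ^ kk k (nx w n)) :
    E n N r - ∑ i ∈ Ico n (itw w n j), f i ≤ E (itw w n j) N r := by
  rw [← chain_sum]
  induction j with
  | zero => simp [itw_zero]
  | succ j ih =>
    have ih' := ih fun i hi => hG i (by omega)
    have h1 : r ≤ 2 ^ kk k (nx w (itw w n j)) := by
      refine hr.trans (Nat.pow_le_pow_right (by norm_num) ?_)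
      have h2 : ∀ i, kk k (nx w n) ≤ kk k (nx w (itw w n i)) := by
        intro i
        induction i with
        | zero => exact le_rfl
        | succ i ihi =>
          refine ihi.trans ?_
          have h3 := h.k1 (nx w (itw w n i)) ((hn.trans (le_itw (w := w) n i)).trans (le_nx _))
          rwa [show itw w n (i + 1) = nx w (itw w n i) from itw_succ w n i]
      exact h2 j
    have h2 := h.dyn (itw w n j) N r (hn.trans (le_itw (w := w) n j)) (hG j (Nat.lt_succ_self j))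
      hr1 h1
    rw [sum_range_succ, itw_succ]
    unfold nx at h2
    linarith

/-- remainder at the end -/
def ve (a A : ℕ → ℝ) (n l : ℕ) : ℝ :=
  lp * |∑ i ∈ Ico n l, (a n - A i)| + |a n * (1 / (2 * Real.pi)) - 1 / 4| * Real.log 2

/-- the main term -/
def mt (A : ℕ → ℝ) (r : ℕ) : ℝ :=
  lp * ∑ i ∈ range (Nat.log 2 r), A i + 1 / 4 * (Real.log r - Nat.log 2 r * Real.log 2)

lemma log_sub (r : ℕ) (hr : 1 ≤ r) : 0 ≤ Real.log r - Nat.log 2 r * Real.log 2 ∧
    Real.log r - Nat.log 2 r * Real.log 2 ≤ Real.log 2 := by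
  have h1 : (2 : ℝ) ^ Nat.log 2 r ≤ r := by exact_mod_cast Nat.pow_log_le_self 2 (by omega)
  have h2 : (r : ℝ) ≤ 2 ^ (Nat.log 2 r + 1) := by
    exact_mod_cast (Nat.lt_pow_succ_log_self (by norm_num) r).le
  have hr0 : (0 : ℝ) < r := by exact_mod_cast hr
  constructor
  · have := Real.log_le_log (by positivity) h1
    rw [Real.log_pow] at this
    linarith
  · have := Real.log_le_log hr0 h2
    rw [Real.log_pow] at this
    push_cast at this
    linarith

/-- the main term versus the linear term at level `n` -/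
lemma mt_cmp {n r : ℕ} (hr : 1 ≤ r) (hn : n ≤ Nat.log 2 r) :
    |mt A r - (lp * ∑ i ∈ range n, A i +
      a n * (1 / (2 * Real.pi)) * (Real.log r - n * Real.log 2))| ≤ ve a A n (Nat.log 2 r) := by
  have h1 := sum_A (A := A) n (Nat.log 2 r) hn (a n)
  have h2 := log_sub r hr
  unfold mt ve
  rw [h1]
  have h3 : lp * ∑ i ∈ range n, A i + a n * ((Nat.log 2 r - n : ℝ) * lp) -
      lp * ∑ i ∈ Ico n (Nat.log 2 r), (a n - A i) +
      1 / 4 * (Real.log r - Nat.log 2 r * Real.log 2) - (lp * ∑ i ∈ range n, A i +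
      a n * (1 / (2 * Real.pi)) * (Real.log r - n * Real.log 2)) =
      -(lp * ∑ i ∈ Ico n (Nat.log 2 r), (a n - A i)) -
      (a n * (1 / (2 * Real.pi)) - 1 / 4) * (Real.log r - Nat.log 2 r * Real.log 2) := by
    unfold lp
    ring
  rw [h3]
  refine (abs_sub _ _).trans ?_
  rw [abs_neg, abs_mul, abs_mul, abs_of_pos lp_pos, abs_of_nonneg h2.1]
  exact add_le_add le_rfl (mul_le_mul_of_nonneg_left h2.2 (abs_nonneg _))

/-- **(S_low) at one window** -/
theorem SL.one (h : SL E a A f k w G n0) (hG : ∀ n, n0 ≤ n → G n (Nc n)) {n N r : ℕ} {τ : ℝ}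
    (hn : n0 ≤ n) (hN : G n N) (hr1 : 2 ^ kk k n ≤ r) (hr2 : r ≤ 2 ^ kk k (nx w n))
    (hL : -L r ≤ E n N r + τ) :
    -L r ≤ bb E a A k Nc n + mt A r + wF f w n + ve a A n (Nat.log 2 r) + τ := by
  have hr : 1 ≤ r := Nat.one_le_two_pow.trans hr1
  have hl : n ≤ Nat.log 2 r := by
    refine (Nat.le_add_right n (k n)).trans ?_
    exact Nat.le_log_of_pow_le (by norm_num) hr1
  have h1 := h.stat n (Nc n) N r hn (hG n hn) hN hr1 hr2
  have h2 := (abs_le.1 (mt_cmp (A := A) (a := a) hr hl)).1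
  have h3 : a n * (1 / (2 * Real.pi)) * (Real.log r - (kk k n : ℕ) * Real.log 2) =
      a n * (1 / (2 * Real.pi)) * (Real.log r - n * Real.log 2) - a n * (k n * lp) := by
    unfold kk lp
    push_cast
    ring
  rw [h3] at h1
  unfold bb
  linarith

/-- **(S_up) at one window** -/
theorem SU.one (h : SU E a A f k w G n0) (hG : ∀ n, n0 ≤ n → G n (Nc n)) {n N r : ℕ} {τ : ℝ}
    (hn : n0 ≤ n) (hN : G n N) (hr1 : 2 ^ kk k n ≤ r) (hr2 : r ≤ 2 ^ kk k (nx w n))
    (hL : E n N r - τ ≤ -L r) :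
    bb E a A k Nc n + mt A r - wF f w n - ve a A n (Nat.log 2 r) - τ ≤ -L r := by
  have hr : 1 ≤ r := Nat.one_le_two_pow.trans hr1
  have hl : n ≤ Nat.log 2 r := by
    refine (Nat.le_add_right n (k n)).trans ?_
    exact Nat.le_log_of_pow_le (by norm_num) hr1
  have h1 := h.stat n (Nc n) N r hn (hG n hn) hN hr1 hr2
  have h2 := (abs_le.1 (mt_cmp (A := A) (a := a) hr hl)).2
  have h3 : a n * (1 / (2 * Real.pi)) * (Real.log r - (kk k n : ℕ) * Real.log 2) =
      a n * (1 / (2 * Real.pi)) * (Real.log r - n * Real.log 2) - a n * (k n * lp) := by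
    unfold kk lp
    push_cast
    ring
  rw [h3] at h1
  unfold bb
  linarith

/-- the window of the chain which contains the distance `r` -/
lemma exists_win (h : SB a A f k w G n0) {r : ℕ} (hr : 2 ^ kk k n0 ≤ r) :
    ∃ j, 2 ^ kk k (itw w n0 j) ≤ r ∧ r ≤ 2 ^ kk k (nx w (itw w n0 j)) := by
  by_contra hcon
  push Not at hcon
  have key : ∀ j, 2 ^ kk k (itw w n0 j) ≤ r := by
    intro j
    induction j with
    | zero => exact hr
    | succ j ih =>
      rw [itw_succ]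
      exact (hcon j ih).le
  have h1 := key (r + 1)
  have h2 := itw_ge h.w1 le_rfl (r + 1)
  have h3 : r + 1 ≤ kk k (itw w n0 (r + 1)) := by unfold kk; omega
  have h4 : 2 ^ (r + 1) ≤ 2 ^ kk k (itw w n0 (r + 1)) := Nat.pow_le_pow_right (by norm_num) h3
  have h5 : r + 1 < 2 ^ (r + 1) := Nat.lt_two_pow_self
  omega

/-- **(S_low), all distances**: `tau r` = error of the top -/
theorem SL.all (h : SL E a A f k w G n0) (hG : ∀ n, n0 ≤ n → ∃ N, G n N)
    (ht : ∀ n r : ℕ, n0 ≤ n → 2 ^ kk k n ≤ r → r ≤ 2 ^ kk k (nx w n) →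
      ∃ N : ℕ, G n N ∧ -L r ≤ E n N r + t r) :
    ∃ b : ℝ, ∀ r : ℕ, 2 ^ kk k n0 ≤ r → ∃ n, n0 ≤ n ∧ 2 ^ kk k n ≤ r ∧ r ≤ 2 ^ kk k (nx w n) ∧
      -L r ≤ b + mt A r + 2 * ∑ i ∈ Ico n0 (nx w n), f i + ve a A n (Nat.log 2 r) + t r := by
  classical
  choose! Nc hNc using hG
  refine ⟨bb E a A k Nc n0, fun r hr => ?_⟩
  obtain ⟨j, h1, h2⟩ := exists_win h.toSB hr
  have hn := le_itw (w := w) n0 j
  obtain ⟨N, hN, hL⟩ := ht _ r hn h1 h2
  refine ⟨itw w n0 j, hn, h1, h2, ?_⟩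
  have h3 := h.one (L := L) hNc hn hN h1 h2 hL
  have h4 := h.b_chain hNc le_rfl j
  have h5 : ∑ i ∈ Ico n0 (itw w n0 j), f i + wF f w (itw w n0 j) =
      ∑ i ∈ Ico n0 (nx w (itw w n0 j)), f i := sum_Ico_consecutive _ hn (le_nx _)
  have h6 := wF_nonneg (w := w) h.f0 (itw w n0 j)
  linarith

/-- **(S_up), all distances**; `m r` = the top level, `W r` a level behind the chain -/
theorem SU.all (h : SU E a A f k w G n0) (hG : ∀ n, n0 ≤ n → ∃ N, G n N) {W : ℕ → ℕ}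
    (hmono : ∀ n N r : ℕ, n0 ≤ n → E (n + 1) N r ≤ E n N r)
    (ht : ∀ n r : ℕ, n0 ≤ n → 2 ^ kk k n ≤ r → r ≤ 2 ^ kk k (nx w n) →
      ∃ N m : ℕ, n ≤ m ∧ G m N ∧ E m N r - t r ≤ -L r ∧ ∀ i, n0 ≤ i → i < m → nx w i ≤ W r) :
    ∃ b : ℝ, ∀ r : ℕ, 2 ^ kk k n0 ≤ r → ∃ n, n0 ≤ n ∧ 2 ^ kk k n ≤ r ∧ r ≤ 2 ^ kk k (nx w n) ∧
      b + mt A r - 3 * ∑ i ∈ Ico n0 (max (W r) (nx w n)), f i - ve a A n (Nat.log 2 r) - t r ≤
        -L r := by
  classical
  choose! Nc hNc using hG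
  refine ⟨bb E a A k Nc n0, fun r hr => ?_⟩
  obtain ⟨j, h1, h2⟩ := exists_win h.toSB hr
  have hn := le_itw (w := w) n0 j
  obtain ⟨N, m, hnm, hN, hL, hW⟩ := ht _ r hn h1 h2
  refine ⟨itw w n0 j, hn, h1, h2, ?_⟩
  set n := itw w n0 j with hndef
  have hr1 : 1 ≤ r := Nat.one_le_two_pow.trans h1
  -- the first element of the chain from `n` behind `m`
  have hex : ∃ i, m ≤ itw w n i := by
    have h3 := itw_ge h.w1 hn m
    exact ⟨m, by omega⟩
  set i0 := Nat.find hex with hi0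
  have h3 : m ≤ itw w n i0 := Nat.find_spec hex
  have h4 : ∀ i, i < i0 → itw w n i < m := fun i hi => not_le.1 (Nat.find_min hex hi)
  have h5 := h.e_chain (N := N) (r := r) hn i0
    (fun i hi => h.Gm _ m N (hn.trans (le_itw (w := w) n i)) (h4 i hi).le hN) hr1 h2
  have hm : ∀ p q, n0 ≤ p → p ≤ q → E q N r ≤ E p N r := by
    intro p q hp hpq
    induction q, hpq using Nat.le_induction with
    | base => exact le_rfl
    | succ q hq ih => exact (hmono q N r (hp.trans hq)).trans ih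
  have h6 := hm m (itw w n i0) (hn.trans hnm) h3
  have h7 : itw w n i0 ≤ max (W r) (nx w n) := by
    rcases Nat.eq_zero_or_pos i0 with h0 | h0
    · rw [h0, itw_zero]; exact (le_nx n).trans (le_max_right _ _)
    · obtain ⟨i, hi⟩ := Nat.exists_eq_succ_of_ne_zero h0.ne'
      rw [hi, Nat.succ_eq_add_one, itw_succ]
      refine le_trans ?_ (le_max_left _ _)
      exact hW _ (hn.trans (le_itw (w := w) n i)) (h4 i (by omega))
  have h8 : ∑ i ∈ Ico n (itw w n i0), f i ≤ ∑ i ∈ Ico n (max (W r) (nx w n)), f i :=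
    sum_le_sum_of_subset_of_nonneg (Ico_subset_Ico_right h7) fun i _ _ => h.f0 i
  have h9 := h.one (L := L) (τ := t r + ∑ i ∈ Ico n (itw w n i0), f i) hNc hn
    (h.Gm n m N hn hnm hN) h1 h2 (by linarith)
  have h10 := h.b_chain hNc le_rfl j
  rw [← hndef] at h10
  have h11 : ∑ i ∈ Ico n0 n, f i + ∑ i ∈ Ico n (max (W r) (nx w n)), f i =
      ∑ i ∈ Ico n0 (max (W r) (nx w n)), f i :=
    sum_Ico_consecutive _ hn ((le_nx n).trans (le_max_right _ _))
  have h12 : wF f w n ≤ ∑ i ∈ Ico n (max (W r) (nx w n)), f i :=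
    sum_le_sum_of_subset_of_nonneg (Ico_subset_Ico_right (le_max_right _ _)) fun i _ _ => h.f0 i
  have h13 : 0 ≤ ∑ i ∈ Ico n (max (W r) (nx w n)), f i := sum_nonneg fun i _ => h.f0 i
  linarith

end

end Vale.Agent.P159.H552.Dx7
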