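import Vale.Agent.P159.H552.Dx7a

/-!
P159 / module DX7 (helper552), part b: convergence form of (S), bounded forms, `ε log` forms.
-/

open Filter Topology Finset

namespace Vale.Agent.P159.H552.Dx7

open Vale.Agent.P159.H801 (itw itw_zero itw_succ itw_ge itw_tend tend_of_inc)

noncomputable section

variable {E : ℕ → ℕ → ℕ → ℝ} {a A f L t : ℕ → ℝ} {k w Nc : ℕ → ℕ} {G : ℕ → ℕ → Prop} {n0 : ℕ}

lemma anti_E {E : ℕ → ℕ → ℕ → ℝ} (hmono : ∀ n N r : ℕ, n0 ≤ n → E (n + 1) N r ≤ E n N r) {p q : ℕ}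
    (N r : ℕ) (hp : n0 ≤ p) (hpq : p ≤ q) : E q N r ≤ E p N r := by
  induction q, hpq using Nat.le_induction with
  | base => exact le_rfl
  | succ q hq ih => exact (hmono q N r (hp.trans hq)).trans ih

/-- **(S_up) at one window, with the top**: the errors of the chain from `n` to the top `m` -/
theorem SU.one_top (h : SU E a A f k w G n0) (hG : ∀ n, n0 ≤ n → G n (Nc n)) {W : ℕ}
    (hmono : ∀ n N r : ℕ, n0 ≤ n → E (n + 1) N r ≤ E n N r)
    {n N m r : ℕ} {τ : ℝ} (hn : n0 ≤ n) (hnm : n ≤ m) (hN : G m N)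
    (hr1 : 2 ^ kk k n ≤ r) (hr2 : r ≤ 2 ^ kk k (nx w n)) (hL : E m N r - τ ≤ -L r)
    (hW : ∀ i, n0 ≤ i → i < m → nx w i ≤ W) :
    bb E a A k Nc n + mt A r - 2 * ∑ i ∈ Ico n (max W (nx w n)), f i -
      ve a A n (Nat.log 2 r) - τ ≤ -L r := by
  have hr : 1 ≤ r := Nat.one_le_two_pow.trans hr1
  have hex : ∃ i, m ≤ itw w n i := by
    have h3 := itw_ge h.w1 hn m
    exact ⟨m, by omega⟩
  classical
  set i0 := Nat.find hex with hi0
  have h3 : m ≤ itw w n i0 := Nat.find_spec hex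
  have h4 : ∀ i, i < i0 → itw w n i < m := fun i hi => not_le.1 (Nat.find_min hex hi)
  have h5 := h.e_chain (N := N) (r := r) hn i0
    (fun i hi => h.Gm _ m N (hn.trans (le_itw (w := w) n i)) (h4 i hi).le hN) hr hr2
  have h6 := anti_E hmono N r (hn.trans hnm) h3
  have h7 : itw w n i0 ≤ max W (nx w n) := by
    rcases Nat.eq_zero_or_pos i0 with h0 | h0
    · rw [h0, itw_zero]; exact (le_nx n).trans (le_max_right _ _)
    · obtain ⟨i, hi⟩ := Nat.exists_eq_succ_of_ne_zero h0.ne'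
      rw [hi, Nat.succ_eq_add_one, itw_succ]
      refine le_trans ?_ (le_max_left _ _)
      exact hW _ (hn.trans (le_itw (w := w) n i)) (h4 i (by omega))
  have h8 : ∑ i ∈ Ico n (itw w n i0), f i ≤ ∑ i ∈ Ico n (max W (nx w n)), f i :=
    sum_le_sum_of_subset_of_nonneg (Ico_subset_Ico_right h7) fun i _ _ => h.f0 i
  have h9 := h.one (L := L) (τ := τ + ∑ i ∈ Ico n (itw w n i0), f i) hG hn
    (h.Gm n m N hn hnm hN) hr1 hr2 (by linarith)
  have h12 : wF f w n ≤ ∑ i ∈ Ico n (max W (nx w n)), f i :=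
    sum_le_sum_of_subset_of_nonneg (Ico_subset_Ico_right (le_max_right _ _)) fun i _ _ => h.f0 i
  linarith

lemma Ico_le_tsum (hf : Summable f) (h0 : ∀ n, 0 ≤ f n) (n m : ℕ) :
    ∑ i ∈ Ico n m, f i ≤ ∑' i, f i - ∑ i ∈ range n, f i := by
  have h1 : ∑ i ∈ range (max n m), f i ≤ ∑' i, f i := hf.sum_le_tsum _ fun k _ => h0 k
  have h2 := sum_range_add_sum_Ico f (le_max_left n m)
  have h3 : ∑ i ∈ Ico n m, f i ≤ ∑ i ∈ Ico n (max n m), f i :=
    sum_le_sum_of_subset_of_nonneg (Ico_subset_Ico_right (le_max_right _ _)) fun i _ _ => h0 i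
  linarith

lemma tail_tend (hf : Summable f) :
    Tendsto (fun n => ∑' i, f i - ∑ i ∈ range n, f i) atTop (𝓝 0) := by
  have h1 := (tendsto_const_nhds (x := ∑' i, f i)).sub hf.hasSum.tendsto_sum_nat
  simpa using h1

/-- **(S), convergence form** -/
theorem conv (hl : SL E a A f k w G n0) (hu : SU E a A f k w G n0)
    (hG : ∀ n, n0 ≤ n → ∃ N, G n N)
    (hmono : ∀ n N r : ℕ, n0 ≤ n → E (n + 1) N r ≤ E n N r)
    (htl : ∀ n r : ℕ, n0 ≤ n → 2 ^ kk k n ≤ r → r ≤ 2 ^ kk k (nx w n) →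
      ∃ N : ℕ, G n N ∧ -L r ≤ E n N r + t r)
    (htu : ∀ n r : ℕ, n0 ≤ n → 2 ^ kk k n ≤ r → r ≤ 2 ^ kk k (nx w n) →
      ∃ N m : ℕ, n ≤ m ∧ G m N ∧ E m N r - t r ≤ -L r)
    (hf : Summable f)
    (hve : ∀ ε : ℝ, 0 < ε → ∀ᶠ n in atTop, ∀ l, n ≤ l → l ≤ kk k (nx w n) → ve a A n l ≤ ε)
    (ht : Tendsto t atTop (𝓝 0)) :
    ∃ c' : ℝ, Tendsto (fun r => L r + mt A r) atTop (𝓝 c') := by
  classical
  choose! Nc hNc using hG
  set b : ℕ → ℝ := fun j => bb E a A k Nc (itw w n0 j) with hb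
  -- the sequence `b` converges
  have hbs : Summable fun j => 3 * wF f w (itw w n0 j) := by
    refine Summable.mul_left 3 ?_
    refine summable_of_sum_range_le (c := ∑' i, f i) (fun j => wF_nonneg hl.f0 _) fun j => ?_
    rw [chain_sum]
    have h1 := Ico_le_tsum hf hl.f0 n0 (itw w n0 j)
    have h2 : 0 ≤ ∑ i ∈ range n0, f i := sum_nonneg fun i _ => hl.f0 i
    linarith
  obtain ⟨β, hβ⟩ := tend_of_inc (g := b) hbs (Eventually.of_forall fun j => by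
    have hn := le_itw (w := w) n0 j
    have h1 := hl.b_step hNc hn
    have h2 := hu.b_step hNc hn
    have h3 : nx w (itw w n0 j) = itw w n0 (j + 1) := (itw_succ w n0 j).symm
    rw [h3] at h1 h2
    have h4 := wF_nonneg (w := w) hl.f0 (itw w n0 j)
    rw [abs_le]
    constructor <;> simp only [hb] <;> linarith)
  -- the window of `r`
  have hJ : ∀ r : ℕ, 2 ^ kk k n0 ≤ r → ∃ j, 2 ^ kk k (itw w n0 j) ≤ r ∧
      r ≤ 2 ^ kk k (nx w (itw w n0 j)) := fun r hr => exists_win hl.toSB hr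
  choose! J hJ1 hJ2 using hJ
  have hkmono : Monotone fun j => kk k (itw w n0 j) := by
    refine monotone_nat_of_le_succ fun j => ?_
    have h1 := hl.k1 (itw w n0 j) (le_itw (w := w) n0 j)
    have h3 : nx w (itw w n0 j) = itw w n0 (j + 1) := (itw_succ w n0 j).symm
    rwa [h3] at h1
  have hJt : Tendsto J atTop atTop := by
    rw [tendsto_atTop]
    intro j
    filter_upwards [eventually_ge_atTop (2 ^ kk k n0),
      eventually_gt_atTop (2 ^ kk k (itw w n0 j))] with r hr hr2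
    by_contra hcon
    push Not at hcon
    have h1 := hJ2 r hr
    have h3 : nx w (itw w n0 (J r)) = itw w n0 (J r + 1) := (itw_succ w n0 (J r)).symm
    rw [h3] at h1
    have h4 : 2 ^ kk k (itw w n0 (J r + 1)) ≤ 2 ^ kk k (itw w n0 j) :=
      Nat.pow_le_pow_right (by norm_num) (hkmono (by omega : J r + 1 ≤ j))
    omega
  have hnt : Tendsto (itw w n0) atTop atTop := itw_tend hl.w1 le_rfl
  refine ⟨-β, ?_⟩
  rw [Metric.tendsto_atTop]
  intro ε hε
  have e1 : ∀ᶠ r in atTop, |b (J r) - β| ≤ ε / 8 := by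
    have h1 := (Metric.tendsto_atTop.1 (hβ.comp hJt)) (ε / 8) (by positivity)
    obtain ⟨R, hR⟩ := h1
    filter_upwards [eventually_ge_atTop R] with r hr
    have := hR r hr
    rw [Real.dist_eq] at this
    exact this.le
  have e2 : ∀ᶠ r in atTop, ∑' i, f i - ∑ i ∈ range (itw w n0 (J r)), f i ≤ ε / 8 := by
    have h1 := ((tail_tend hf).comp (hnt.comp hJt)).eventually
      (gt_mem_nhds (show (0 : ℝ) < ε / 8 by positivity))
    filter_upwards [h1] with r hr using hr.le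
  have e3 : ∀ᶠ r in atTop, ∀ l, itw w n0 (J r) ≤ l → l ≤ kk k (nx w (itw w n0 (J r))) →
      ve a A (itw w n0 (J r)) l ≤ ε / 8 :=
    (hnt.comp hJt).eventually (hve (ε / 8) (by positivity))
  have e4 : ∀ᶠ r in atTop, |t r| ≤ ε / 8 := by
    have h1 := (Metric.tendsto_atTop.1 ht) (ε / 8) (by positivity)
    obtain ⟨R, hR⟩ := h1
    filter_upwards [eventually_ge_atTop R] with r hr
    have := hR r hr
    rw [Real.dist_eq, sub_zero] at this
    exact this.le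
  have hfin : ∀ᶠ r in atTop, |L r + mt A r - -β| < ε := by
    filter_upwards [e1, e2, e3, e4, eventually_ge_atTop (2 ^ kk k n0)] with r h1 h2 h3 h4 hr
    have g1 := hJ1 r hr
    have g2 := hJ2 r hr
    have hn := le_itw (w := w) n0 (J r)
    set n := itw w n0 (J r) with hnd
    have hr1 : 1 ≤ r := Nat.one_le_two_pow.trans g1
    obtain ⟨N, hN, hL⟩ := htl n r hn g1 g2
    obtain ⟨N', m, hnm, hN', hL'⟩ := htu n r hn g1 g2
    have k1 := hl.one (L := L) hNc hn hN g1 g2 hL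
    -- a bound for the ends of the windows below `m`
    obtain ⟨W, hW⟩ : ∃ W, ∀ i, n0 ≤ i → i < m → nx w i ≤ W := by
      refine ⟨∑ i ∈ range m, nx w i, fun i _ hi => ?_⟩
      exact single_le_sum (f := fun i => nx w i) (fun _ _ => Nat.zero_le _) (mem_range.2 hi)
    have k2 := hu.one_top (L := L) hNc hmono hn hnm hN' g1 g2 hL' hW
    have k3 : wF f w n ≤ ∑' i, f i - ∑ i ∈ range n, f i := Ico_le_tsum hf hl.f0 _ _
    have k4 := Ico_le_tsum hf hl.f0 n (max W (nx w n))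
    have hl1 : n ≤ Nat.log 2 r := (Nat.le_add_right n (k n)).trans
      (Nat.le_log_of_pow_le (by norm_num) g1)
    have hl2 : Nat.log 2 r ≤ kk k (nx w n) := by
      have := Nat.log_mono_right (b := 2) g2
      rwa [Nat.log_pow (by norm_num)] at this
    have k5 := h3 _ hl1 hl2
    have k6 := abs_le.1 h4
    have k7 := abs_le.1 h1
    have k8 : b (J r) = bb E a A k Nc n := rfl
    rw [k8] at k7
    rw [abs_lt]
    constructor <;> linarith [k6.1, k6.2, k7.1, k7.2]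
  obtain ⟨R, hR⟩ := eventually_atTop.1 hfin
  exact ⟨R, fun r hr => by rw [Real.dist_eq]; exact hR r hr⟩

/-- **(S_low), bounded form**: `ve ≤ V`, `t ≤ V` -/
theorem low_bdd (h : SL E a A f k w G n0) (hG : ∀ n, n0 ≤ n → ∃ N, G n N)
    (ht : ∀ n r : ℕ, n0 ≤ n → 2 ^ kk k n ≤ r → r ≤ 2 ^ kk k (nx w n) →
      ∃ N : ℕ, G n N ∧ -L r ≤ E n N r + t r) {V : ℝ} {g : ℕ → ℝ}
    (hV : ∀ n l, n0 ≤ n → n ≤ l → l ≤ kk k (nx w n) → ve a A n l ≤ V)
    (hT : ∀ r, 2 ^ kk k n0 ≤ r → t r ≤ V)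
    (hg : ∀ n l, n0 ≤ n → kk k n ≤ l → ∑ i ∈ Ico n0 (nx w n), f i ≤ g l) :
    ∃ K : ℝ, ∀ r : ℕ, 2 ^ kk k n0 ≤ r → -mt A r - 2 * g (Nat.log 2 r) - K ≤ L r := by
  obtain ⟨b, hb⟩ := h.all (L := L) (t := t) hG ht
  refine ⟨b + 2 * V, fun r hr => ?_⟩
  obtain ⟨n, hn, h1, h2, h3⟩ := hb r hr
  have hl0 := Nat.le_log_of_pow_le (b := 2) (by norm_num) h1
  have hl1 : n ≤ Nat.log 2 r := (Nat.le_add_right n (k n)).trans hl0
  have hl2 : Nat.log 2 r ≤ kk k (nx w n) := by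
    have := Nat.log_mono_right (b := 2) h2
    rwa [Nat.log_pow (by norm_num)] at this
  have h4 := hV n _ hn hl1 hl2
  have h5 := hT r hr
  have h6 := hg n _ hn hl0
  linarith

/-- **(S_up), bounded form** -/
theorem up_bdd (h : SU E a A f k w G n0) (hG : ∀ n, n0 ≤ n → ∃ N, G n N) {W : ℕ → ℕ}
    (hmono : ∀ n N r : ℕ, n0 ≤ n → E (n + 1) N r ≤ E n N r)
    (ht : ∀ n r : ℕ, n0 ≤ n → 2 ^ kk k n ≤ r → r ≤ 2 ^ kk k (nx w n) →
      ∃ N m : ℕ, n ≤ m ∧ G m N ∧ E m N r - t r ≤ -L r ∧ ∀ i, n0 ≤ i → i < m → nx w i ≤ W r)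
    {V : ℝ} {g : ℕ → ℝ}
    (hV : ∀ n l, n0 ≤ n → n ≤ l → l ≤ kk k (nx w n) → ve a A n l ≤ V)
    (hT : ∀ r, 2 ^ kk k n0 ≤ r → t r ≤ V)
    (hg : ∀ n r, n0 ≤ n → 2 ^ kk k n ≤ r →
      ∑ i ∈ Ico n0 (max (W r) (nx w n)), f i ≤ g (Nat.log 2 r)) :
    ∃ K : ℝ, ∀ r : ℕ, 2 ^ kk k n0 ≤ r → L r ≤ -mt A r + 3 * g (Nat.log 2 r) + K := by
  obtain ⟨b, hb⟩ := h.all (L := L) (t := t) hG hmono ht
  refine ⟨-b + 2 * V, fun r hr => ?_⟩
  obtain ⟨n, hn, h1, h2, h3⟩ := hb r hr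
  have hl0 := Nat.le_log_of_pow_le (b := 2) (by norm_num) h1
  have hl1 : n ≤ Nat.log 2 r := (Nat.le_add_right n (k n)).trans hl0
  have hl2 : Nat.log 2 r ≤ kk k (nx w n) := by
    have := Nat.log_mono_right (b := 2) h2
    rwa [Nat.log_pow (by norm_num)] at this
  have h4 := hV n _ hn hl1 hl2
  have h5 := hT r hr
  have h6 := hg n r hn h1
  linarith

lemma mt_pow (A : ℕ → ℝ) (n : ℕ) : mt A (2 ^ n) = lp * ∑ i ∈ range n, A i := by
  unfold mt
  rw [Nat.log_pow (by norm_num), log_kk, sub_self, mul_zero, add_zero]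

end

end Vale.Agent.P159.H552.Dx7
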