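import Vale.Agent.P159.H552.Dx7b
import Mathlib.Analysis.Real.Pi.Bounds

/-!
P159 / module DX7 (helper552), part c: **the amplitude theorem from (V), (P), (STAT), (DYN), (TOP)**
in the letters of helper801's `T3` (WODE) and helper817's energies `e N R`.
-/

open Filter Topology Finset

namespace Vale.Agent.P159.H552.Dx7

open Vale.Agent.P159.H801 (itw itw_zero itw_succ itw_ge itw_tend tend_of_inc Fl Wn T3 rp_cmp
  exp_one_le)
open Vale.Agent.P159.H264 (kap)

noncomputable section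

/-- `1/S` from the stiffness excess -/
def invS (x : ℕ → ℝ) (n : ℕ) : ℝ := 1 / (2 / Real.pi + x n)

/-- the raw inputs: `(STAT)`, `(DYN)` with the energies `e N R` of the massless torus -/
structure Raw (E : ℕ → ℕ → ℕ → ℝ) (e : ℕ → ℕ → ℝ) (a x y : ℕ → ℝ) (k w g : ℕ → ℕ) (T : Set ℕ)
    (c' κ0 A0 : ℝ) : Prop where
  c0 : 0 < c'
  A00 : 0 ≤ A0
  T_unb : ∀ N0, ∃ N ∈ T, N0 ≤ N
  kw : ∀ᶠ n in atTop, k (nx w n) ≤ 3 * w n
  k1 : ∀ᶠ n in atTop, kk k n ≤ kk k (nx w n)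
  av : ∀ᶠ n in atTop, |a n - invS x n| ≤ y n ^ (1 + c')
  ang : ∀ N ∈ T, ∀ R : ℕ, 1 ≤ R → R ≤ N →
    |e N R - 1 / Real.pi * Real.log R - κ0| ≤ A0 * (1 / R + √(R / N))
  stat : ∀ᶠ n in atTop, ∀ N ∈ T, ∀ N' ∈ T, g n ≤ N → g n ≤ N' → ∀ R : ℕ, 2 ^ kk k n ≤ R →
    R ≤ 2 ^ kk k (nx w n) →
    |E n N' R - E n N (2 ^ kk k n) - a n / 2 * (e N' R - e N (2 ^ kk k n))| ≤ y n ^ (1 + c')
  dyn : ∀ᶠ n in atTop, ∀ N ∈ T, g n ≤ N → ∀ R : ℕ, 1 ≤ R → R ≤ 2 ^ kk k (nx w n) →
    E n N R - E (nx w n) N R ≤ y n ^ (1 + c')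
  mono : ∀ᶠ n in atTop, ∀ N R : ℕ, E (n + 1) N R ≤ E n N R

/-- admissible tori -/
def Adm (y : ℕ → ℝ) (k w g : ℕ → ℕ) (T : Set ℕ) (n0 n N : ℕ) : Prop :=
  N ∈ T ∧ ∀ i, n0 ≤ i → i ≤ n → g i ≤ N ∧ (2 : ℝ) ^ kk k (nx w i) ≤ y i ^ 4 * N

variable {E : ℕ → ℕ → ℕ → ℝ} {e : ℕ → ℕ → ℝ} {a x y t L : ℕ → ℝ} {k w g : ℕ → ℕ} {T : Set ℕ}
  {c' κ0 A0 c r q B A : ℝ} {N n0 : ℕ}

lemma Adm.mono {n m N : ℕ} (h : Adm y k w g T n0 m N) (hnm : n ≤ m) : Adm y k w g T n0 n N :=
  ⟨h.1, fun i hi hin => h.2 i hi (hin.trans hnm)⟩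

lemma adm_large (hy : ∀ n, 0 < y n) (n0 n : ℕ) :
    ∃ N0, ∀ N ∈ T, N0 ≤ N → Adm y k w g T n0 n N := by
  induction n with
  | zero =>
    obtain ⟨M, hM⟩ := exists_nat_ge ((2 : ℝ) ^ kk k (nx w 0) / y 0 ^ 4)
    refine ⟨max (g 0) M, fun N hN hN0 => ⟨hN, fun i _ hi => ?_⟩⟩
    obtain rfl : i = 0 := by omega
    refine ⟨(le_max_left _ _).trans hN0, ?_⟩
    have h1 : (2 : ℝ) ^ kk k (nx w 0) / y 0 ^ 4 ≤ N :=
      hM.trans (by exact_mod_cast (le_max_right _ _).trans hN0)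
    rw [div_le_iff₀ (pow_pos (hy 0) 4)] at h1
    linarith
  | succ n ih =>
    obtain ⟨N1, hN1⟩ := ih
    obtain ⟨M, hM⟩ := exists_nat_ge ((2 : ℝ) ^ kk k (nx w (n + 1)) / y (n + 1) ^ 4)
    refine ⟨max N1 (max (g (n + 1)) M), fun N hN hN0 => ⟨hN, fun i hi0 hi => ?_⟩⟩
    have e1 : N1 ≤ N := (le_max_left _ _).trans hN0
    have e2 : max (g (n + 1)) M ≤ N := (le_max_right _ _).trans hN0
    rcases Nat.lt_or_ge n i with h | h
    · obtain rfl : i = n + 1 := by omega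
      refine ⟨(le_max_left _ _).trans e2, ?_⟩
      have h1 : (2 : ℝ) ^ kk k (nx w (n + 1)) / y (n + 1) ^ 4 ≤ N :=
        hM.trans (by exact_mod_cast (le_max_right _ _).trans e2)
      rw [div_le_iff₀ (pow_pos (hy _) 4)] at h1
      linarith
    · exact (hN1 N hN e1).2 i hi0 h

lemma half_le_two_div_pi : 1 / 2 ≤ 2 / Real.pi := by
  rw [div_le_div_iff₀ (by norm_num) Real.pi_pos]
  linarith [Real.pi_le_four]

lemma invS_sub {u v : ℝ} (hu : 0 < u) (hv : 0 < v) :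
    |1 / (2 / Real.pi + u) - 1 / (2 / Real.pi + v)| ≤ 4 * |u - v| := by
  have h0 := half_le_two_div_pi
  have h1 : 1 / 2 ≤ 2 / Real.pi + u := by linarith
  have h2 : 1 / 2 ≤ 2 / Real.pi + v := by linarith
  have h3 : 0 < 2 / Real.pi + u := by linarith
  have h4 : 0 < 2 / Real.pi + v := by linarith
  have h5 : 1 / (2 / Real.pi + u) - 1 / (2 / Real.pi + v) =
      (v - u) / ((2 / Real.pi + u) * (2 / Real.pi + v)) := by
    field_simp
    ring
  rw [h5, abs_div, abs_of_pos (mul_pos h3 h4), div_le_iff₀ (mul_pos h3 h4), abs_sub_comm v u]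
  have h6 : 1 / 4 ≤ (2 / Real.pi + u) * (2 / Real.pi + v) := by nlinarith
  have h7 := mul_le_mul_of_nonneg_left h6 (abs_nonneg (u - v))
  nlinarith

/-- window estimates for `a` and `A = 1/S` -/
lemma Raw.est (h : T3 x y κ0 c r q B A w N) {κ1 : ℝ} (hR : Raw E e a x y k w g T c' κ1 A0) {c1 : ℝ}
    (hc1 : 0 < c1) (h1 : c1 ≤ c') (h2 : 1 + c1 < r) :
    ∀ᶠ n in atTop, (∀ l, n ≤ l → l ≤ n + 4 * w n →
        |∑ i ∈ Ico n l, (a n - invS x i)| ≤ 20 * (w n * y n ^ (1 + c1))) ∧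
      |a (nx w n) - a n| ≤ 8 * y n ^ (1 + c1) := by
  have hpos : ∀ᶠ n in atTop, 0 < x n := by
    obtain ⟨K, _, hK⟩ := h.lower
    filter_upwards [hK] with n hn using hn.1
  obtain ⟨n1, hn1⟩ := eventually_atTop.1 (hpos.and (hR.av.and h.fl.ev_one))
  have e1 := h.fl.xvar h.wn (b := 1 + c1) (by linarith) h2
  have e2 := h.fl.var h.wn (η := 1 / (1 + c1)) (by positivity)
  filter_upwards [e1, e2, eventually_ge_atTop n1] with n g1 g2 g3
  have ha : ∀ i, n ≤ i → |a i - invS x i| ≤ y i ^ (1 + c1) := by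
    intro i hi
    obtain ⟨_, h4, h5⟩ := hn1 i (g3.trans hi)
    exact h4.trans (Real.rpow_le_rpow_of_exponent_ge (h.fl.y0 i) h5 (by linarith))
  have hA : ∀ i, n ≤ i → i ≤ n + 4 * w n → |invS x n - invS x i| ≤ 4 * y n ^ (1 + c1) := by
    intro i hi hi2
    refine (invS_sub (hn1 n g3).1 (hn1 i (g3.trans hi)).1).trans ?_
    rw [abs_sub_comm]
    exact mul_le_mul_of_nonneg_left (g1 i n hi hi2 le_rfl (by omega)) (by norm_num)
  constructor
  · intro l hl1 hl2
    have h3 : ∀ i ∈ Ico n l, |a n - invS x i| ≤ 5 * y n ^ (1 + c1) := by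
      intro i hi
      rw [mem_Ico] at hi
      have h4 := ha n le_rfl
      have h5 := hA i hi.1 (by omega)
      have h6 := abs_add_le (a n - invS x n) (invS x n - invS x i)
      rw [sub_add_sub_cancel] at h6
      linarith
    refine (abs_sum_le_sum_abs _ _).trans ((sum_le_sum h3).trans ?_)
    rw [sum_const, Nat.card_Ico, nsmul_eq_mul]
    have h4 : ((l - n : ℕ) : ℝ) ≤ 4 * w n := by exact_mod_cast (by omega : l - n ≤ 4 * w n)
    have h5 : 0 ≤ y n ^ (1 + c1) := Real.rpow_nonneg (h.fl.y0 n).le _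
    have h6 := mul_le_mul_of_nonneg_right h4 h5
    nlinarith
  · have h4 := ha n le_rfl
    have h5 := ha (nx w n) (le_nx n)
    have h6 := hA (nx w n) (le_nx n) (by unfold nx; omega)
    have h7 : y (nx w n) ^ (1 + c1) ≤ 3 * y n ^ (1 + c1) := by
      refine (rp_cmp (h.fl.y0 _) (h.fl.y0 n) (η := 1 / (1 + c1)) ?_ (by linarith)).trans ?_
      · rw [abs_sub_comm]
        exact g2 _ (le_nx n) (by unfold nx; omega)
      · refine mul_le_mul_of_nonneg_right ?_ (Real.rpow_nonneg (h.fl.y0 n).le _)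
        rw [mul_one_div_cancel (by linarith)]
        exact exp_one_le
    have h8 : a (nx w n) - a n = (a (nx w n) - invS x (nx w n)) -
        (invS x n - invS x (nx w n)) - (a n - invS x n) := by ring
    rw [h8]
    have h9 := abs_sub (a (nx w n) - invS x (nx w n) - (invS x n - invS x (nx w n)))
      (a n - invS x n)
    have h10 := abs_sub (a (nx w n) - invS x (nx w n)) (invS x n - invS x (nx w n))
    linarith

lemma T3.two_pow (h : T3 x y κ0 c r q B A w N) : ∀ᶠ n : ℕ in atTop, 1 / (2 : ℝ) ^ n ≤ y n ^ 2 := by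
  obtain ⟨M, hM⟩ := h.ny.isBoundedUnder_le.bddAbove_range
  have hMb : ∀ n : ℕ, (n : ℝ)⁻¹ * (1 / y n) ≤ M := fun n => hM ⟨n, rfl⟩
  -- `n^2 M^2 ≤ 2^n`
  have h1 : Tendsto (fun n : ℕ => (n : ℝ) ^ 2 / (2 : ℝ) ^ n) atTop (𝓝 0) :=
    tendsto_pow_const_div_const_pow_of_one_lt 2 (by norm_num)
  have h2 := (h1.mul_const ((|M| + 1) ^ 2)).eventually
    (gt_mem_nhds (show (0 : ℝ) * (|M| + 1) ^ 2 < 1 by rw [zero_mul]; norm_num))
  filter_upwards [h2, eventually_gt_atTop 0] with n hn hn0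
  have hn0' : (0 : ℝ) < n := by exact_mod_cast hn0
  have hy := h.fl.y0 n
  have h3 : 1 / y n ≤ n * (|M| + 1) := by
    have h4 := hMb n
    rw [inv_mul_le_iff₀ hn0'] at h4
    have h5 := le_abs_self M
    nlinarith
  have h4 : 0 < 1 / y n := by positivity
  have h5 : (1 / y n) ^ 2 ≤ (n * (|M| + 1)) ^ 2 := pow_le_pow_left₀ h4.le h3 2
  have h6 : (0 : ℝ) < 2 ^ n := by positivity
  rw [div_mul_eq_mul_div, div_lt_one h6, ← mul_pow] at hn
  rw [div_le_iff₀ h6]
  have h7 : (1 / y n) ^ 2 ≤ 2 ^ n := h5.trans hn.le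
  rw [div_pow, one_pow, div_le_iff₀ (by positivity)] at h7
  linarith

/-- from the raw inputs to the two halves -/
theorem Raw.build (h : T3 x y kap c r q B A w N) (hR : Raw E e a x y k w g T c' κ0 A0) (n1 : ℕ) :
    ∃ c2 : ℝ, 0 < c2 ∧ ∃ n0 : ℕ, n1 ≤ n0 ∧
      SL E a (invS x) (fun n => y n ^ (1 + c2)) k w (Adm y k w g T n0) n0 ∧
      SU E a (invS x) (fun n => y n ^ (1 + c2)) k w (Adm y k w g T n0) n0 ∧
      (∀ n N R : ℕ, n0 ≤ n → E (n + 1) N R ≤ E n N R) := by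
  have hy := h.fl.y0
  have hc' := hR.c0
  have hr1 := h.r1
  set m0 : ℝ := min (min c' (r - 1)) 1 with hm0
  have hm0p : 0 < m0 := lt_min (lt_min hc' (by linarith)) one_pos
  have hm0c : m0 ≤ c' := (min_le_left _ _).trans (min_le_left _ _)
  have hm0r : m0 ≤ r - 1 := (min_le_left _ _).trans (min_le_right _ _)
  have hm01 : m0 ≤ 1 := min_le_right _ _
  have hest := Raw.est h hR (c1 := m0 / 2) (by positivity) (by linarith) (by linarith)
  set c2 : ℝ := m0 / 4 with hc2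
  have hc2p : 0 < c2 := by positivity
  refine ⟨c2, hc2p, ?_⟩
  have hlp := lp_pos
  -- small quantities
  have e1 := h.fl.ev_w h.wn (b := m0 / 4) (e := 4 / (44 * lp)) (by positivity) (by positivity)
  have e2 := h.fl.ev_pow (b := c' - c2) (e := 1 / 2) (by linarith) (by norm_num)
  have e3 := h.fl.ev_pow (b := 1 - c2) (e := 1 / (2 * (4 * A0 + 1))) (by linarith)
    (by have := hR.A00; positivity)
  have e4 : ∀ᶠ n in atTop, |a n| ≤ 2 := by
    have hx := h.fl.xt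
    have h2 : 0 < 2 / Real.pi := by have := Real.pi_pos; positivity
    obtain ⟨K, _, hK⟩ := h.lower
    have e5 := h.fl.ev_pow (b := 1 + c') (e := 1 / 10) (by linarith) (by norm_num)
    filter_upwards [hK, hR.av, e5] with n hn hn2 hn3
    have h3 : invS x n ≤ Real.pi / 2 := by
      unfold invS
      rw [show Real.pi / 2 = 1 / (2 / Real.pi) by field_simp]
      exact one_div_le_one_div_of_le h2 (by linarith [hn.1])
    have h4 : 0 ≤ invS x n := by
      unfold invS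
      have := hn.1
      positivity
    have h5 := abs_le.1 (hn2.trans hn3)
    rw [abs_le]
    constructor
    · linarith [h5.1]
    · linarith [h5.2, Real.pi_lt_d2]
  obtain ⟨n0, hn0⟩ := eventually_atTop.1 ((eventually_ge_atTop (max n1 N)).and <| e1.and <|
    e2.and <| e3.and <| e4.and <| hest.and <| hR.kw.and <| hR.k1.and <| hR.stat.and <|
    hR.dyn.and <| hR.mono.and <| h.fl.ev_one.and <| T3.two_pow h)
  have hy1 : ∀ n, n0 ≤ n → y n ^ (1 + c') ≤ 1 / 2 * y n ^ (1 + c2) := by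
    intro n hn
    obtain ⟨-, -, g2, -⟩ := hn0 n hn
    have h1 : y n ^ (1 + c') = y n ^ (c' - c2) * y n ^ (1 + c2) := by
      rw [← Real.rpow_add (hy n)]; congr 1; ring
    rw [h1]
    exact mul_le_mul_of_nonneg_right g2 (Real.rpow_nonneg (hy n).le _)
  have hy2 : ∀ n, n0 ≤ n → 4 * A0 * y n ^ 2 ≤ 1 / 2 * y n ^ (1 + c2) := by
    intro n hn
    obtain ⟨-, -, -, g3, -⟩ := hn0 n hn
    have h1 : y n ^ 2 = y n ^ (1 - c2) * y n ^ (1 + c2) := by
      rw [← Real.rpow_add (hy n), ← Real.rpow_two]; congr 1; ring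
    have hA := hR.A00
    have h2 : 4 * A0 * y n ^ (1 - c2) ≤ 1 / 2 := by
      have h3 : (4 * A0 + 1) * y n ^ (1 - c2) ≤ 1 / 2 := by
        have h4 := mul_le_mul_of_nonneg_left g3 (by positivity : (0 : ℝ) ≤ 4 * A0 + 1)
        have h5 : (4 * A0 + 1) * (1 / (2 * (4 * A0 + 1))) = 1 / 2 := by
          field_simp
        linarith
      have h4 : 0 ≤ y n ^ (1 - c2) := Real.rpow_nonneg (hy n).le _
      nlinarith
    have h5 : 0 ≤ y n ^ (1 + c2) := Real.rpow_nonneg (hy n).le _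
    calc 4 * A0 * y n ^ 2 = 4 * A0 * y n ^ (1 - c2) * y n ^ (1 + c2) := by rw [h1]; ring
      _ ≤ _ := mul_le_mul_of_nonneg_right h2 h5
  have hwf : ∀ n, n0 ≤ n → y n ^ (1 + c2) ≤ wF (fun n => y n ^ (1 + c2)) w n := by
    intro n hn
    have h1 := h.wn.w1 n (((le_max_right _ _).trans (hn0 n hn).1))
    refine single_le_sum (f := fun i => y i ^ (1 + c2)) (fun i _ => Real.rpow_nonneg (hy i).le _)
      (mem_Ico.2 ⟨le_rfl, ?_⟩)
    unfold nx; omega
  -- STAT
  have hstat : ∀ n N N' R : ℕ, n0 ≤ n → Adm y k w g T n0 n N → Adm y k w g T n0 n N' →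
      2 ^ kk k n ≤ R → R ≤ 2 ^ kk k (nx w n) →
      |E n N' R - E n N (2 ^ kk k n) -
        a n * (1 / (2 * Real.pi)) * (Real.log R - kk k n * Real.log 2)| ≤
        wF (fun n => y n ^ (1 + c2)) w n := by
    intro n N N' R hn hN hN' h1 h2
    obtain ⟨-, -, -, -, g4, -, -, g7, g8, -, -, -, g12⟩ := hn0 n hn
    have k1 := g8 N hN.1 N' hN'.1 (hN.2 n hn le_rfl).1 (hN'.2 n hn le_rfl).1 R h1 h2
    have hRp : 0 < R := Nat.lt_of_lt_of_le (Nat.two_pow_pos _) h1
    have hyn : 0 < y n := hy n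
    have hyn1 : y n ≤ 1 := (hn0 n hn).2.2.2.2.2.2.2.2.2.2.2.1
    have key : ∀ (N₁ R₁ : ℕ), Adm y k w g T n0 n N₁ → 2 ^ kk k n ≤ R₁ → R₁ ≤ 2 ^ kk k (nx w n) →
        |e N₁ R₁ - 1 / Real.pi * Real.log R₁ - κ0| ≤ 2 * A0 * y n ^ 2 := by
      intro N₁ R₁ hN₁ hR1 hR2
      have hR₁ : 0 < R₁ := Nat.lt_of_lt_of_le (Nat.two_pow_pos _) hR1
      have hR₁' : (0 : ℝ) < R₁ := by exact_mod_cast hR₁
      obtain ⟨-, k3⟩ := hN₁.2 n hn le_rfl
      have k2 : (R₁ : ℝ) ≤ y n ^ 4 * N₁ := by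
        refine le_trans ?_ k3
        exact_mod_cast hR2
      have hy4 : y n ^ 4 ≤ 1 := pow_le_one₀ hyn.le hyn1
      have hN0 : (0 : ℝ) < N₁ := by
        by_contra hcon
        have : (N₁ : ℝ) = 0 := le_antisymm (not_lt.1 hcon) (Nat.cast_nonneg _)
        rw [this, mul_zero] at k2
        linarith
      have k5 : R₁ ≤ N₁ := by
        have : (R₁ : ℝ) ≤ N₁ := k2.trans (by nlinarith)
        exact_mod_cast this
      refine (hR.ang N₁ hN₁.1 R₁ hR₁ k5).trans ?_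
      have k6 : √((R₁ : ℝ) / N₁) ≤ y n ^ 2 := by
        rw [Real.sqrt_le_left (by positivity)]
        rw [div_le_iff₀ hN0]
        calc (R₁ : ℝ) ≤ y n ^ 4 * N₁ := k2
          _ = (y n ^ 2) ^ 2 * N₁ := by ring
      have k7 : 1 / (R₁ : ℝ) ≤ y n ^ 2 := by
        refine le_trans ?_ g12
        refine one_div_le_one_div_of_le (by positivity) ?_
        have : 2 ^ n ≤ R₁ := (Nat.pow_le_pow_right (by norm_num) (Nat.le_add_right n (k n))).trans
          hR1
        exact_mod_cast this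
      have hA := hR.A00
      have := mul_le_mul_of_nonneg_left (add_le_add k7 k6) hA
      linarith
    have k2 := key N' R hN' h1 h2
    have k3 := key N (2 ^ kk k n) hN le_rfl (Nat.pow_le_pow_right (by norm_num) g7)
    rw [log_kk] at k3
    have k4 : E n N' R - E n N (2 ^ kk k n) -
        a n * (1 / (2 * Real.pi)) * (Real.log R - kk k n * Real.log 2) =
        (E n N' R - E n N (2 ^ kk k n) - a n / 2 * (e N' R - e N (2 ^ kk k n))) +
        a n / 2 * ((e N' R - 1 / Real.pi * Real.log R - κ0) -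
          (e N (2 ^ kk k n) - 1 / Real.pi * (kk k n * Real.log 2) - κ0)) := by
      field_simp
      ring
    rw [k4]
    refine (abs_add_le _ _).trans ?_
    have k5 : |a n / 2 * ((e N' R - 1 / Real.pi * Real.log R - κ0) -
          (e N (2 ^ kk k n) - 1 / Real.pi * (kk k n * Real.log 2) - κ0))| ≤
        4 * A0 * y n ^ 2 := by
      rw [abs_mul, abs_div, abs_two]
      have k6 := abs_sub (e N' R - 1 / Real.pi * Real.log R - κ0)
        (e N (2 ^ kk k n) - 1 / Real.pi * (kk k n * Real.log 2) - κ0)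
      have k7 : |a n| / 2 ≤ 1 := by linarith
      have k8 : |(e N' R - 1 / Real.pi * Real.log R - κ0) -
          (e N (2 ^ kk k n) - 1 / Real.pi * (kk k n * Real.log 2) - κ0)| ≤ 4 * A0 * y n ^ 2 := by
        linarith
      calc _ ≤ 1 * |(e N' R - 1 / Real.pi * Real.log R - κ0) -
          (e N (2 ^ kk k n) - 1 / Real.pi * (kk k n * Real.log 2) - κ0)| :=
            mul_le_mul_of_nonneg_right k7 (abs_nonneg _)
        _ ≤ _ := by rw [one_mul]; exact k8
    have k6 := hy1 n hn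
    have k7 := hy2 n hn
    have k8 := hwf n hn
    linarith
  have hSB : SB a (invS x) (fun n => y n ^ (1 + c2)) k w (Adm y k w g T n0) n0 :=
    { w1 := fun n hn => h.wn.w1 n ((le_max_right _ _).trans (hn0 n hn).1)
      k1 := fun n hn => (hn0 n hn).2.2.2.2.2.2.2.1
      f0 := fun n => Real.rpow_nonneg (hy n).le _
      Gm := fun n m N _ hnm hG => hG.mono hnm
      win := by
        intro n hn
        obtain ⟨-, g1, -, -, -, g5, g6, -⟩ := hn0 n hn
        have k1 := g5.1 (nx w n) (le_nx n) (by unfold nx; omega)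
        have k2 := g5.2
        have k3 : (k (nx w n) : ℝ) ≤ 3 * w n := by exact_mod_cast g6
        have hyp : 0 ≤ y n ^ (1 + m0 / 2) := Real.rpow_nonneg (hy n).le _
        have hw0 : (0 : ℝ) ≤ w n := Nat.cast_nonneg _
        have k4 : lp * |∑ i ∈ Ico n (nx w n), (a n - invS x i)| ≤
            lp * (20 * (w n * y n ^ (1 + m0 / 2))) := mul_le_mul_of_nonneg_left k1 hlp.le
        have k5 : |a (nx w n) - a n| * (k (nx w n) * lp) ≤
            8 * y n ^ (1 + m0 / 2) * (3 * w n * lp) :=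
          mul_le_mul k2 (mul_le_mul_of_nonneg_right k3 hlp.le) (by positivity) (by positivity)
        have k6 : y n ^ (1 + m0 / 2) = y n ^ (m0 / 4) * y n ^ (1 + c2) := by
          rw [← Real.rpow_add (hy n)]; congr 1; rw [hc2]; ring
        have k7 : 44 * lp * (w n * y n ^ (m0 / 4)) ≤ 1 := by
          rw [le_div_iff₀ (by positivity)] at g1
          nlinarith
        have k8 : 0 ≤ y n ^ (1 + c2) := Real.rpow_nonneg (hy n).le _
        have k9 := mul_le_mul_of_nonneg_right k7 k8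
        have k10 := hwf n hn
        have k11 : lp * (20 * (w n * y n ^ (1 + m0 / 2))) +
            8 * y n ^ (1 + m0 / 2) * (3 * w n * lp) =
            44 * lp * (w n * y n ^ (m0 / 4)) * y n ^ (1 + c2) := by rw [k6]; ring
        linarith }
  refine ⟨n0, (le_max_left _ _).trans (hn0 n0 le_rfl).1, ⟨hSB, ?_, ?_⟩, ⟨hSB, ?_, ?_⟩, ?_⟩
  · intro n N N' R hn hN hN' h1 h2
    have := (abs_le.1 (hstat n N N' R hn hN hN' h1 h2)).2
    linarith
  · intro n N hn _
    have : ∀ m, n ≤ m → E m N (2 ^ kk k (nx w n)) ≤ E n N (2 ^ kk k (nx w n)) := by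
      intro m hm
      induction m, hm using Nat.le_induction with
      | base => exact le_rfl
      | succ m hm ih =>
        exact ((hn0 m (hn.trans hm)).2.2.2.2.2.2.2.2.2.2.1 N _).trans ih
    linarith [this (nx w n) (le_nx n)]
  · intro n N N' R hn hN hN' h1 h2
    have := (abs_le.1 (hstat n N N' R hn hN hN' h1 h2)).1
    linarith
  · intro n N R hn hN hR1 hR2
    have k1 := (hn0 n hn).2.2.2.2.2.2.2.2.2.1 N hN.1 (hN.2 n hn le_rfl).1 R hR1 hR2
    have k6 := hy1 n hn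
    have k8 := hwf n hn
    have k9 : 0 ≤ y n ^ (1 + c2) := Real.rpow_nonneg (hy n).le _
    linarith
  · intro n N R hn
    exact (hn0 n hn).2.2.2.2.2.2.2.2.2.2.1 N R

/-- the top of the scheme: relation of `E` at high levels with `log C(R)` -/
structure Top (E : ℕ → ℕ → ℕ → ℝ) (L y t : ℕ → ℝ) (k w g : ℕ → ℕ) (T : Set ℕ) (n1 : ℕ) : Prop where
  low : ∀ᶠ R in atTop, ∀ N0 : ℕ, ∃ N ∈ T, N0 ≤ N ∧ ∀ n, n1 ≤ n → -L R ≤ E n N R + t R
  up : ∀ᶠ R in atTop, ∃ N ∈ T, ∃ m : ℕ, (∀ n, 2 ^ kk k n ≤ R → n ≤ m) ∧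
    (∀ i, n1 ≤ i → i ≤ m → g i ≤ N ∧ (2 : ℝ) ^ kk k (nx w i) ≤ y i ^ 4 * N) ∧
    E m N R - t R ≤ -L R

/-- **(S) in the convergent form** from (V), (P), (STAT), (DYN), (TOP) -/
theorem S_conv (h : T3 x y kap c r q B A w N) (hR : Raw E e a x y k w g T c' κ0 A0)
    (ht : Tendsto t atTop (𝓝 0)) {n1 : ℕ} (hT : Top E L y t k w g T n1) :
    ∃ l : ℝ, Tendsto (fun R => L R + mt (invS x) R) atTop (𝓝 l) := by
  obtain ⟨R1, hR1⟩ := eventually_atTop.1 (hT.low.and hT.up)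
  obtain ⟨c2, hc2, n0, hn0, hl, hu, hm⟩ := hR.build h (max n1 R1)
  have hle : ∀ n R : ℕ, n0 ≤ n → 2 ^ kk k n ≤ R → R1 ≤ R := by
    intro n R hn hRn
    have h1 : n < 2 ^ n := Nat.lt_two_pow_self
    have h2 : 2 ^ n ≤ 2 ^ kk k n := Nat.pow_le_pow_right (by norm_num) (Nat.le_add_right _ _)
    have h3 := le_max_right n1 R1
    omega
  refine conv hl hu (fun n _ => ?_) hm (fun n R hn h1 h2 => ?_) (fun n R hn h1 h2 => ?_)
    (h.summ (by linarith)) ?_ ht
  · obtain ⟨N0, hN0⟩ := adm_large (k := k) (w := w) (g := g) (T := T) h.fl.y0 n0 n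
    obtain ⟨N, hN, hNN⟩ := hR.T_unb N0
    exact ⟨N, hN0 N hN hNN⟩
  · obtain ⟨N0, hN0⟩ := adm_large (k := k) (w := w) (g := g) (T := T) h.fl.y0 n0 n
    obtain ⟨N, hN, hNN, hL⟩ := (hR1 R (hle n R hn h1)).1 N0
    exact ⟨N, hN0 N hN hNN, hL n ((le_max_left _ _).trans (hn0.trans hn))⟩
  · obtain ⟨N, hN, m, hm1, hm2, hL⟩ := (hR1 R (hle n R hn h1)).2
    exact ⟨N, m, hm1 n h1, ⟨hN, fun i hi him =>
      hm2 i ((le_max_left _ _).trans (hn0.trans hi)) him⟩, hL⟩
  · intro ε hε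
    have hc' := hR.c0
    have hr1 := h.r1
    set c1 : ℝ := min c' ((r - 1) / 2) with hc1
    have hc1p : 0 < c1 := lt_min hc' (by linarith)
    have hest := Raw.est h hR (c1 := c1) hc1p (min_le_left _ _)
      (by have := min_le_right c' ((r - 1) / 2); linarith)
    have hlp := lp_pos
    have e1 := h.fl.ev_w h.wn (b := 1 + c1) (e := ε / (10 * lp)) (by positivity) (by positivity)
    -- `a n / 2π → 1/4`
    have e2 : ∀ᶠ n in atTop, |a n * (1 / (2 * Real.pi)) - 1 / 4| * Real.log 2 ≤ ε / 2 := by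
      have hx := h.fl.xt
      have h2 : (2 / Real.pi + 0 : ℝ) ≠ 0 := by
        have := Real.pi_pos; positivity
      have h3 : Tendsto (invS x) atTop (𝓝 (1 / (2 / Real.pi + 0))) := by
        refine Tendsto.div tendsto_const_nhds (tendsto_const_nhds.add hx) h2
      have h4 : Tendsto (fun n => a n - invS x n) atTop (𝓝 0) := by
        have h5 : Tendsto (fun n => y n ^ (1 + c')) atTop (𝓝 0) := by
          have := h.fl.yt.rpow_const (p := 1 + c') (Or.inr (by linarith))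
          rwa [Real.zero_rpow (by linarith)] at this
        exact squeeze_zero_norm' (by filter_upwards [hR.av] with n hn using hn) h5
      have h5 := h4.add h3
      simp only [sub_add_cancel, zero_add, add_zero, one_div_div] at h5
      have h6 := ((h5.mul_const (1 / (2 * Real.pi))).sub_const (1 / 4)).abs.mul_const (Real.log 2)
      have h7 : |Real.pi / 2 * (1 / (2 * Real.pi)) - 1 / 4| * Real.log 2 = 0 := by
        have : Real.pi / 2 * (1 / (2 * Real.pi)) - 1 / 4 = 0 := by field_simp; norm_num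
        rw [this, abs_zero, zero_mul]
      rw [h7] at h6
      filter_upwards [h6.eventually (gt_mem_nhds (show (0 : ℝ) < ε / 2 by positivity))]
        with n hn using hn.le
    filter_upwards [hest, e1, e2, hR.kw] with n g1 g2 g3 g4 l hl1 hl2
    unfold ve
    have k1 := g1.1 l hl1 (by unfold kk nx at hl2; unfold nx at g4; omega)
    have k2 := mul_le_mul_of_nonneg_left k1 hlp.le
    have k3 : lp * (20 * (w n * y n ^ (1 + c1))) ≤ ε / 2 := by
      rw [le_div_iff₀ (by positivity)] at g2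
      linarith
    linarith

/-- **THE AMPLITUDE THEOREM**: (V), (P) of `T3`, and (STAT), (DYN), (TOP) give
`C(R) / (R^{-1/4} (log R)^{1/8}) → a > 0`. -/
theorem amp (h : T3 x y kap c r q B A w N) (hR : Raw E e a x y k w g T c' κ0 A0) {C : ℕ → ℝ}
    (hC : ∀ᶠ R in atTop, 0 < C R) (ht : Tendsto t atTop (𝓝 0)) {n1 : ℕ}
    (hT : Top E (fun R => Real.log (C R)) y t k w g T n1) :
    ∃ a : ℝ, 0 < a ∧ Tendsto (fun R : ℕ => C R / ((R : ℝ) ^ (-(1 / 4) : ℝ) *
      Real.log R ^ (1 / 8 : ℝ))) atTop (𝓝 a) := by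
  obtain ⟨l, hl⟩ := S_conv h hR ht hT
  refine h.amp (p := x) (by simp) hC (c' := l) (hl.congr fun R => ?_)
  unfold mt lp invS
  ring

end

end Vale.Agent.P159.H552.Dx7
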