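import Vale.Agent.P159.H552.Dx7d

/-!
P159 / module DX7 (helper552), part e: **level free form** (helper686): for a fixed family of tori
the numbers `c R = C_{N(R)}(R)` themselves satisfy, in the window of level `n`,
`log c R - log c R₀ = -(a n / 2)(e R - e R₀) + O(y^{1+c'})`.
No level functional, no dynamic step. Also the soft (rate free) form: regular variation.
-/

open Filter Topology Finset

namespace Vale.Agent.P159.H552.Dx7

open Vale.Agent.P159.H801 (itw itw_zero itw_succ itw_ge itw_tend tend_of_inc Fl Wn T3 rp_cmp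
  exp_one_le)
open Vale.Agent.P159.H264 (kap)

noncomputable section

/-- raw inputs, level free form -/
structure RawC (L e a x y : ℕ → ℝ) (k w : ℕ → ℕ) (c' C0 : ℝ) : Prop where
  c0 : 0 < c'
  kw : ∀ᶠ n in atTop, k (nx w n) ≤ 3 * w n
  k1 : ∀ᶠ n in atTop, kk k n ≤ kk k (nx w n)
  av : ∀ᶠ n in atTop, |a n - invS x n| ≤ y n ^ (1 + c')
  en : ∀ᶠ R : ℕ in atTop, |e R - 1 / Real.pi * Real.log R| ≤ C0
  stat : ∀ᶠ n in atTop, ∀ R : ℕ, 2 ^ kk k n ≤ R → R ≤ 2 ^ kk k (nx w n) →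
    |L R - L (2 ^ kk k n) + a n / 2 * (e R - e (2 ^ kk k n))| ≤ y n ^ (1 + c')

variable {L e a x y : ℕ → ℝ} {k w : ℕ → ℕ} {c' C0 c r q B A₁ κ₁ : ℝ} {N : ℕ}

theorem RawC.rawF (h : RawC L e a x y k w c' C0) (hy : ∀ n, 0 < y n) :
    RawF (fun _ R => -L R) e a x y L (fun _ => 0) k w c' C0 where
  c0 := h.c0
  kw := h.kw
  k1 := h.k1
  av := h.av
  en := h.en
  stat := by
    filter_upwards [h.stat] with n hn R h1 h2
    have h3 := hn R h1 h2
    rw [← abs_neg] at h3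
    refine le_of_eq_of_le ?_ h3
    congr 1
    ring
  dyn := by
    refine Eventually.of_forall fun n => ?_
    rw [sub_self, abs_zero]
    exact Real.rpow_nonneg (hy n).le _
  top := by
    refine Eventually.of_forall fun n R _ _ => ?_
    rw [neg_add_cancel, abs_zero]
  t0 := tendsto_const_nhds

/-- **(S), level free form** -/
theorem S_convC (h : T3 x y kap c r q B A₁ w N) (hR : RawC L e a x y k w c' C0) :
    ∃ l : ℝ, Tendsto (fun R => L R + mF e (invS x) R) atTop (𝓝 l) :=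
  S_convF h (hR.rawF h.fl.y0)

/-- **(S), level free form, dyadic** -/
theorem S_dyadicC (h : T3 x y kap c r q B A₁ w N) (hR : RawC L e a x y k w c' C0)
    (hκ : Tendsto (fun m : ℕ => e (2 ^ m) - 1 / Real.pi * (m * Real.log 2)) atTop (𝓝 κ₁)) :
    ∃ l : ℝ, Tendsto (fun m : ℕ => L (2 ^ m) + lp * ∑ i ∈ range m, invS x i) atTop (𝓝 l) :=
  S_dyadic h (hR.rawF h.fl.y0) hκ

/-! ### halves with general errors -/

variable {f A : ℕ → ℝ} {n0 : ℕ}

/-- lower bounds of the correlation -/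
structure CL (L e a A f : ℕ → ℝ) (k w : ℕ → ℕ) (C0 : ℝ) (n0 : ℕ) : Prop where
  w1 : ∀ n, n0 ≤ n → 1 ≤ w n
  k1 : ∀ n, n0 ≤ n → kk k n ≤ kk k (nx w n)
  f0 : ∀ n, 0 ≤ f n
  en : ∀ R : ℕ, 2 ^ kk k n0 ≤ R → |e R - 1 / Real.pi * Real.log R| ≤ C0
  win : ∀ n, n0 ≤ n → lp * |∑ i ∈ Ico n (nx w n), (a n - A i)| +
    |a (nx w n) - a n| * (k (nx w n) * lp + C0) ≤ wF f w n
  stat : ∀ n R : ℕ, n0 ≤ n → 2 ^ kk k n ≤ R → R ≤ 2 ^ kk k (nx w n) →
    -(a n / 2 * (e R - e (2 ^ kk k n))) - wF f w n ≤ L R - L (2 ^ kk k n)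

/-- upper bounds of the correlation -/
structure CU (L e a A f : ℕ → ℝ) (k w : ℕ → ℕ) (C0 : ℝ) (n0 : ℕ) : Prop where
  w1 : ∀ n, n0 ≤ n → 1 ≤ w n
  k1 : ∀ n, n0 ≤ n → kk k n ≤ kk k (nx w n)
  f0 : ∀ n, 0 ≤ f n
  en : ∀ R : ℕ, 2 ^ kk k n0 ≤ R → |e R - 1 / Real.pi * Real.log R| ≤ C0
  win : ∀ n, n0 ≤ n → lp * |∑ i ∈ Ico n (nx w n), (a n - A i)| +
    |a (nx w n) - a n| * (k (nx w n) * lp + C0) ≤ wF f w n
  stat : ∀ n R : ℕ, n0 ≤ n → 2 ^ kk k n ≤ R → R ≤ 2 ^ kk k (nx w n) →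
    L R - L (2 ^ kk k n) ≤ -(a n / 2 * (e R - e (2 ^ kk k n))) + wF f w n

theorem CL.fl (h : CL L e a A f k w C0 n0) : FL (fun _ R => -L R) e a A f k w C0 n0 where
  w1 := h.w1
  k1 := h.k1
  f0 := h.f0
  en := h.en
  win := h.win
  stat n R hn h1 h2 := by linarith [h.stat n R hn h1 h2]
  step n hn := by rw [sub_self]; exact wF_nonneg h.f0 n

theorem CU.fu (h : CU L e a A f k w C0 n0) : FU (fun _ R => -L R) e a A f k w C0 n0 where
  w1 := h.w1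
  k1 := h.k1
  f0 := h.f0
  en := h.en
  win := h.win
  stat n R hn h1 h2 := by linarith [h.stat n R hn h1 h2]
  step n hn := by rw [sub_self]; linarith [wF_nonneg (w := w) h.f0 n]

/-- **(S_low), level free, bounded form**: `L R ≥ -mF - 3 g - K` -/
theorem CL.bdd (h : CL L e a A f k w C0 n0) {V : ℝ} {g : ℕ → ℝ}
    (hV : ∀ n l, n0 ≤ n → n ≤ l → l ≤ kk k (nx w n) → vF a A C0 n l ≤ V)
    (hg : ∀ n l, n0 ≤ n → kk k n ≤ l → ∑ i ∈ Ico n0 (nx w n), f i ≤ g l) :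
    ∃ K : ℝ, ∀ R : ℕ, 2 ^ kk k n0 ≤ R → -mF e A R - 3 * g (Nat.log 2 R) - K ≤ L R :=
  h.fl.bdd (L := L) (t := fun _ => 0) (V := max V 0) (fun n R _ _ _ => by simp)
    (fun n l h1 h2 h3 => (hV n l h1 h2 h3).trans (le_max_left _ _))
    (fun R _ => le_max_right _ _) hg

/-- **(S_up), level free, bounded form**: `L R ≤ -mF + 3 g + K` -/
theorem CU.bdd (h : CU L e a A f k w C0 n0) {V : ℝ} {g : ℕ → ℝ}
    (hV : ∀ n l, n0 ≤ n → n ≤ l → l ≤ kk k (nx w n) → vF a A C0 n l ≤ V)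
    (hg : ∀ n l, n0 ≤ n → kk k n ≤ l → ∑ i ∈ Ico n0 (nx w n), f i ≤ g l) :
    ∃ K : ℝ, ∀ R : ℕ, 2 ^ kk k n0 ≤ R → L R ≤ -mF e A R + 3 * g (Nat.log 2 R) + K :=
  h.fu.bdd (L := L) (t := fun _ => 0) (V := max V 0) (fun n R _ _ _ => by simp)
    (fun n l h1 h2 h3 => (hV n l h1 h2 h3).trans (le_max_left _ _))
    (fun R _ => le_max_right _ _) hg

/-! ### soft form: regular variation -/

/-- **soft (S)**: at one level with `a n → π/2` and errors `o(1)` (no rate, no V, no P):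
`log c R' - log c R = -(π/4)(e R' - e R) + o(1)` for `R, R'` in the window of `n`. -/
theorem soft {n : ℕ} {η : ℝ} {P : ℕ → Prop} {R₀ R R' : ℕ}
    (hst : ∀ R, P R → |L R - L R₀ + a n / 2 * (e R - e R₀)| ≤ η)
    (ha : |a n - Real.pi / 2| ≤ η) (hR : P R) (hR' : P R') {C1 : ℝ}
    (he : |e R' - e R| ≤ C1) :
    |L R' - L R + Real.pi / 4 * (e R' - e R)| ≤ 2 * η + η / 2 * C1 := by
  have h1 := hst R hR
  have h2 := hst R' hR'
  have h3 : L R' - L R + Real.pi / 4 * (e R' - e R) =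
      (L R' - L R₀ + a n / 2 * (e R' - e R₀)) - (L R - L R₀ + a n / 2 * (e R - e R₀)) -
        (a n - Real.pi / 2) / 2 * (e R' - e R) := by ring
  rw [h3]
  have h4 := abs_sub ((L R' - L R₀ + a n / 2 * (e R' - e R₀)) -
    (L R - L R₀ + a n / 2 * (e R - e R₀))) ((a n - Real.pi / 2) / 2 * (e R' - e R))
  have h5 := abs_sub (L R' - L R₀ + a n / 2 * (e R' - e R₀))
    (L R - L R₀ + a n / 2 * (e R - e R₀))
  have h6 : |(a n - Real.pi / 2) / 2 * (e R' - e R)| ≤ η / 2 * C1 := by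
    rw [abs_mul, abs_div, abs_two]
    exact mul_le_mul (by linarith) he (abs_nonneg _) (by linarith [abs_nonneg (a n - Real.pi / 2)])
  linarith

end

end Vale.Agent.P159.H552.Dx7
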