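import Vale.Agent.P159.H552.Dx7e

/-!
P159 / module DX7 (helper552), part f: **the relation only at the levels of ONE chain**
`n_j = itw w n0 j` (helper773, helper686).  `FC` / `FC.main`: the finite statement (levels `j < J`),
with every error explicit; `RawCc` / `S_convCc`, `S_dyadicCc`: the convergent form.
-/

open Filter Topology Finset

namespace Vale.Agent.P159.H552.Dx7

open Vale.Agent.P159.H801 (itw itw_zero itw_succ itw_ge itw_tend tend_of_inc Fl Wn T3 rp_cmp
  exp_one_le)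
open Vale.Agent.P159.H264 (kap)

noncomputable section

/-- error of the change of level, window of `n` -/
def Wc (a A : ℕ → ℝ) (k w : ℕ → ℕ) (C0 : ℝ) (n : ℕ) : ℝ :=
  lp * |∑ i ∈ Ico n (nx w n), (a n - A i)| + |a (nx w n) - a n| * (k (nx w n) * lp + C0)

/-- the relation at the levels `n_j = itw w n0 j`, `j < J`, error `F j` -/
structure FC (L e a F : ℕ → ℝ) (k w : ℕ → ℕ) (C0 : ℝ) (n0 J : ℕ) : Prop where
  k1 : ∀ j, j < J → kk k (itw w n0 j) ≤ kk k (nx w (itw w n0 j))
  en : ∀ R : ℕ, 2 ^ kk k n0 ≤ R → |e R - 1 / Real.pi * Real.log R| ≤ C0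
  stat : ∀ j R : ℕ, j < J → 2 ^ kk k (itw w n0 j) ≤ R → R ≤ 2 ^ kk k (nx w (itw w n0 j)) →
    |L R - L (2 ^ kk k (itw w n0 j)) + a (itw w n0 j) / 2 * (e R - e (2 ^ kk k (itw w n0 j)))| ≤ F j

variable {L e a A F : ℕ → ℝ} {k w : ℕ → ℕ} {C0 : ℝ} {n0 J : ℕ}

/-- the renormalised energy, level free -/
def bC (L e a A : ℕ → ℝ) (k : ℕ → ℕ) (n : ℕ) : ℝ := bF (fun _ R => -L R) e a A k n

lemma nx_itw (j : ℕ) : nx w (itw w n0 j) = itw w n0 (j + 1) := (itw_succ w n0 j).symm

lemma itw_add (i j : ℕ) : itw w (itw w n0 i) j = itw w n0 (i + j) := by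
  induction j with
  | zero => rw [itw_zero, add_zero]
  | succ j ih => rw [itw_succ, ih, ← add_assoc, itw_succ]

lemma FC.mono_kk (h : FC L e a F k w C0 n0 J) {i j : ℕ} (hij : i ≤ j) (hj : j ≤ J) :
    kk k (itw w n0 i) ≤ kk k (itw w n0 j) := by
  induction j, hij using Nat.le_induction with
  | base => exact le_rfl
  | succ j _ ih =>
    refine (ih (by omega)).trans ?_
    rw [← nx_itw]
    exact h.k1 j (by omega)

lemma FC.base (h : FC L e a F k w C0 n0 J) {j : ℕ} (hj : j ≤ J) :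
    kk k n0 ≤ kk k (itw w n0 j) := by
  have := h.mono_kk (Nat.zero_le j) hj
  rwa [itw_zero] at this

lemma FC.F0 (h : FC L e a F k w C0 n0 J) {j : ℕ} (hj : j < J) : 0 ≤ F j :=
  (abs_nonneg _).trans (h.stat j _ hj le_rfl (Nat.pow_le_pow_right (by norm_num) (h.k1 j hj)))

lemma Wc_nonneg (hC : 0 ≤ C0) (n : ℕ) : 0 ≤ Wc a A k w C0 n := by
  have := lp_pos
  unfold Wc
  positivity

lemma FC.C0' (h : FC L e a F k w C0 n0 J) : 0 ≤ C0 := (abs_nonneg _).trans (h.en _ le_rfl)

theorem FC.b_step (h : FC L e a F k w C0 n0 J) {j : ℕ} (hj : j < J) :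
    |bC L e a A k (itw w n0 (j + 1)) - bC L e a A k (itw w n0 j)| ≤
      F j + Wc a A k w C0 (itw w n0 j) := by
  have hk : kk k n0 ≤ kk k (nx w (itw w n0 j)) := by
    rw [nx_itw]; exact h.base (by omega)
  have h2 := h.stat j (2 ^ kk k (nx w (itw w n0 j))) hj
    (Nat.pow_le_pow_right (by norm_num) (h.k1 j hj)) le_rfl
  have h3 := drift (a := a) h.en hk
  have h6 := bF_step (E := fun _ R => -L R) (e := e) (a := a) (A := A) (k := k) (w := w)
    (itw w n0 j)
  rw [← nx_itw]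
  unfold bC
  rw [h6]
  set n := itw w n0 j
  have e1 : (fun _ R => -L R : ℕ → ℕ → ℝ) (nx w n) (2 ^ kk k (nx w n)) -
      (fun _ R => -L R : ℕ → ℕ → ℝ) n (2 ^ kk k (nx w n)) = 0 := by simp
  rw [e1, zero_add]
  have h7 : |(fun _ R => -L R : ℕ → ℕ → ℝ) n (2 ^ kk k (nx w n)) -
      (fun _ R => -L R : ℕ → ℕ → ℝ) n (2 ^ kk k n) -
      a n / 2 * (e (2 ^ kk k (nx w n)) - e (2 ^ kk k n))| ≤ F j := by
    rw [← abs_neg]
    refine le_of_eq_of_le ?_ h2
    congr 1
    simp only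
    ring
  have h8 : |lp * ∑ i ∈ Ico n (nx w n), (a n - A i)| =
      lp * |∑ i ∈ Ico n (nx w n), (a n - A i)| := by
    rw [abs_mul, abs_of_pos lp_pos]
  have h9 := abs_add_le ((fun _ R => -L R : ℕ → ℕ → ℝ) n (2 ^ kk k (nx w n)) -
      (fun _ R => -L R : ℕ → ℕ → ℝ) n (2 ^ kk k n) -
      a n / 2 * (e (2 ^ kk k (nx w n)) - e (2 ^ kk k n)) -
      (a (nx w n) - a n) / 2 * (e (2 ^ kk k (nx w n)) - 1 / Real.pi * (nx w n * Real.log 2)))
    (lp * ∑ i ∈ Ico n (nx w n), (a n - A i))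
  have h10 := abs_sub ((fun _ R => -L R : ℕ → ℕ → ℝ) n (2 ^ kk k (nx w n)) -
      (fun _ R => -L R : ℕ → ℕ → ℝ) n (2 ^ kk k n) -
      a n / 2 * (e (2 ^ kk k (nx w n)) - e (2 ^ kk k n)))
      ((a (nx w n) - a n) / 2 * (e (2 ^ kk k (nx w n)) - 1 / Real.pi * (nx w n * Real.log 2)))
  unfold Wc
  linarith

theorem FC.b_chain (h : FC L e a F k w C0 n0 J) {j : ℕ} (hj : j ≤ J) :
    |bC L e a A k (itw w n0 j) - bC L e a A k n0| ≤
      ∑ i ∈ range j, (F i + Wc a A k w C0 (itw w n0 i)) := by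
  induction j with
  | zero => simp [itw_zero]
  | succ j ih =>
    have h1 := ih (by omega)
    have h2 := h.b_step (A := A) (j := j) (by omega)
    rw [sum_range_succ]
    have h3 := abs_add_le (bC L e a A k (itw w n0 (j + 1)) - bC L e a A k (itw w n0 j))
      (bC L e a A k (itw w n0 j) - bC L e a A k n0)
    rw [sub_add_sub_cancel] at h3
    linarith

theorem FC.win (h : FC L e a F k w C0 n0 J) {j R : ℕ} (hj : j < J)
    (h1 : 2 ^ kk k (itw w n0 j) ≤ R) (h2 : R ≤ 2 ^ kk k (nx w (itw w n0 j))) :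
    |L R + mF e A R + bC L e a A k (itw w n0 j)| ≤
      F j + vF a A C0 (itw w n0 j) (Nat.log 2 R) := by
  have hR0 : 2 ^ kk k n0 ≤ R := (Nat.pow_le_pow_right (by norm_num) (h.base hj.le)).trans h1
  have hl : itw w n0 j ≤ Nat.log 2 R := by
    refine (Nat.le_add_right (itw w n0 j) (k (itw w n0 j))).trans ?_
    exact Nat.le_log_of_pow_le (by norm_num) h1
  have k1 := h.stat j R hj h1 h2
  have k2 := mF_cmp (A := A) (a := a) h.en hR0 hl
  set n := itw w n0 j
  have e1 : L R + mF e A R + bC L e a A k n =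
      (L R - L (2 ^ kk k n) + a n / 2 * (e R - e (2 ^ kk k n))) +
      (mF e A R - (lp * ∑ i ∈ range n, A i + a n / 2 * (e R - 1 / Real.pi * (n * Real.log 2)))) := by
    unfold bC bF
    ring
  rw [e1]
  exact (abs_add_le _ _).trans (add_le_add k1 k2)

/-- **the finite statement**: from the relation at the levels `j < J` of a chain -/
theorem FC.main (h : FC L e a F k w C0 n0 J) {j R : ℕ} (hj : j < J)
    (h1 : 2 ^ kk k (itw w n0 j) ≤ R) (h2 : R ≤ 2 ^ kk k (nx w (itw w n0 j))) :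
    |L R + mF e A R + bC L e a A k n0| ≤
      ∑ i ∈ range (j + 1), (F i + Wc a A k w C0 (itw w n0 i)) +
        vF a A C0 (itw w n0 j) (Nat.log 2 R) := by
  have k1 := h.win (A := A) hj h1 h2
  have k2 := h.b_chain (A := A) hj.le
  have k3 := Wc_nonneg (a := a) (A := A) (k := k) (w := w) h.C0' (itw w n0 j)
  rw [sum_range_succ]
  have e1 : L R + mF e A R + bC L e a A k n0 = (L R + mF e A R + bC L e a A k (itw w n0 j)) -
      (bC L e a A k (itw w n0 j) - bC L e a A k n0) := by ring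
  rw [e1]
  have k4 := abs_sub (L R + mF e A R + bC L e a A k (itw w n0 j))
    (bC L e a A k (itw w n0 j) - bC L e a A k n0)
  linarith

/-- every distance between the base of the chain and the end of the window `J - 1` -/
theorem FC.all (h : FC L e a F k w C0 n0 J) {R : ℕ} (hR : 2 ^ kk k n0 ≤ R)
    (hR2 : R < 2 ^ kk k (itw w n0 J)) :
    ∃ j, j < J ∧ 2 ^ kk k (itw w n0 j) ≤ R ∧ R ≤ 2 ^ kk k (nx w (itw w n0 j)) ∧
      |L R + mF e A R + bC L e a A k n0| ≤
        ∑ i ∈ range (j + 1), (F i + Wc a A k w C0 (itw w n0 i)) +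
          vF a A C0 (itw w n0 j) (Nat.log 2 R) := by
  have key : ∃ j, j < J ∧ 2 ^ kk k (itw w n0 j) ≤ R ∧ R ≤ 2 ^ kk k (nx w (itw w n0 j)) := by
    by_contra hcon
    push Not at hcon
    have key : ∀ j, j ≤ J → 2 ^ kk k (itw w n0 j) ≤ R := by
      intro j
      induction j with
      | zero => exact fun _ => hR
      | succ j ih =>
        intro hj
        rw [← nx_itw]
        exact (hcon j (by omega) (ih (by omega))).le
    exact absurd (key J le_rfl) (not_le.2 hR2)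
  obtain ⟨j, hj, h1, h2⟩ := key
  exact ⟨j, hj, h1, h2, h.main hj h1 h2⟩

/-- **convergence from one chain** -/
theorem convC (h : ∀ J, FC L e a F k w C0 n0 J) (w1 : ∀ n, n0 ≤ n → 1 ≤ w n)
    (hs : Summable fun j => F j + Wc a A k w C0 (itw w n0 j))
    (hve : ∀ ε : ℝ, 0 < ε → ∀ᶠ j in atTop, ∀ l, itw w n0 j ≤ l →
      l ≤ kk k (nx w (itw w n0 j)) → vF a A C0 (itw w n0 j) l ≤ ε) :
    ∃ c' : ℝ, Tendsto (fun R => L R + mF e A R) atTop (𝓝 c') := by
  classical
  set b : ℕ → ℝ := fun j => bC L e a A k (itw w n0 j) with hb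
  obtain ⟨β, hβ⟩ := tend_of_inc (g := b) hs (Eventually.of_forall fun j =>
    (h (j + 1)).b_step (Nat.lt_succ_self j))
  have hJ : ∀ r : ℕ, 2 ^ kk k n0 ≤ r → ∃ j, 2 ^ kk k (itw w n0 j) ≤ r ∧
      r ≤ 2 ^ kk k (nx w (itw w n0 j)) := fun r hr => exists_winF w1 hr
  choose! j hj1 hj2 using hJ
  have hkmono : Monotone fun j => kk k (itw w n0 j) :=
    monotone_nat_of_le_succ fun j => (h (j + 1)).mono_kk (Nat.le_succ j) le_rfl
  have hJt : Tendsto j atTop atTop := by
    rw [tendsto_atTop]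
    intro i
    filter_upwards [eventually_ge_atTop (2 ^ kk k n0),
      eventually_gt_atTop (2 ^ kk k (itw w n0 i))] with r hr hr2
    by_contra hcon
    push Not at hcon
    have h1 := hj2 r hr
    rw [nx_itw] at h1
    have h4 : 2 ^ kk k (itw w n0 (j r + 1)) ≤ 2 ^ kk k (itw w n0 i) :=
      Nat.pow_le_pow_right (by norm_num) (hkmono (by omega : j r + 1 ≤ i))
    omega
  refine ⟨-β, ?_⟩
  rw [Metric.tendsto_atTop]
  intro ε hε
  have e1 : ∀ᶠ r in atTop, |b (j r) - β| ≤ ε / 8 := by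
    obtain ⟨R, hR⟩ := (Metric.tendsto_atTop.1 (hβ.comp hJt)) (ε / 8) (by positivity)
    filter_upwards [eventually_ge_atTop R] with r hr
    have := hR r hr
    rw [Real.dist_eq] at this
    exact this.le
  have e2 : ∀ᶠ r in atTop, F (j r) ≤ ε / 8 := by
    have h1 := (hs.tendsto_atTop_zero.comp hJt).eventually
      (gt_mem_nhds (show (0 : ℝ) < ε / 8 by positivity))
    filter_upwards [h1] with r hr
    have h2 := Wc_nonneg (a := a) (A := A) (k := k) (w := w) (h 0).C0' (itw w n0 (j r))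
    simp only [Function.comp] at hr
    linarith
  have e3 := hJt.eventually (hve (ε / 8) (by positivity))
  have hfin : ∀ᶠ r in atTop, |L r + mF e A r - -β| < ε := by
    filter_upwards [e1, e2, e3, eventually_ge_atTop (2 ^ kk k n0)] with r h1 h2 h3 hr
    have g1 := hj1 r hr
    have g2 := hj2 r hr
    have k1 := (h (j r + 1)).win (A := A) (Nat.lt_succ_self _) g1 g2
    have hl1 : itw w n0 (j r) ≤ Nat.log 2 r :=
      (Nat.le_add_right (itw w n0 (j r)) (k (itw w n0 (j r)))).trans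
      (Nat.le_log_of_pow_le (by norm_num) g1)
    have hl2 : Nat.log 2 r ≤ kk k (nx w (itw w n0 (j r))) := by
      have := Nat.log_mono_right (b := 2) g2
      rwa [Nat.log_pow (by norm_num)] at this
    have k5 := h3 _ hl1 hl2
    have k8 : b (j r) = bC L e a A k (itw w n0 (j r)) := rfl
    have e4 : L r + mF e A r - -β = (L r + mF e A r + bC L e a A k (itw w n0 (j r))) -
        (b (j r) - β) := by rw [k8]; ring
    rw [e4]
    have k9 := abs_sub (L r + mF e A r + bC L e a A k (itw w n0 (j r))) (b (j r) - β)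
    linarith
  obtain ⟨R, hR⟩ := eventually_atTop.1 hfin
  exact ⟨R, fun r hr => by rw [Real.dist_eq]; exact hR r hr⟩

/-- raw inputs, level free form, **relation only along one chain** `itw w n0 j` -/
structure RawCc (L e a x y : ℕ → ℝ) (k w : ℕ → ℕ) (n0 : ℕ) (c' C0 : ℝ) : Prop where
  c0 : 0 < c'
  kw : ∀ᶠ j in atTop, k (nx w (itw w n0 j)) ≤ 3 * w (itw w n0 j)
  k1 : ∀ᶠ j in atTop, kk k (itw w n0 j) ≤ kk k (nx w (itw w n0 j))
  av : ∀ᶠ n in atTop, |a n - invS x n| ≤ y n ^ (1 + c')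
  en : ∀ᶠ R : ℕ in atTop, |e R - 1 / Real.pi * Real.log R| ≤ C0
  stat : ∀ᶠ j in atTop, ∀ R : ℕ, 2 ^ kk k (itw w n0 j) ≤ R →
    R ≤ 2 ^ kk k (nx w (itw w n0 j)) →
    |L R - L (2 ^ kk k (itw w n0 j)) + a (itw w n0 j) / 2 * (e R - e (2 ^ kk k (itw w n0 j)))| ≤
      y (itw w n0 j) ^ (1 + c')

variable {x y : ℕ → ℝ} {c' c r q B A₁ κ₁ : ℝ} {N : ℕ}

/-- the old inputs give the new ones along every chain -/
theorem RawC.chain (h : RawC L e a x y k w c' C0) (w1 : ∀ n, n0 ≤ n → 1 ≤ w n) :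
    RawCc L e a x y k w n0 c' C0 where
  c0 := h.c0
  kw := (itw_tend w1 le_rfl).eventually h.kw
  k1 := (itw_tend w1 le_rfl).eventually h.k1
  av := h.av
  en := h.en
  stat := (itw_tend w1 le_rfl).eventually h.stat

/-- **(S), level free form, one chain** -/
theorem S_convCc (h : T3 x y kap c r q B A₁ w N) (hN : N ≤ n0)
    (hR : RawCc L e a x y k w n0 c' C0) :
    ∃ l : ℝ, Tendsto (fun R => L R + mF e (invS x) R) atTop (𝓝 l) := by
  have hy := h.fl.y0
  have hc' := hR.c0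
  have hr1 := h.r1
  have hw0 : ∀ n, n0 ≤ n → 1 ≤ w n := fun n hn => h.wn.w1 n (hN.trans hn)
  have hit : Tendsto (itw w n0) atTop atTop := itw_tend hw0 le_rfl
  set m0 : ℝ := min (min c' (r - 1)) 1 with hm0
  have hm0p : 0 < m0 := lt_min (lt_min hc' (by linarith)) one_pos
  have hm0c : m0 ≤ c' := (min_le_left _ _).trans (min_le_left _ _)
  have hm0r : m0 ≤ r - 1 := (min_le_left _ _).trans (min_le_right _ _)
  have hm01 : m0 ≤ 1 := min_le_right _ _
  have hest := est' h hR.av (c1 := m0 / 2) (by positivity) (by linarith) (by linarith)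
  set c2 : ℝ := m0 / 4 with hc2
  have hc2p : 0 < c2 := by positivity
  have hlp := lp_pos
  obtain ⟨R1, hR1⟩ := eventually_atTop.1 hR.en
  have hC0 : 0 ≤ C0 := (abs_nonneg _).trans (hR1 R1 le_rfl)
  have e1 := h.fl.ev_w h.wn (b := m0 / 4) (e := 4 / (44 * lp + 8 * C0)) (by positivity)
    (by positivity)
  obtain ⟨j0, hj0⟩ := eventually_atTop.1 ((hit.eventually_ge_atTop R1).and <|
    (hit.eventually e1).and <| (hit.eventually hest).and <| hR.kw.and <| hR.k1.and <|
    hR.stat.and (hit.eventually h.fl.ev_one))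
  set n1 := itw w n0 j0 with hn1
  have hn01 : n0 ≤ n1 := le_itw (w := w) n0 j0
  have hw1 : ∀ n, n1 ≤ n → 1 ≤ w n := fun n hn => hw0 n (hn01.trans hn)
  have hf0 : ∀ n, 0 ≤ y n ^ (1 + c2) := fun n => Real.rpow_nonneg (hy n).le _
  have hwf : ∀ n, n1 ≤ n → y n ^ (1 + c2) ≤ wF (fun n => y n ^ (1 + c2)) w n := by
    intro n hn
    have h1 := hw1 n hn
    refine single_le_sum (f := fun i => y i ^ (1 + c2)) (fun i _ => hf0 i)
      (mem_Ico.2 ⟨le_rfl, ?_⟩)
    unfold nx; omega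
  have hpw : ∀ j, y (itw w n1 j) ^ (1 + c') ≤ y (itw w n1 j) ^ (1 + c2) := by
    intro j
    rw [hn1, itw_add]
    obtain ⟨-, -, -, -, -, -, g9⟩ := hj0 (j0 + j) (Nat.le_add_right _ _)
    exact Real.rpow_le_rpow_of_exponent_ge (hy _) g9 (by linarith)
  have hWc : ∀ j, Wc a (invS x) k w C0 (itw w n1 j) ≤
      wF (fun n => y n ^ (1 + c2)) w (itw w n1 j) := by
    intro j
    have hnj : n1 ≤ itw w n1 j := le_itw (w := w) n1 j
    have hj := hj0 (j0 + j) (Nat.le_add_right _ _)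
    rw [← itw_add, ← hn1] at hj
    set n := itw w n1 j with hn
    obtain ⟨-, g1, g5, g6, -⟩ := hj
    have k1 := g5.1 (nx w n) (le_nx n) (by unfold nx; omega)
    have k2 := g5.2
    have k3 : (k (nx w n) : ℝ) ≤ 3 * w n := by exact_mod_cast g6
    have hyp : 0 ≤ y n ^ (1 + m0 / 2) := Real.rpow_nonneg (hy n).le _
    have hw0 : (1 : ℝ) ≤ w n := by exact_mod_cast hw1 n hnj
    have k4 : lp * |∑ i ∈ Ico n (nx w n), (a n - invS x i)| ≤
        lp * (20 * (w n * y n ^ (1 + m0 / 2))) := mul_le_mul_of_nonneg_left k1 hlp.le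
    have k5 : |a (nx w n) - a n| * (k (nx w n) * lp + C0) ≤
        8 * y n ^ (1 + m0 / 2) * (3 * w n * lp + w n * C0) := by
      refine mul_le_mul k2 ?_ (by positivity) (by positivity)
      have h1 := mul_le_mul_of_nonneg_right k3 hlp.le
      have h2 := mul_le_mul_of_nonneg_right hw0 hC0
      linarith
    have k6 : y n ^ (1 + m0 / 2) = y n ^ (m0 / 4) * y n ^ (1 + c2) := by
      rw [← Real.rpow_add (hy n)]; congr 1; rw [hc2]; ring
    have k8 : (44 * lp + 8 * C0) * (w n * y n ^ (m0 / 4)) ≤ 1 := by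
      rw [le_div_iff₀ (by positivity)] at g1
      linarith
    have k9 := mul_le_mul_of_nonneg_right k8 (hf0 n)
    have k10 := hwf n hnj
    have k11 : lp * (20 * (w n * y n ^ (1 + m0 / 2))) +
        8 * y n ^ (1 + m0 / 2) * (3 * w n * lp + w n * C0) ≤
        (44 * lp + 8 * C0) * (w n * y n ^ (m0 / 4)) * y n ^ (1 + c2) := by
      rw [k6]
      nlinarith
    unfold Wc
    linarith
  have hFC : ∀ J, FC L e a (fun j => y (itw w n1 j) ^ (1 + c')) k w C0 n1 J := fun J =>
    { k1 := by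
        intro j _
        rw [hn1, itw_add]
        exact (hj0 (j0 + j) (Nat.le_add_right _ _)).2.2.2.2.1
      en := by
        intro R hRR
        refine hR1 R ?_
        have h1 : n1 < 2 ^ n1 := Nat.lt_two_pow_self
        have h2 : 2 ^ n1 ≤ 2 ^ kk k n1 := Nat.pow_le_pow_right (by norm_num) (Nat.le_add_right _ _)
        have h3 := (hj0 j0 le_rfl).1
        omega
      stat := by
        intro j R _
        rw [hn1, itw_add]
        exact (hj0 (j0 + j) (Nat.le_add_right _ _)).2.2.2.2.2.1 R }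
  have hsum : Summable fun i => y i ^ (1 + c2) := h.summ (by linarith)
  refine convC hFC hw1 ?_ ?_
  · have hbs : Summable fun j => 2 * wF (fun n => y n ^ (1 + c2)) w (itw w n1 j) := by
      refine Summable.mul_left 2 ?_
      refine summable_of_sum_range_le (c := ∑' i, y i ^ (1 + c2))
        (fun j => wF_nonneg hf0 _) fun j => ?_
      rw [chain_sum]
      have h1 := Ico_le_tsum hsum hf0 n1 (itw w n1 j)
      have h2 : 0 ≤ ∑ i ∈ range n1, y i ^ (1 + c2) := sum_nonneg fun i _ => hf0 i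
      linarith
    refine Summable.of_nonneg_of_le (fun j => add_nonneg (Real.rpow_nonneg (hy _).le _)
      (Wc_nonneg hC0 _)) (fun j => ?_) hbs
    have h1 := hWc j
    have h2 := hpw j
    have h3 := hwf _ (le_itw (w := w) n1 j)
    linarith
  · intro ε hε
    have hit1 : Tendsto (itw w n1) atTop atTop := itw_tend hw1 le_rfl
    have e2 := h.fl.ev_w h.wn (b := 1 + m0 / 2) (e := ε / (10 * lp)) (by positivity) (by positivity)
    have e3 : ∀ᶠ n in atTop, |a n / 2 - Real.pi / 4| * (C0 + 1) ≤ ε / 2 := by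
      have h1 := (((a_tend h hc' hR.av).div_const 2).sub_const (Real.pi / 4)).abs.mul_const (C0 + 1)
      have h2 : |Real.pi / 2 / 2 - Real.pi / 4| * (C0 + 1) = 0 := by
        have : Real.pi / 2 / 2 - Real.pi / 4 = 0 := by ring
        rw [this, abs_zero, zero_mul]
      rw [h2] at h1
      filter_upwards [h1.eventually (gt_mem_nhds (show (0 : ℝ) < ε / 2 by positivity))]
        with n hn using hn.le
    have e4 : ∀ᶠ j in atTop, k (nx w (itw w n1 j)) ≤ 3 * w (itw w n1 j) := by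
      refine Eventually.of_forall fun j => ?_
      rw [hn1, itw_add]
      exact (hj0 (j0 + j) (Nat.le_add_right _ _)).2.2.2.1
    filter_upwards [hit1.eventually hest, hit1.eventually e2, hit1.eventually e3, e4]
      with j g1 g2 g3 g4 l hl1 hl2
    unfold vF
    have k1 := g1.1 l hl1 (by unfold kk nx at hl2; unfold nx at g4; omega)
    have k2 := mul_le_mul_of_nonneg_left k1 hlp.le
    have k3 : lp * (20 * (w (itw w n1 j) * y (itw w n1 j) ^ (1 + m0 / 2))) ≤ ε / 2 := by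
      rw [le_div_iff₀ (by positivity)] at g2
      linarith
    linarith

/-- **(S), level free form, one chain, dyadic** -/
theorem S_dyadicCc (h : T3 x y kap c r q B A₁ w N) (hN : N ≤ n0)
    (hR : RawCc L e a x y k w n0 c' C0)
    (hκ : Tendsto (fun m : ℕ => e (2 ^ m) - 1 / Real.pi * (m * Real.log 2)) atTop (𝓝 κ₁)) :
    ∃ l : ℝ, Tendsto (fun m : ℕ => L (2 ^ m) + lp * ∑ i ∈ range m, invS x i) atTop (𝓝 l) := by
  obtain ⟨l, hl⟩ := S_convCc h hN hR
  have h1 : Tendsto (fun m : ℕ => 2 ^ m) atTop (atTop : Filter ℕ) :=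
    tendsto_atTop_mono (fun m => (Nat.lt_two_pow_self (n := m)).le) tendsto_id
  have h2 := (hl.comp h1).sub (hκ.const_mul (Real.pi / 4))
  refine ⟨_, h2.congr fun m => ?_⟩
  simp only [Function.comp, mF, Nat.log_pow (show 1 < 2 by norm_num)]
  ring

end

end Vale.Agent.P159.H552.Dx7
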