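import Vale.Agent.P159.H552.Dx7f
import Vale.Agent.P159.H773.Rat12

/-!
P159 / module DX7 (helper552), part g: helper773's amplitude theorem of the plane with the relation
along ONE chain of levels (`RawCc`) for every large ratio `2^i`.
-/

open MeasureTheory Filter Topology Finset
open scoped BigOperators

namespace Vale.Agent.P159.H552.Dx7

open Vale.Agent.P159 Vale.Agent.P159.TM.H331
open Vale.Agent.P159.H773 (cT0 cT0_pos mtd_dbl ratio_lim de de_lim eD_fam)
open Vale.Agent.P159.H801 (T3)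
open Vale.Agent.P159.H264 (kap)
open Vale.Agent.P159.H817 (eD)

noncomputable section

variable {b : ℝ}

/-- **the amplitude theorem from the limits** of `L R + mF` for the families of ratio `2^i` -/
theorem xy_amp_lim (hb : 0 < b) {x y : ℕ → ℝ} {κ : ℝ} {δ : ℕ → ℝ} (hδ : Tendsto δ atTop (𝓝 0))
    {c r q B A : ℝ} {w : ℕ → ℕ} {N : ℕ} (hT : T3 x y kap c r q B A w N)
    {i1 : ℕ}
    (hF : ∀ i, i1 ≤ i → ∃ (e : ℕ → ℝ) (M : ℕ → ℕ) (l : ℝ),
      Tendsto (fun R => Real.log (cT0 (M R) b R) + mF e (invS x) R) atTop (𝓝 l) ∧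
      ∀ᶠ R : ℕ in atTop, (2 : ℝ) ^ i * R ≤ M R + 2 ∧
        |e R - 1 / Real.pi * Real.log R - κ| ≤ δ i) :
    ∃ a : ℝ, 0 < a ∧ Tendsto (fun r : ℕ => corrInf b ((r : ℤ), 0) /
      ((r : ℝ) ^ (-(1 / 4) : ℝ) * Real.log r ^ (1 / 8 : ℝ))) atTop (𝓝 a) := by
  have hx0 : Tendsto x atTop (𝓝 0) := hT.fl.xt
  have hinv : Tendsto (invS x) atTop (𝓝 (1 / (2 / Real.pi + 0))) := by
    unfold invS
    refine Tendsto.div tendsto_const_nhds (tendsto_const_nhds.add hx0) ?_
    have := Real.pi_pos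
    positivity
  have hA : ∀ᶠ i in atTop, invS x i ≤ 2 * Real.pi := by
    have hpi := Real.pi_pos
    have h1 : 1 / (2 / Real.pi + 0) < 2 * Real.pi := by
      rw [add_zero, one_div_div]
      linarith
    exact (hinv.eventually (Iio_mem_nhds h1)).mono fun i hi => le_of_lt hi
  obtain ⟨i0, hi0⟩ := eventually_atTop.1 hA
  have hδ' : Tendsto (fun i : ℕ => 1 / ((i : ℝ) + 1) + Real.pi / 4 * δ i) atTop (𝓝 0) := by
    have h1 := tendsto_one_div_add_atTop_nhds_zero_nat (𝕜 := ℝ)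
    have h2 := hδ.const_mul (Real.pi / 4)
    simpa using h1.add h2
  obtain ⟨hC, l, hl⟩ := ratio_lim hb.le (Λ := mt (invS x)) (DΛ := 4) (s0 := 2 ^ i0)
    (fun s r hs hr => mtd_dbl hi0 hs hr) hδ' (i1 := max i1 1) (fun i hi => by
      obtain ⟨e, M, l, hl, hev⟩ := hF i ((le_max_left _ _).trans hi)
      have hi1 : 1 ≤ i := (le_max_right _ _).trans hi
      refine ⟨M, l - Real.pi / 4 * κ, ?_⟩
      have hi' : (0 : ℝ) < 1 / ((i : ℝ) + 1) := by positivity
      have h1 := (Metric.tendsto_nhds.1 hl) _ hi'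
      filter_upwards [h1, hev, eventually_ge_atTop 1] with R h2 h3 hR1
      have hR' : (0 : ℝ) < R := by exact_mod_cast hR1
      have h4 : (2 : ℝ) ≤ 2 ^ i := by
        calc (2 : ℝ) = 2 ^ 1 := (pow_one 2).symm
          _ ≤ 2 ^ i := pow_le_pow_right₀ (by norm_num) hi1
      refine ⟨h3.1, ?_, ?_⟩
      · refine cT0_pos hb ?_
        have h5 : (R : ℝ) < M R + 2 := by
          have := h3.1
          nlinarith
        exact_mod_cast h5
      · rw [Real.dist_eq] at h2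
        have hpi := Real.pi_pos
        have h5 : Real.log (cT0 (M R) b R) + mt (invS x) R - (l - Real.pi / 4 * κ) =
            (Real.log (cT0 (M R) b R) + mF e (invS x) R - l) -
              Real.pi / 4 * (e R - 1 / Real.pi * Real.log R - κ) := by
          unfold mt mF
          field_simp
          ring
        rw [h5]
        refine (abs_sub _ _).trans ?_
        rw [abs_mul, abs_of_pos (by positivity : 0 < Real.pi / 4)]
        have h6 := mul_le_mul_of_nonneg_left h3.2 (by positivity : 0 ≤ Real.pi / 4)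
        linarith)
  have h1 := hT.amp (p := x) (by simp) (C := fun r : ℕ => XY.C b ((r : ℤ), 0)) hC (c' := l)
    (hl.congr fun R => by
      unfold mt lp invS
      ring)
  obtain ⟨a', ha', ha⟩ := h1
  refine ⟨a', ha', ha.congr fun r => ?_⟩
  rw [XY.corrInf_eq hb.le]

/-- **THE AMPLITUDE THEOREM, one chain of levels for every large ratio `2^i`** (the chain, its window
lengths, the constants and the family of tori may depend on `i`) -/
theorem xy_amp_Cc (hb : 0 < b) {x y : ℕ → ℝ} {i1 : ℕ}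
    (hF : ∀ i, i1 ≤ i → ∃ (c r q B A : ℝ) (w : ℕ → ℕ) (n1 n0 : ℕ) (a : ℕ → ℝ)
      (k : ℕ → ℕ) (c' C0 : ℝ) (N : ℕ → ℕ), T3 x y kap c r q B A w n1 ∧ n1 ≤ n0 ∧
      (∀ᶠ R : ℕ in atTop, (2 : ℝ) ^ i * R ≤ N R) ∧
      RawCc (fun R => Real.log (cT0 (N R - 2) b R)) (fun R => eD (N R) R) a x y k w n0 c' C0) :
    ∃ a : ℝ, 0 < a ∧ Tendsto (fun r : ℕ => corrInf b ((r : ℤ), 0) /
      ((r : ℝ) ^ (-(1 / 4) : ℝ) * Real.log r ^ (1 / 8 : ℝ))) atTop (𝓝 a) := by
  obtain ⟨κ, hκ⟩ := eD_fam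
  obtain ⟨c, r, q, B, A, w, n1, n0, a, k, c', C0, N, hT, -⟩ := hF i1 le_rfl
  refine xy_amp_lim hb (x := x) (y := y) (κ := κ) de_lim hT (i1 := max i1 1) fun i hi => ?_
  obtain ⟨c, r, q, B, A, w, n1, n0, a, k, c', C0, N, hT, h01, hN, hR⟩ :=
    hF i ((le_max_left _ _).trans hi)
  obtain ⟨l, hl⟩ := S_convCc hT h01 hR
  refine ⟨_, fun R => N R - 2, l, hl, ?_⟩
  filter_upwards [hN, hκ i ((le_max_right _ _).trans hi) N hN] with R h1 h2
  refine ⟨h1.trans ?_, h2⟩
  have h3 : N R ≤ N R - 2 + 2 := by omega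
  exact_mod_cast h3

end

end Vale.Agent.P159.H552.Dx7
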