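import Vale.Agent.P159.H883.Brg7

/-!
P159 / S list (S6), helper552: **lower bounds of the dislocated neutral partition function**.
`E(D; F) = -log (Zn wD F / Zn w 0)`. From ONE regular field `mid` with `Ψ(mid) ≥ s C` (it exists
since `E_ν Ψ = C` and the bad set carries at most `q C`), an upper bound of `Zn wD` on a symmetric
class (`(S5)`) and the Ginibre inequality one gets `E(D; φ + F) ≤ G + Q(F)/2 + 2 lam + eU + ..` for
EVERY field `F` such that `2 mid - F` is in the class.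
-/

set_option linter.unusedSectionVars false

namespace Vale.Agent.P159.H552.Ln

open Finset Matrix MeasureTheory
open Vale.Agent.P159.H37 (wM ZM qf Zn Rs)
open Vale.Agent.P159.H963 (MF GW)
open Vale.Agent.P159.H770 (GWF Ed wTD gwf_wTD wTD_zero)
open Vale.Agent.P159.H883 (Psi PT CT Zp nuM BW)

noncomputable section

/-! ### the regular field -/

section mid

variable {Ω : Type*} [MeasurableSpace Ω] {μ : Measure Ω} [IsProbabilityMeasure μ] {Ψ : Ω → ℝ}
  {Gd : Set Ω} {c q s : ℝ}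

/-- if the bad set carries at most the fraction `q` of the mean `c`, then `Ψ ≥ s c` somewhere on the
good set, for every `s < 1 - q` -/
theorem exists_mid (hi : Integrable Ψ μ) (hGd : MeasurableSet Gd) (hc : 0 < c)
    (hint : ∫ x, Ψ x ∂μ = c) (hq : ∫ x in Gdᶜ, Ψ x ∂μ ≤ q * c) (hs0 : 0 ≤ s) (hs : s < 1 - q) :
    ∃ x ∈ Gd, s * c ≤ Ψ x := by
  by_contra hcon
  push Not at hcon
  have h1 := integral_add_compl hGd hi
  have h2 : ∫ x in Gd, Ψ x ∂μ ≤ s * c := by
    have h3 : ∫ x in Gd, Ψ x ∂μ ≤ ∫ _x in Gd, s * c ∂μ :=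
      setIntegral_mono_on hi.integrableOn (integrable_const _).integrableOn hGd
        fun x hx => (hcon x hx).le
    refine h3.trans ?_
    rw [setIntegral_const, smul_eq_mul]
    have h4 : μ.real Gd ≤ 1 := measureReal_le_one
    have h5 : 0 ≤ s * c := mul_nonneg hs0 hc.le
    calc μ.real Gd * (s * c) ≤ 1 * (s * c) := mul_le_mul_of_nonneg_right h4 h5
      _ = s * c := one_mul _
  rw [hint] at h1
  have h6 : s * c < (1 - q) * c := mul_lt_mul_of_pos_right hs hc
  linarith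

end mid

/-! ### Ginibre, logarithmic form -/

section gin

variable {β V : Type} [AddCommGroup β] [Fintype V] [DecidableEq V] [Nonempty V]
  {W : β → (V → ℤ) → ℝ} {M : Matrix V V ℝ} {m : ℝ}

/-- `E(b; F) = -log (Z(b; F) / Z(0; 0))` -/
def EW (W : β → (V → ℤ) → ℝ) (M : Matrix V V ℝ) (b : β) (F : V → ℝ) : ℝ :=
  -Real.log (Zn (W b) M F / Zn (W 0) M 0)

lemma EW_eq (hW : GWF W) (hM : MF M m) (b : β) (F : V → ℝ) :
    EW W M b F = Real.log (Zn (W 0) M 0) - Real.log (Zn (W b) M F) := by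
  unfold EW
  rw [Real.log_div (hW.Zn_pos hM b F).ne' (hW.Zn_pos hM 0 0).ne']
  ring

lemma EW_zero (hW : GWF W) (hM : MF M m) : EW W M 0 0 = 0 := by
  rw [EW_eq hW hM, sub_self]

/-- **the parallelogram inequality**: `E(X + Y) + E(X - Y) ≤ 2 E(X) + 2 E(Y)` on the whole group -/
theorem EW_par (hW : GWF W) (hM : MF M m) (b c : β) (F H : V → ℝ) :
    EW W M (b + c) (F + H) + EW W M (b - c) (F - H) ≤ 2 * EW W M b F + 2 * EW W M c H := by
  have h := hW.ginZn hM b c F H
  have p1 := hW.Zn_pos hM b F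
  have p2 := hW.Zn_pos hM c H
  have p3 := hW.Zn_pos hM (b + c) (F + H)
  have p4 := hW.Zn_pos hM (b - c) (F - H)
  have p0 := hW.Zn_pos hM 0 (0 : V → ℝ)
  have h1 := Real.log_le_log (by positivity) h
  rw [Real.log_pow, Real.log_mul p1.ne' p2.ne', Real.log_mul (pow_pos p0 2).ne' (mul_pos p3 p4).ne',
    Real.log_pow, Real.log_mul p3.ne' p4.ne'] at h1
  rw [EW_eq hW hM, EW_eq hW hM, EW_eq hW hM, EW_eq hW hM]
  push_cast at h1
  linarith

/-- real changes -/
theorem EW_real (hW : GWF W) (hM : MF M m) (b : β) (F H : V → ℝ) :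
    EW W M b (F + H) + EW W M b (F - H) ≤ 2 * EW W M b F + 2 * EW W M 0 H := by
  have h := EW_par hW hM b 0 F H
  rwa [add_zero, sub_zero] at h

/-- the ratio `Ψ` in terms of `E` -/
lemma log_Psi (hW : GWF W) (hM : MF M m) (b : β) (φ F : V → ℝ) :
    Real.log (Psi (W 0) (W b) M φ F) = EW W M 0 F - EW W M b (φ + F) := by
  unfold Psi
  rw [Real.log_div (hW.Zn_pos hM _ _).ne' (hW.Zn_pos hM _ _).ne', EW_eq hW hM, EW_eq hW hM]
  ring

/-- a real quadratic form which satisfies the parallelogram law -/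
structure Par (Q : (V → ℝ) → ℝ) : Prop where
  par : ∀ F H : V → ℝ, Q (F + H) + Q (F - H) = 2 * Q F + 2 * Q H

theorem par_qf (A : Matrix V V ℝ) : Par (qf A) where
  par F H := by
    unfold qf
    rw [← Finset.sum_add_distrib, Finset.mul_sum, Finset.mul_sum, ← Finset.sum_add_distrib]
    refine Finset.sum_congr rfl fun x _ => ?_
    rw [← Finset.sum_add_distrib, Finset.mul_sum, Finset.mul_sum, ← Finset.sum_add_distrib]
    refine Finset.sum_congr rfl fun y _ => ?_
    simp only [Pi.add_apply, Pi.sub_apply]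
    ring

/-- **(S6), one regular field**: upper bound of `E(b; φ + F)` from `Ψ(mid) ≥ e^{-G - lam}` and the
upper bound (S5) of `Z(b; ·)` at the mirror image `2 mid - F` only.
`Q` = Gaussian form, `e0` = error of `E(0; ·) ≤ Q/2` -/
theorem L_one (hW : GWF W) (hM : MF M m) {Q : (V → ℝ) → ℝ} (hQ : Par Q) (b : β) (φ : V → ℝ)
    {mid F : V → ℝ} {G lam eU e0 e1 : ℝ}
    (hmid : Real.exp (-G - lam) ≤ Psi (W 0) (W b) M φ mid)
    (hU : G + Q (mid - (F - mid)) / 2 - eU ≤ EW W M b (φ + (mid - (F - mid))))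
    (h0 : EW W M 0 mid ≤ Q mid / 2 + e0) (h1 : EW W M 0 (F - mid) ≤ Q (F - mid) / 2 + e1) :
    EW W M b (φ + F) ≤ G + Q F / 2 + (2 * lam + eU + 2 * e0 + 2 * e1) := by
  have k1 := EW_real hW hM b (φ + mid) (F - mid)
  have k2 : -G - lam ≤ EW W M 0 mid - EW W M b (φ + mid) := by
    rw [← log_Psi hW hM, ← Real.log_exp (-G - lam)]
    exact Real.log_le_log (Real.exp_pos _) hmid
  have k3 := hQ.par mid (F - mid)
  have e1' : φ + mid + (F - mid) = φ + F := by abel
  have e2' : φ + mid - (F - mid) = φ + (mid - (F - mid)) := by abel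
  have e3' : mid + (F - mid) = F := by abel
  rw [e1', e2'] at k1
  rw [e3'] at k3
  linarith

end gin

/-! ### the law `nuM` -/

section law

variable {β V : Type} [AddCommGroup β] [Fintype V] [DecidableEq V] [Nonempty V]
  {W : β → (V → ℤ) → ℝ} {M : Matrix V V ℝ} {m : ℝ}

/-- **(S6)**: `C = Zp (W b) / Zp (W 0) ≥ e^{-G - lam}`, bad set of mass `≤ 1/2` under `Ψ ν / C`:
there is one field `mid` of the good set such that for every `F` whose mirror image `2 mid - F`
satisfies (S5), `E(b; φ + F) ≤ G + Q(F)/2 + 2 lam + 3 + eU + ..` -/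
theorem L_num (hW : GWF W) (hg : GW (W 0)) (hw : BW (W 0)) (hM : MF M m) {Q : (V → ℝ) → ℝ} (hQ : Par Q) (b : β)
    (hwD : BW (W b)) (x₀ : V) (φ : V → ℝ) {G lam eU e0 : ℝ} {Gd : Set (V → ℝ)}
    (hGd : MeasurableSet Gd) (hC : Real.exp (-G - lam) ≤ Zp (W b) x₀ / Zp (W 0) x₀)
    (hbad : ∫ F in Gdᶜ, Psi (W 0) (W b) M φ F ∂(nuM (W 0) M x₀) ≤
      1 / 2 * (Zp (W b) x₀ / Zp (W 0) x₀))
    (h0 : ∀ F ∈ Gd, EW W M 0 F ≤ Q F / 2 + e0) :
    ∃ mid ∈ Gd, ∀ (F : V → ℝ) (e1 : ℝ),
      G + Q (mid - (F - mid)) / 2 - eU ≤ EW W M b (φ + (mid - (F - mid))) →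
      EW W M 0 (F - mid) ≤ Q (F - mid) / 2 + e1 →
      EW W M b (φ + F) ≤ G + Q F / 2 + (2 * lam + 3 + eU + 2 * e0 + 2 * e1) := by
  obtain ⟨h1, h2, h3, h4, h5⟩ := H883.Psi_fields hg hw hwD hM x₀ φ
  have := H883.prob_nuM hg hw hM x₀
  obtain ⟨mid, hm, hmid⟩ := exists_mid (s := 1 / 4) h3 hGd h5 h4 hbad (by norm_num) (by norm_num)
  refine ⟨mid, hm, fun F e1 hU he1 => ?_⟩
  have k1 : Real.exp (-G - (lam + 3 / 2)) ≤ Psi (W 0) (W b) M φ mid := by
    refine le_trans ?_ hmid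
    have k2 : Real.exp (-G - (lam + 3 / 2)) = Real.exp (-(3 / 2)) * Real.exp (-G - lam) := by
      rw [← Real.exp_add]; congr 1; ring
    rw [k2]
    have k3 : Real.exp (-(3 / 2 : ℝ)) ≤ 1 / 4 := by
      rw [Real.exp_neg]
      have k4 : (4 : ℝ) ≤ Real.exp (3 / 2) := by
        have k5 := Real.exp_one_gt_d9
        have k6 : Real.exp (3 / 2) = Real.exp 1 * Real.exp (1 / 2) := by
          rw [← Real.exp_add]; norm_num
        have k7 : 3 / 2 ≤ Real.exp (1 / 2) := by
          have := Real.add_one_le_exp (1 / 2 : ℝ)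
          linarith
        rw [k6]
        nlinarith
      rw [show (1 / 4 : ℝ) = 4⁻¹ by norm_num]
      exact inv_anti₀ (by norm_num) k4
    exact mul_le_mul k3 hC (Real.exp_pos _).le (by norm_num)
  have := L_one hW hM hQ b φ k1 hU (h0 mid hm) he1
  linarith

end law

end

end Vale.Agent.P159.H552.Ln
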