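import Vale.Agent.P159.H552.Ln1

/-!
P159 / S list (helper552): consequences of the parallelogram inequality on the whole group of
dislocations and real fields (helper773, row 5604 (3)): the price of the four point Gram inequality
at a background is a zero background number.
-/

set_option linter.unusedSectionVars false

namespace Vale.Agent.P159.H552.Ln

open Finset Matrix MeasureTheory
open Vale.Agent.P159.H37 (wM ZM qf Zn Rs)
open Vale.Agent.P159.H963 (MF GW)
open Vale.Agent.P159.H770 (GWF)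

noncomputable section

/-- a function with the parallelogram inequality on an abelian group -/
structure PK {A : Type*} [AddCommGroup A] (E : A → ℝ) : Prop where
  zero : E 0 = 0
  par : ∀ x y, E (x + y) + E (x - y) ≤ 2 * E x + 2 * E y

/-- `T(x) = 4 E(x) - E(2x)` -/
def TT {A : Type*} [AddCommGroup A] (E : A → ℝ) (x : A) : ℝ := 4 * E x - E (x + x)

/-- `16 E(x) - E(4x)` -/
def T16 {A : Type*} [AddCommGroup A] (E : A → ℝ) (x : A) : ℝ := 16 * E x - E (x + x + (x + x))

/-- the price of the four point Gram inequality at `(x, y)` -/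
def Pr {A : Type*} [AddCommGroup A] (E : A → ℝ) (x y : A) : ℝ :=
  2 * E x + 2 * E y - E (x + y) - E (x - y)

section pk

variable {A : Type*} [AddCommGroup A] {E : A → ℝ}

lemma PK.sym (h : PK E) (x y : A) : E (x - y) ≤ E (y - x) + (2 * E x + 2 * E y - E (x + y) -
    E (y - x)) := by
  have := h.par x y
  linarith

lemma PK.TT_nonneg (h : PK E) (x : A) : 0 ≤ TT E x := by
  have h1 := h.par x x
  rw [sub_self, h.zero] at h1
  unfold TT
  linarith

lemma PK.neg_le (h : PK E) (x : A) : E (-x) ≤ E x + 0 := by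
  have h1 := h.par 0 x
  rw [zero_add, zero_sub, h.zero] at h1
  linarith

lemma PK.neg (h : PK E) (x : A) : E (-x) = E x := by
  have h1 := h.neg_le x
  have h2 := h.neg_le (-x)
  rw [neg_neg] at h2
  linarith

lemma PK.sub_comm (h : PK E) (x y : A) : E (x - y) = E (y - x) := by
  rw [← h.neg (y - x), neg_sub]

lemma PK.Pr_nonneg (h : PK E) (x y : A) : 0 ≤ Pr E x y := by
  have := h.par x y
  unfold Pr
  linarith

lemma PK.nonneg (h : PK E) (x : A) (hb : ∃ C : ℝ, ∀ y, -C ≤ E y) : 0 ≤ E x := by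
  obtain ⟨C, hC⟩ := hb
  by_contra hcon
  push Not at hcon
  -- `E (2^n x) ≤ 4^n E x`
  have h1 : ∀ n : ℕ, E ((2 ^ n : ℕ) • x) ≤ 4 ^ n * E x := by
    intro n
    induction n with
    | zero => simp
    | succ n ih =>
      have h2 := h.TT_nonneg ((2 ^ n : ℕ) • x)
      unfold TT at h2
      have e : (2 ^ (n + 1) : ℕ) • x = (2 ^ n : ℕ) • x + (2 ^ n : ℕ) • x := by
        rw [pow_succ, mul_comm, mul_nsmul', two_nsmul]
      rw [e, pow_succ]
      nlinarith
  obtain ⟨n, hn⟩ := exists_nat_gt (C / -E x)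
  have h2 := h1 n
  have h3 := hC ((2 ^ n : ℕ) • x)
  rw [div_lt_iff₀ (by linarith)] at hn
  have h4 : (n : ℝ) ≤ 4 ^ n := by
    have : n < 4 ^ n := Nat.lt_pow_self (by norm_num)
    exact_mod_cast this.le
  nlinarith

/-- **price of the four point inequality** ≤ `(T x + T y) / 2` -/
theorem PK.Pr_le (h : PK E) (x y : A) : Pr E x y ≤ (TT E x + TT E y) / 2 := by
  have h1 := h.par (x + y) (x - y)
  have e1 : x + y + (x - y) = x + x := by abel
  have e2 : x + y - (x - y) = y + y := by abel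
  rw [e1, e2] at h1
  unfold Pr TT
  linarith

/-- **`T` at a sum**: `T(x + y) + T(x - y) ≤ (16 E(x) - E(4x))/2 + (16 E(y) - E(4y))/2` -/
theorem PK.TT_add (h : PK E) (x y : A) :
    TT E (x + y) + TT E (x - y) ≤ (T16 E x + T16 E y) / 2 := by
  have h1 := h.par x y
  have h2 := h.par (x + y + (x + y)) (x - y + (x - y))
  have e1 : x + y + (x + y) + (x - y + (x - y)) = x + x + (x + x) := by abel
  have e2 : x + y + (x + y) - (x - y + (x - y)) = y + y + (y + y) := by abel
  rw [e1, e2] at h2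
  unfold TT T16
  linarith

theorem PK.TT_add_le (h : PK E) (x y : A) : TT E (x + y) ≤ (T16 E x + T16 E y) / 2 := by
  have h1 := h.TT_add x y
  have h2 := h.TT_nonneg (x - y)
  linarith

/-- `T16 = 4 T(x) + T(2x)` -/
theorem T16_eq (x : A) : T16 E x = 4 * TT E x + TT E (x + x) := by
  unfold T16 TT
  ring

theorem PK.T16_nonneg (h : PK E) (x : A) : 0 ≤ T16 E x := by
  rw [T16_eq]
  have h1 := h.TT_nonneg x
  have h2 := h.TT_nonneg (x + x)
  linarith

/-- three summands -/
theorem PK.TT_add3 (h : PK E) (x y z : A) :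
    TT E (x + y + z) ≤ (T16 E (x + y) + T16 E z) / 2 := h.TT_add_le (x + y) z

/-- **the price at `x = X + P + W`, `y = X`**, `X = D + F` with `D` the dislocated part and `F` real:
zero background numbers of `D`, `F`, `D + P + W` only -/
theorem PK.price (h : PK E) (D F P : A) :
    Pr E (D + F + P) (D + F) ≤ (T16 E (D + P) + T16 E D + 2 * T16 E F) / 4 := by
  have h1 := h.Pr_le (D + F + P) (D + F)
  have h2 := h.TT_add_le (D + P) F
  have h3 := h.TT_add_le D F
  have e : D + F + P = D + P + F := by abel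
  rw [e] at h1 ⊢
  linarith

/-- **rough real backgrounds are free** (helper883, row 5635 (2)), on the abstract group:
`Pr(D1 + F1, D2 + F2) + Pr(D1 - F1, D2 - F2)` is at most the numbers of the `D` and of the `F` -/
theorem PK.Pr_split (h : PK E) (D1 F1 D2 F2 : A) :
    Pr E (D1 + F1) (D2 + F2) + Pr E (D1 - F1) (D2 - F2) ≤
      (4 * E D1 + 4 * E D2 - E (D1 + D2 + (D1 + D2)) / 2 - E (D1 - D2 + (D1 - D2)) / 2) +
      (4 * E F1 + 4 * E F2 - E (F1 + F2 + (F1 + F2)) / 2 - E (F1 - F2 + (F1 - F2)) / 2) := by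
  have h1 := h.par D1 F1
  have h2 := h.par D2 F2
  have h3 := h.par (D1 + F1 + (D2 + F2)) (D1 - F1 + (D2 - F2))
  have h4 := h.par (D1 + F1 - (D2 + F2)) (D1 - F1 - (D2 - F2))
  have e1 : D1 + F1 + (D2 + F2) + (D1 - F1 + (D2 - F2)) = D1 + D2 + (D1 + D2) := by abel
  have e2 : D1 + F1 + (D2 + F2) - (D1 - F1 + (D2 - F2)) = F1 + F2 + (F1 + F2) := by abel
  have e3 : D1 + F1 - (D2 + F2) + (D1 - F1 - (D2 - F2)) = D1 - D2 + (D1 - D2) := by abel
  have e4 : D1 + F1 - (D2 + F2) - (D1 - F1 - (D2 - F2)) = F1 - F2 + (F1 - F2) := by abel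
  rw [e1, e2] at h3
  rw [e3, e4] at h4
  unfold Pr
  linarith

theorem PK.Pr_split_le (h : PK E) (D1 F1 D2 F2 : A) :
    Pr E (D1 + F1) (D2 + F2) ≤
      (4 * E D1 + 4 * E D2 - E (D1 + D2 + (D1 + D2)) / 2 - E (D1 - D2 + (D1 - D2)) / 2) +
      (4 * E F1 + 4 * E F2 - E (F1 + F2 + (F1 + F2)) / 2 - E (F1 - F2 + (F1 - F2)) / 2) := by
  have h1 := h.Pr_split D1 F1 D2 F2
  have h2 := h.Pr_nonneg (D1 - F1) (D2 - F2)
  linarith

/-- upper bound of `T16` from bounds of `E` at `x` and `4x` -/
theorem T16_le {x : A} {u v : ℝ} (h1 : E x ≤ u) (h2 : v ≤ E (x + x + (x + x))) :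
    T16 E x ≤ 16 * u - v := by
  unfold T16
  linarith

/-- change of `E` along a group element: `|E(X + P) - E(X)|` from upper bounds of `E` around -/
theorem PK.step (h : PK E) (X P : A) :
    E (X + P) - E X ≤ E X - E (X - P) + 2 * E P := by
  have := h.par X P
  linarith

end pk

/-! ### the instance: dislocations and real backgrounds -/

section inst

variable {β V : Type} [AddCommGroup β] [Fintype V] [DecidableEq V] [Nonempty V]
  {W : β → (V → ℤ) → ℝ} {M : Matrix V V ℝ} {m : ℝ}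

/-- `E` on the group of dislocations and real fields -/
def EB (W : β → (V → ℤ) → ℝ) (M : Matrix V V ℝ) (q : β × (V → ℝ)) : ℝ := EW W M q.1 q.2

/-- **the energy has the parallelogram inequality on the whole group** -/
theorem pk_EB (hW : GWF W) (hM : MF M m) : PK (EB W M) where
  zero := EW_zero hW hM
  par x y := EW_par hW hM x.1 y.1 x.2 y.2

lemma EB_real (F : V → ℝ) : EB W M (0, F) = EW W M 0 F := rfl

/-- a real field with `E(4F) ≥ 8 Q(F) - r`, `E(F) ≤ Q(F)/2`: `T16 ≤ r` -/
theorem T16_real {Q : (V → ℝ) → ℝ} {F : V → ℝ} {r e : ℝ}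
    (h1 : EW W M 0 F ≤ Q F / 2 + e) (h4 : 8 * Q F - r ≤ EW W M 0 (F + F + (F + F))) :
    T16 (EB W M) ((0 : β), F) ≤ r + 16 * e := by
  unfold T16
  have e1 : EB W M (((0 : β), F) + (0, F) + ((0, F) + (0, F))) =
      EW W M 0 (F + F + (F + F)) := by
    unfold EB
    simp
  rw [e1, EB_real]
  linarith

end inst

end

end Vale.Agent.P159.H552.Ln
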