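import Vale.Agent.P159.H552.Lq1

/-!
P159, helper552, module Lq2: numbers of the level: `Q` with `Z = y^(-c3)`, and `NumS`.
-/

open MeasureTheory Filter Topology Finset Matrix

set_option linter.all false

namespace Vale.Agent.P159.H552.Lq

open Vale.Agent.P159 Vale.Agent.P159.TM.H331 Vale.Agent.P159.H253.Rec
open Vale.Agent.P159.H770 (wTD Ed wTD_zero gwf_wTD)
open Vale.Agent.P159.H883 (nuM Psi BW Zp CT CT_pos)
open Vale.Agent.P159.TM.Spec (V)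
open Vale.Agent.P159.TM.SpecC (wT)
open Vale.Agent.P159.H773 (sd ax0 nuF PsF cMn Pth cT0 cMn_pt sd_ge)
open Vale.Agent.P159.H27 (Rb)
open Vale.Agent.P159.H145.Lw (KnW)
open Vale.Agent.P159.H552.Sm (Ag)
open Vale.Agent.P159.H37.Sf (NumS)

noncomputable section

variable {b : ℝ}

/-- logarithms are small against `Z = y ^ (-c3)` -/
theorem log_small {c3 : ℝ} (hc3 : 0 < c3) (C A ε : ℝ) (hε : 0 < ε) :
    ∃ y0 : ℝ, 0 < y0 ∧ y0 ≤ 1 ∧ ∀ y : ℝ, 0 < y → y ≤ y0 →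
      C + A * (1 + Real.log (1 / y)) ^ 2 ≤ ε * y ^ (-c3) := by
  have t2 : Tendsto (fun x : ℝ => (1 + Real.log x) / x ^ (c3 / 2)) atTop (𝓝 0) := by
    have h1 : Tendsto (fun x : ℝ => 1 / x ^ (c3 / 2)) atTop (𝓝 0) := by
      have := tendsto_rpow_neg_atTop (show 0 < c3 / 2 by linarith)
      refine this.congr' ?_
      filter_upwards [eventually_gt_atTop (0 : ℝ)] with x hx
      rw [Real.rpow_neg hx.le, one_div]
    have h2 : Tendsto (fun x : ℝ => Real.log x / x ^ (c3 / 2)) atTop (𝓝 0) :=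
      (isLittleO_log_rpow_atTop (by linarith)).tendsto_div_nhds_zero
    have h3 := h1.add h2
    rw [add_zero] at h3
    refine h3.congr fun x => ?_
    ring
  have t3 : Tendsto (fun x : ℝ => C * (1 / x ^ c3) + A * ((1 + Real.log x) / x ^ (c3 / 2)) ^ 2)
      atTop (𝓝 (C * 0 + A * 0 ^ 2)) := by
    refine Tendsto.add (Tendsto.const_mul _ ?_) ((t2.pow 2).const_mul _)
    have := tendsto_rpow_neg_atTop hc3
    refine this.congr' ?_
    filter_upwards [eventually_gt_atTop (0 : ℝ)] with x hx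
    rw [Real.rpow_neg hx.le, one_div]
  have e0 : C * 0 + A * (0 : ℝ) ^ 2 = 0 := by ring
  rw [e0] at t3
  obtain ⟨X, hX⟩ := eventually_atTop.1 (t3.eventually_le_const (show (0 : ℝ) < ε from hε))
  set X1 := max X 1 with hX1
  have hX1p : 0 < X1 := lt_of_lt_of_le one_pos (le_max_right _ _)
  refine ⟨X1⁻¹, inv_pos.2 hX1p, inv_le_one_of_one_le₀ (le_max_right _ _), fun y hy hy0 => ?_⟩
  set x := y⁻¹ with hx
  have hxX : X1 ≤ x := by
    rw [hx]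
    exact (le_inv_comm₀ hX1p hy).2 hy0
  have hx0 : 0 < x := hX1p.trans_le hxX
  have h5 := hX x ((le_max_left _ _).trans hxX)
  have e1 : y ^ (-c3) = x ^ c3 := by
    rw [hx, Real.inv_rpow hy.le, ← Real.rpow_neg hy.le]
  have e2 : 1 / y = x := one_div y
  rw [e1, e2]
  have hxc : 0 < x ^ c3 := Real.rpow_pos_of_pos hx0 c3
  have hxc2 : x ^ c3 = x ^ (c3 / 2) * x ^ (c3 / 2) := by
    rw [← Real.rpow_add hx0]
    congr 1
    ring
  have hxc3 : 0 < x ^ (c3 / 2) := Real.rpow_pos_of_pos hx0 _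
  have h6 := mul_le_mul_of_nonneg_right h5 hxc.le
  refine le_trans (le_of_eq ?_) h6
  rw [add_mul]
  congr 1
  · field_simp
  · rw [hxc2]
    field_simp

section axis

variable {β C2 : ℝ}

/-- **145's (f) with `Z = y^(-c3)`**: `Del ≤ A (1 + log (1/y))²` and `ν(R(8F) > r) ≤ e^(-5Z)` -/
theorem lev_f (hb : 0 < b) (hβ : 1 / 4 ≤ β) (hβ2 : β < 1 / 2) (hC2 : 1 ≤ C2) {c3 A : ℝ}
    (hc3 : 0 < c3) (hA : 0 ≤ A) :
    ∃ y0 : ℝ, 0 < y0 ∧ y0 ≤ 1 ∧ ∀ (A0 : ℝ) (Am i : ℕ) (a : ℕ → ℝ) (k w : ℕ → ℕ) (n0 j R : ℕ)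
      (η : ∀ R, Ed (sd i R) → ℤ) (φ : ∀ R, V (sd i R) → ℝ), 4 ≤ i → A0 ≤ 2 ^ i → 1 ≤ Am →
      KnW b β C2 A0 Am i a k w n0 j R → Rb k w n0 0 ≤ R → 8 ≤ R → Pth i η →
      ∀ (t r y : ℝ), 0 < t → 0 ≤ r → r ≤ 2 → 0 < y → y ≤ y0 →
      H856.Dl.Del (wTD (sd i R) b) (t • 1) t 0 (η R) (φ R) ≤ A * (1 + Real.log (1 / y)) ^ 2 →
      (nuF b (sd i) t R).real (Ag (wTD (sd i R) b) (t • 1) t 0 4 r)ᶜ ≤
        Real.exp (-(5 * y ^ (-c3))) →
      ∀ E : Set (V (sd i R) → ℝ), MeasurableSet E →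
      ∫ F in E, PsF b (sd i) (fun R => wTD (sd i R) b (η R)) φ t R F ∂(nuF b (sd i) t R) ≤
        cMn b (sd i) (fun R => wTD (sd i R) b (η R)) R * (Real.exp (-(2 * y ^ (-c3))) +
          Real.exp (y ^ (-c3) / 4) * Real.sqrt ((nuF b (sd i) t R).real E)) := by
  obtain ⟨C, hC, h⟩ := lev_qf (b := b) (β := β) (C2 := C2) hb hβ hβ2 hC2
  obtain ⟨y0, h0, h01, hy⟩ := log_small hc3 C (4 * A) (1 / 4) (by norm_num)
  refine ⟨y0, h0, h01, fun A0 Am i a k w n0 j R η φ hi hA0 hAm K hR0 hR hη t r y ht hr0 hr2 hy0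
    hyy hΔ hν E hE => ?_⟩
  have h1 := hy y hy0 hyy
  have h2 := h A0 Am i a k w n0 j R η φ hi hA0 hAm K hR0 hR hη t r
    (A * (1 + Real.log (1 / y)) ^ 2) (y ^ (-c3)) ht hr0 hr2 (mul_nonneg hA (sq_nonneg _))
    (Real.rpow_nonneg hy0.le _) hΔ (by linarith) hν E hE
  rw [mul_comm (cMn b (sd i) (fun R => wTD (sd i R) b (η R)) R)]
  exact h2

end axis

/-- **`NumS` of a level** from the numbers of 686's `loc_G`: `q = e^(-2Z) + e^(Z/4) √bb`,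
`Λ = K e^(Z/16 + 1)` -/
theorem numS_S {c3 : ℝ} (hc3 : 0 < c3) (c4 A : ℝ) (hA : 0 ≤ A) :
    ∃ y0 : ℝ, 0 < y0 ∧ y0 ≤ 1 ∧ ∀ y : ℝ, 0 < y → y ≤ y0 →
      ∀ K δ bb h τ η κP bW : ℝ, 1 ≤ K → K ≤ Real.exp (A * (1 + Real.log (1 / y)) ^ 2) →
      0 ≤ δ → δ ≤ y ^ (1 + c4) → 0 ≤ bb → bb ≤ 16 * Real.exp (-(4 * y ^ (-c3))) → 0 ≤ h →
      h ≤ 1 / 40 → 0 ≤ τ → τ ≤ Real.exp (-y ^ (-c3)) → 0 ≤ η → η ≤ 1 / 500 → 0 ≤ κP →
      κP ≤ 1 / 30 → 0 ≤ bW → bW ≤ Real.exp (-y ^ (-c3)) →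
      NumS y c3 c4 δ (Real.exp (-(2 * y ^ (-c3))) + Real.exp (y ^ (-c3) / 4) * Real.sqrt bb) bb
        (K * Real.exp (y ^ (-c3) / 16 + 1)) h τ η κP bW := by
  obtain ⟨y0, h0, h01, hy⟩ := log_small hc3 9 A (1 / 16) (by norm_num)
  refine ⟨y0, h0, h01, fun y hy0 hyy K δ bb h τ η κP bW hK1 hK2 hδ0 hδ1 hb0 hb1 hh0 hh1 hτ0 hτ1
    hη0 hη1 hκ0 hκ1 hw0 hw1 => ?_⟩
  have h1 := hy y hy0 hyy
  set Z := y ^ (-c3) with hZ
  have hZ0 : 0 ≤ Z := Real.rpow_nonneg hy0.le _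
  have hsq : 0 ≤ A * (1 + Real.log (1 / y)) ^ 2 := mul_nonneg hA (sq_nonneg _)
  have hZ9 : 144 ≤ Z := by linarith
  have h16 : (16 : ℝ) ≤ Real.exp 4 := by
    have h8 : Real.exp 4 = Real.exp 1 ^ 4 := by rw [← Real.exp_nat_mul]; norm_num
    rw [h8]
    have h9 : (2 : ℝ) ≤ Real.exp 1 := by have := Real.exp_one_gt_d9; linarith
    calc (16 : ℝ) = 2 ^ 4 := by norm_num
      _ ≤ _ := pow_le_pow_left₀ (by norm_num) h9 4
  have hbb : bb ≤ Real.exp (4 - 4 * Z) := by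
    rw [show (4 : ℝ) - 4 * Z = 4 + -(4 * Z) by ring, Real.exp_add]
    exact hb1.trans (mul_le_mul_of_nonneg_right h16 (Real.exp_pos _).le)
  have hsb : Real.sqrt bb ≤ Real.exp (2 - 2 * Z) := by
    refine Real.sqrt_le_iff.2 ⟨(Real.exp_pos _).le, hbb.trans (le_of_eq ?_)⟩
    rw [← Real.exp_nat_mul]
    congr 1
    push_cast
    ring
  have hneg : ∀ x : ℝ, -y ^ (-c3) = -Z := fun _ => rfl
  refine ⟨hδ0, hδ1, ?_, ?_, hb0, ?_, ?_, ?_, hh0, hh1, hτ0, hτ1, hη0, hη1, hκ0, hκ1, hw0, hw1⟩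
  · positivity
  · have e1 : Real.exp (Z / 4) * Real.sqrt bb ≤ Real.exp (2 - 7 / 4 * Z) := by
      calc Real.exp (Z / 4) * Real.sqrt bb ≤ Real.exp (Z / 4) * Real.exp (2 - 2 * Z) :=
            mul_le_mul_of_nonneg_left hsb (Real.exp_pos _).le
        _ = _ := by rw [← Real.exp_add]; congr 1; ring
    have e2 : Real.exp (-(2 * Z)) ≤ Real.exp (-Z) * (1 / 2) := by
      have e3 : Real.exp (-(2 * Z)) = Real.exp (-Z) * Real.exp (-Z) := by
        rw [← Real.exp_add]; congr 1; ring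
      rw [e3]
      refine mul_le_mul_of_nonneg_left ?_ (Real.exp_pos _).le
      have e4 : Real.exp (-Z) ≤ Real.exp (-1) := Real.exp_le_exp.2 (by linarith)
      have e5 : Real.exp (-1) ≤ 1 / 2 := by
        rw [Real.exp_neg, inv_le_comm₀ (Real.exp_pos _) (by norm_num)]
        have := Real.exp_one_gt_d9
        norm_num
        linarith
      linarith
    have e6 : Real.exp (2 - 7 / 4 * Z) ≤ Real.exp (-Z) * (1 / 2) := by
      have e3 : Real.exp (2 - 7 / 4 * Z) = Real.exp (-Z) * Real.exp (2 - 3 / 4 * Z) := by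
        rw [← Real.exp_add]; congr 1; ring
      rw [e3]
      refine mul_le_mul_of_nonneg_left ?_ (Real.exp_pos _).le
      have e4 : Real.exp (2 - 3 / 4 * Z) ≤ Real.exp (-1) := Real.exp_le_exp.2 (by linarith)
      have e5 : Real.exp (-1) ≤ 1 / 2 := by
        rw [Real.exp_neg, inv_le_comm₀ (Real.exp_pos _) (by norm_num)]
        have := Real.exp_one_gt_d9
        norm_num
        linarith
      linarith
    linarith
  · exact hbb.trans (Real.exp_le_exp.2 (by linarith))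
  · have : 1 ≤ Real.exp (Z / 16 + 1) := Real.one_le_exp (by linarith)
    nlinarith
  · calc K * Real.exp (Z / 16 + 1) ≤
        Real.exp (A * (1 + Real.log (1 / y)) ^ 2) * Real.exp (Z / 16 + 1) :=
          mul_le_mul_of_nonneg_right hK2 (Real.exp_pos _).le
      _ = Real.exp (A * (1 + Real.log (1 / y)) ^ 2 + (Z / 16 + 1)) := (Real.exp_add _ _).symm
      _ ≤ Real.exp (Z / 8) := Real.exp_le_exp.2 (by linarith)

end

end Vale.Agent.P159.H552.Lq
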