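import Vale.Agent.P159.H552.Ln2

/-!
P159 / S list (helper552): **tails of the dislocation functional at rough backgrounds**, abstract
part (helper883's row 5635 (3), (4)).

`g D F = log (Z(D + F) / Z(0)) + q(F)/2` for `D` in the group of the dislocated configurations and
`F` a real field, `R(F) = g 0 F`. Ginibre: `2 g(X) + 2 g(Y) ≤ g(X + Y) + g(X - Y)`; `g D` is convex.
`log Ψ_D(F) = g D F - g 0 F`.
-/

set_option linter.unusedSectionVars false

namespace Vale.Agent.P159.H552.Tl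

open Finset Matrix MeasureTheory

noncomputable section

/-- the parallelogram inequality (reversed sign), convexity along the real fields -/
structure GK {A Fd : Type*} [AddCommGroup A] [AddCommGroup Fd] [Module ℝ Fd] (g : A → Fd → ℝ) :
    Prop where
  zero : g 0 0 = 0
  par : ∀ (D D' : A) (F F' : Fd),
    2 * g D F + 2 * g D' F' ≤ g (D + D') (F + F') + g (D - D') (F - F')
  conv : ∀ D, ConvexOn ℝ Set.univ (g D)

section det

variable {A Fd : Type*} [AddCommGroup A] [AddCommGroup Fd] [Module ℝ Fd] {g : A → Fd → ℝ}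

lemma GK.neg_le (h : GK g) (D : A) (F : Fd) : g D F ≤ g (-D) (-F) := by
  have h1 := h.par 0 D 0 F
  rw [zero_add, zero_add, zero_sub, zero_sub, h.zero] at h1
  linarith

lemma GK.neg (h : GK g) (D : A) (F : Fd) : g (-D) (-F) = g D F := by
  have h1 := h.neg_le D F
  have h2 := h.neg_le (-D) (-F)
  rw [neg_neg, neg_neg] at h2
  linarith

lemma GK.R_neg (h : GK g) (F : Fd) : g 0 (-F) = g 0 F := by
  have h1 := h.neg 0 F
  rwa [neg_zero] at h1

/-- convexity, two points -/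
lemma GK.cv (h : GK g) (D : A) (F F' : Fd) {a b : ℝ} (ha : 0 ≤ a) (hb : 0 ≤ b) (hab : a + b = 1) :
    g D (a • F + b • F') ≤ a * g D F + b * g D F' :=
  (h.conv D).2 (Set.mem_univ _) (Set.mem_univ _) ha hb hab

lemma GK.R_nonneg (h : GK g) (F : Fd) : 0 ≤ g 0 F := by
  have h1 := h.cv 0 F (-F) (a := 1 / 2) (b := 1 / 2) (by norm_num) (by norm_num) (by norm_num)
  rw [smul_neg, add_neg_cancel, h.zero, h.R_neg] at h1
  linarith

/-- convexity from the origin: `g D F - g D 0 ≤ (g D (s F) - g D 0)/s` -/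
lemma GK.ray (h : GK g) (D : A) (F : Fd) {s : ℝ} (hs : 1 ≤ s) :
    s * (g D F - g D 0) ≤ g D (s • F) - g D 0 := by
  have hs0 : 0 < s := by linarith
  have hi : s⁻¹ * s = 1 := inv_mul_cancel₀ hs0.ne'
  have hi1 : s⁻¹ ≤ 1 := by
    rw [inv_le_one_iff₀]
    exact Or.inr hs
  have h1 := h.cv D (s • F) 0 (a := s⁻¹) (b := 1 - s⁻¹) (by positivity) (by linarith) (by ring)
  rw [smul_smul, hi, one_smul, smul_zero, add_zero] at h1
  have h2 := mul_le_mul_of_nonneg_left h1 hs0.le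
  have e : s * (s⁻¹ * g D (s • F) + (1 - s⁻¹) * g D 0) =
      (s⁻¹ * s) * g D (s • F) + (s - s⁻¹ * s) * g D 0 := by ring
  rw [e, hi] at h2
  linarith

lemma GK.R_ray (h : GK g) (F : Fd) {s : ℝ} (hs : 1 ≤ s) : s * g 0 F ≤ g 0 (s • F) := by
  have h1 := h.ray 0 F hs
  rw [h.zero, sub_zero, sub_zero] at h1
  exact h1

lemma GK.R_mono (h : GK g) (F : Fd) {s s' : ℝ} (hs : 0 ≤ s) (hss : s ≤ s') :
    g 0 (s • F) ≤ g 0 (s' • F) := by
  rcases eq_or_lt_of_le hs with h0 | h0
  · rw [← h0, zero_smul, h.zero]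
    exact h.R_nonneg _
  · have h1 := h.R_ray (s • F) (s := s' / s) ((one_le_div h0).2 hss)
    rw [smul_smul, div_mul_cancel₀ _ h0.ne'] at h1
    have h2 : 1 * g 0 (s • F) ≤ s' / s * g 0 (s • F) :=
      mul_le_mul_of_nonneg_right ((one_le_div h0).2 hss) (h.R_nonneg _)
    linarith

/-- Ginibre at `(D, F)` and `(D', 0)` -/
lemma GK.second (h : GK g) (D D' : A) (F : Fd) :
    2 * g D F + 2 * g D' 0 ≤ g (D + D') F + g (D - D') F := by
  have h1 := h.par D D' F 0
  rwa [add_zero, sub_zero] at h1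

/-- Ginibre at `(D, 0)` and `(0, F)` -/
lemma GK.even_ge (h : GK g) (D : A) (F : Fd) :
    2 * g D 0 + 2 * g 0 F ≤ g D F + g D (-F) := by
  have h1 := h.par D 0 0 F
  rwa [add_zero, sub_zero, zero_add, zero_sub] at h1

/-- Ginibre at `(D, F)` and `(D, -F)` -/
lemma GK.even_le (h : GK g) (D : A) (F : Fd) :
    2 * g D F + 2 * g D (-F) ≤ g (D + D) 0 + g 0 ((2 : ℝ) • F) := by
  have h1 := h.par D D F (-F)
  rwa [add_neg_cancel, sub_self, sub_neg_eq_add, ← two_smul ℝ F] at h1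

/-- **`Δ` from one field**: `(3)` of row 5635 -/
theorem GK.delta (h : GK g) (D : A) (F : Fd) {L lam kap s : ℝ} (hs : 1 < s)
    (h1 : L - lam ≤ g D F) (h2 : L - lam ≤ g D (-F)) (hk : g (D + D) 0 ≤ 4 * L + 2 * kap) :
    L - g D 0 ≤ s / (s - 1) * (lam + (kap + g 0 ((2 * s) • F) / 2) / (2 * s)) := by
  have hs0 : 0 < s := by linarith
  have hs1 : 0 < s - 1 := by linarith
  have r1 := h.ray D F hs.le
  have r2 := h.ray D (-F) hs.le
  have r3 := h.even_le D (s • F)
  rw [smul_neg] at r2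
  rw [smul_smul] at r3
  have h3 : s * (L - lam) ≤ s * g D F := mul_le_mul_of_nonneg_left h1 hs0.le
  have h4 : s * (L - lam) ≤ s * g D (-F) := mul_le_mul_of_nonneg_left h2 hs0.le
  have key : (s - 1) * (L - g D 0) ≤ s * (lam + (kap + g 0 ((2 * s) • F) / 2) / (2 * s)) := by
    have e : s * (lam + (kap + g 0 ((2 * s) • F) / 2) / (2 * s)) =
        s * lam + (kap + g 0 ((2 * s) • F) / 2) / 2 := by
      field_simp
    rw [e]
    nlinarith
  rw [div_mul_eq_mul_div, le_div_iff₀ hs1]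
  linarith

/-- second power: `2 log Ψ_D(F) + 2 g D 0 ≤ log Ψ_{2D}(F)` -/
lemma GK.pow2 (h : GK g) (D : A) (F : Fd) :
    2 * (g D F - g 0 F) + 2 * g D 0 ≤ g (D + D) F - g 0 F := by
  have h1 := h.second D D F
  rw [sub_self] at h1
  linarith

/-- fourth power: `4 log Ψ_D(F) + 12 g D 0 ≤ log Ψ_{4D}(F)` -/
lemma GK.pow4 (h : GK g) (D : A) (F : Fd) :
    4 * (g D F - g 0 F) + 12 * g D 0 ≤ g (D + D + (D + D)) F - g 0 F := by
  have h1 := h.pow2 D F
  have h2 := h.pow2 (D + D) F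
  have h3 := h.pow2 D 0
  rw [h.zero] at h3
  linarith

/-- lower bound on a symmetric pair -/
lemma GK.low (h : GK g) (D : A) (F : Fd) {L lam : ℝ} (h2 : g D (-F) ≤ L + lam) :
    L - 2 * (L - g D 0) - lam + 2 * g 0 F ≤ g D F := by
  have h1 := h.even_ge D F
  linarith

/-- **amplitude `s`**: `(4)` of row 5635 -/
theorem GK.amp (h : GK g) (D : A) (F : Fd) {L lam kap s : ℝ} (hs : 0 ≤ s)
    (h1 : g D F ≤ L + lam) (hk : g (D + D) 0 ≤ 4 * L + 2 * kap) :
    g D (s • F) ≤ L + kap + (1 + s) * (L - g D 0) + s * lam + g 0 ((2 * s) • F) / 2 := by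
  have hs1 : 0 < 1 + s := by linarith
  have hi : (1 + s)⁻¹ * (1 + s) = 1 := inv_mul_cancel₀ hs1.ne'
  have r3 := h.even_le D (s • F)
  rw [smul_smul] at r3
  have h2 := h.cv D (-(s • F)) F (a := (1 + s)⁻¹) (b := (1 + s)⁻¹ * s) (by positivity)
    (by positivity) (by linear_combination hi)
  rw [smul_neg, smul_smul, neg_add_cancel] at h2
  have h3 := mul_le_mul_of_nonneg_left h2 hs1.le
  have e : (1 + s) * ((1 + s)⁻¹ * g D (-(s • F)) + (1 + s)⁻¹ * s * g D F) =
      ((1 + s)⁻¹ * (1 + s)) * (g D (-(s • F)) + s * g D F) := by ring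
  rw [e, hi, one_mul] at h3
  have h4 : s * g D F ≤ s * (L + lam) := mul_le_mul_of_nonneg_left h1 hs
  nlinarith

/-- convexity at an arbitrary base point -/
lemma GK.ray_at (h : GK g) (D : A) (F v : Fd) {s : ℝ} (hs : 1 ≤ s) :
    s * (g D (F + v) - g D F) ≤ g D (F + s • v) - g D F := by
  have hs0 : 0 < s := by linarith
  have hi : s⁻¹ * s = 1 := inv_mul_cancel₀ hs0.ne'
  have hi1 : s⁻¹ ≤ 1 := by
    rw [inv_le_one_iff₀]
    exact Or.inr hs
  have h1 := h.cv D (F + s • v) F (a := s⁻¹) (b := 1 - s⁻¹) (by positivity) (by linarith) (by ring)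
  have e0 : s⁻¹ • (F + s • v) + (1 - s⁻¹) • F = F + v := by
    rw [smul_add, smul_smul, hi, one_smul, sub_smul, one_smul]
    abel
  rw [e0] at h1
  have h2 := mul_le_mul_of_nonneg_left h1 hs0.le
  have e : s * (s⁻¹ * g D (F + s • v) + (1 - s⁻¹) * g D F) =
      (s⁻¹ * s) * g D (F + s • v) + (s - s⁻¹ * s) * g D F := by ring
  rw [e, hi] at h2
  linarith

/-- **CORE bound**: small moves along a direction with room -/
theorem GK.core (h : GK g) (D : A) (F v : Fd) {s a b : ℝ} (hs : 1 ≤ s)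
    (h1 : g D (F + s • v) ≤ a) (h2 : g D (F - s • v) ≤ a) (h3 : b ≤ g D F) :
    |g D (F + v) - g D F| ≤ (a - b) / s := by
  have hs0 : 0 < s := by linarith
  have r1 := h.ray_at D F v hs
  have r2 := h.ray_at D F (-v) hs
  have r3 := h.cv D (F + v) (F + -v) (a := 1 / 2) (b := 1 / 2) (by norm_num) (by norm_num)
    (by norm_num)
  have e : (1 / 2 : ℝ) • (F + v) + (1 / 2 : ℝ) • (F + -v) = F := by
    rw [← smul_add]
    have : F + v + (F + -v) = (2 : ℝ) • F := by
      rw [two_smul]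
      abel
    rw [this, smul_smul]
    norm_num
  rw [e] at r3
  have e2 : F + s • -v = F - s • v := by rw [smul_neg, sub_eq_add_neg]
  rw [e2] at r2
  rw [abs_le]
  constructor
  · have h5 : g D F - g D (F + v) ≤ g D (F + -v) - g D F := by linarith
    have h6 := mul_le_mul_of_nonneg_left h5 hs0.le
    have h4 : s * (g D F - g D (F + v)) ≤ a - b := by linarith
    have h7 : g D F - g D (F + v) ≤ (a - b) / s := by
      rw [le_div_iff₀ hs0]
      linarith
    linarith
  · rw [le_div_iff₀ hs0]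
    linarith

/-! ### the good set -/

/-- the good set: `Ψ` is not large in `F` and in `-F`, the undislocated remainder is small -/
def GG (g : A → Fd → ℝ) (D : A) (L lam del : ℝ) : Set Fd :=
  {F | g D F ≤ L + lam ∧ g D (-F) ≤ L + lam ∧ g 0 ((4 : ℝ) • F) ≤ del}

lemma GG_neg (h : GK g) {D : A} {L lam del : ℝ} {F : Fd} (hF : F ∈ GG g D L lam del) :
    -F ∈ GG g D L lam del := by
  obtain ⟨h1, h2, h3⟩ := hF
  refine ⟨h2, ?_, ?_⟩
  · rwa [neg_neg]
  · rwa [smul_neg, h.R_neg]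

theorem GG_convex (h : GK g) (D : A) (L lam del : ℝ) : Convex ℝ (GG g D L lam del) := by
  intro F hF F' hF' a b ha hb hab
  obtain ⟨h1, h2, h3⟩ := hF
  obtain ⟨k1, k2, k3⟩ := hF'
  have hc : ∀ x y z : ℝ, x ≤ z → y ≤ z → a * x + b * y ≤ z := by
    intro x y z hx hy
    have e1 := mul_le_mul_of_nonneg_left hx ha
    have e2 := mul_le_mul_of_nonneg_left hy hb
    calc a * x + b * y ≤ a * z + b * z := add_le_add e1 e2
      _ = (a + b) * z := by ring
      _ = z := by rw [hab, one_mul]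
  refine ⟨(h.cv D F F' ha hb hab).trans (hc _ _ _ h1 k1), ?_, ?_⟩
  · have e : -(a • F + b • F') = a • -F + b • -F' := by
      rw [smul_neg, smul_neg, neg_add]
    rw [e]
    exact (h.cv D (-F) (-F') ha hb hab).trans (hc _ _ _ h2 k2)
  · have e : (4 : ℝ) • (a • F + b • F') = a • ((4 : ℝ) • F) + b • ((4 : ℝ) • F') := by
      rw [smul_add, smul_comm (4 : ℝ) a F, smul_comm (4 : ℝ) b F']
    rw [e]
    exact (h.cv 0 _ _ ha hb hab).trans (hc _ _ _ h3 k3)

/-- upper bound of `log Ψ` on the good set -/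
lemma GG_le (h : GK g) {D : A} {L lam del : ℝ} {F : Fd} (hF : F ∈ GG g D L lam del) :
    g D F - g 0 F ≤ L + lam := by
  have := h.R_nonneg F
  linarith [hF.1]

/-- lower bound of `log Ψ` on the good set -/
lemma GG_ge (h : GK g) {D : A} {L lam del : ℝ} {F : Fd} (hF : F ∈ GG g D L lam del) :
    L - 2 * (L - g D 0) - lam ≤ g D F - g 0 F := by
  have h1 := h.low D F hF.2.1
  have h2 := h.R_nonneg F
  linarith

/-- the remainder at amplitude one on the good set -/
lemma GG_R (h : GK g) {D : A} {L lam del : ℝ} {F : Fd} (hF : F ∈ GG g D L lam del) :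
    g 0 F ≤ del / 4 := by
  have h1 := h.R_ray F (s := 4) (by norm_num)
  linarith [hF.2.2]

end det

end

end Vale.Agent.P159.H552.Tl
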