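import Vale.Agent.P159.H883.Twr3

/-!
P159, helper552, module Tl2: smeared Ginibre inequalities (SM), (SM2), general centre.

* `psdf_sum` : a positive semidefinite kernel over any finite index type,
* `csw` : Cauchy-Schwarz of a finite combination against one vector,
* `sm_gen` : for an even `Z` with `PSDF (kk Z)`:
  `(∑ p_u Z (d_u + x + y) Z (d_u + x - y))² ≤
     (∑ p_u p_v Z (d_u + d_v + (x + x)) Z (d_u - d_v)) * (Z (y + y) * Z 0)`,
* `ZG w M X = Zn (w X.1) M X.2` on `B × (V → ℝ)`, `GWF.psdZG`, `GWF.negZG`, `GWF.posZG`,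
* `GWF.smZG` : the inequality for `Zn`.
-/

open scoped ENNReal Matrix
open Finset

set_option linter.unusedSectionVars false

namespace Vale.Agent.P159.H552.Sm

open Vale.Agent.P159.H770 (PSDF DisF GWF ZB)
open Vale.Agent.P159.H37
open Vale.Agent.P159.H789 (disc kk PSDK)
open Vale.Agent.P159.H963 (GrI pin Neu ntr nM MF GW)

noncomputable section

/-! ### abstract part -/

section abs

variable {X : Type*} {ι κ : Type*} [Fintype ι] [Fintype κ]

theorem psdf_sum {K : X → X → ℝ} (h : PSDF K) (p : ι → X) (x : ι → ℝ) :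
    0 ≤ ∑ i, ∑ j, x i * x j * K (p i) (p j) := by
  have h1 := h (Fintype.card ι) (fun i => p ((Fintype.equivFin ι).symm i))
    fun i => x ((Fintype.equivFin ι).symm i)
  rw [(Fintype.equivFin ι).symm.sum_comp fun i => ∑ j, x i *
    x ((Fintype.equivFin ι).symm j) * K (p i) (p ((Fintype.equivFin ι).symm j))] at h1
  refine le_of_le_of_eq h1 (Finset.sum_congr rfl fun i _ => ?_)
  exact (Fintype.equivFin ι).symm.sum_comp fun j => x i * x j * K (p i) (p j)

/-- Cauchy-Schwarz, combination against combination -/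
theorem csw2 {K : X → X → ℝ} (h : PSDF K) (hs : ∀ a c, K a c = K c a) (p : ι → X) (x : ι → ℝ)
    (q : κ → X) (y : κ → ℝ) :
    (∑ i, ∑ j, x i * y j * K (p i) (q j)) ^ 2 ≤
      (∑ i, ∑ j, x i * x j * K (p i) (p j)) * ∑ i, ∑ j, y i * y j * K (q i) (q j) := by
  refine disc fun s t => ?_
  have h1 := psdf_sum h (Sum.elim p q) (Sum.elim (fun i => s * x i) fun j => t * y j)
  rw [Fintype.sum_sum_type] at h1
  simp only [Fintype.sum_sum_type, Sum.elim_inl, Sum.elim_inr, Finset.sum_add_distrib] at h1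
  have e1 : ∑ i, ∑ j, s * x i * (s * x j) * K (p i) (p j) =
      s ^ 2 * ∑ i, ∑ j, x i * x j * K (p i) (p j) := by
    rw [Finset.mul_sum]
    refine Finset.sum_congr rfl fun i _ => ?_
    rw [Finset.mul_sum]
    exact Finset.sum_congr rfl fun j _ => by ring
  have e2 : ∑ i, ∑ j, s * x i * (t * y j) * K (p i) (q j) =
      s * t * ∑ i, ∑ j, x i * y j * K (p i) (q j) := by
    rw [Finset.mul_sum]
    refine Finset.sum_congr rfl fun i _ => ?_
    rw [Finset.mul_sum]
    exact Finset.sum_congr rfl fun j _ => by ring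
  have e3 : ∑ i, ∑ j, t * y i * (s * x j) * K (q i) (p j) =
      s * t * ∑ i, ∑ j, x i * y j * K (p i) (q j) := by
    rw [Finset.sum_comm, Finset.mul_sum]
    refine Finset.sum_congr rfl fun i _ => ?_
    rw [Finset.mul_sum]
    exact Finset.sum_congr rfl fun j _ => by rw [hs (q j) (p i)]; ring
  have e4 : ∑ i, ∑ j, t * y i * (t * y j) * K (q i) (q j) =
      t ^ 2 * ∑ i, ∑ j, y i * y j * K (q i) (q j) := by
    rw [Finset.mul_sum]
    refine Finset.sum_congr rfl fun i _ => ?_
    rw [Finset.mul_sum]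
    exact Finset.sum_congr rfl fun j _ => by ring
  rw [e1, e2, e3, e4] at h1
  linarith

/-- Cauchy-Schwarz of a combination against one vector -/
theorem csw {K : X → X → ℝ} (h : PSDF K) (hs : ∀ a c, K a c = K c a) (p : ι → X) (x : ι → ℝ)
    (q : X) :
    (∑ i, x i * K (p i) q) ^ 2 ≤ (∑ i, ∑ j, x i * x j * K (p i) (p j)) * K q q := by
  have h1 := csw2 h hs p x (fun _ : Fin 1 => q) fun _ => 1
  simpa using h1

end abs

section grp

variable {A : Type*} [AddCommGroup A] {ι : Type*} [Fintype ι] {Z : A → ℝ}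

theorem kk_symm (he : ∀ a, Z (-a) = Z a) (a c : A) : kk Z a c = kk Z c a := by
  unfold kk
  rw [add_comm a c, ← he (a - c), neg_sub]

/-- **smeared Ginibre, general centre** -/
theorem sm_gen (hK : PSDF (kk Z)) (he : ∀ a, Z (-a) = Z a) (p : ι → ℝ) (d : ι → A) (x y : A) :
    (∑ u, p u * (Z (d u + x + y) * Z (d u + x - y))) ^ 2 ≤
      (∑ u, ∑ v, p u * p v * (Z (d u + d v + (x + x)) * Z (d u - d v))) * (Z (y + y) * Z 0) := by
  have h1 := csw hK (kk_symm he) (fun u => d u + x) p y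
  have e1 : kk Z y y = Z (y + y) * Z 0 := by
    unfold kk
    rw [sub_self]
  have e2 : ∀ u v, kk Z (d u + x) (d v + x) = Z (d u + d v + (x + x)) * Z (d u - d v) := by
    intro u v
    unfold kk
    rw [show d u + x + (d v + x) = d u + d v + (x + x) by abel,
      show d u + x - (d v + x) = d u - d v by abel]
  rw [e1] at h1
  simp only [e2] at h1
  exact h1

/-- **(SM)**: background `y`, centre `0` -/
theorem sm_zero (hK : PSDF (kk Z)) (he : ∀ a, Z (-a) = Z a) (p : ι → ℝ) (d : ι → A) (y : A) :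
    (∑ u, p u * (Z (d u + y) * Z (d u - y))) ^ 2 ≤
      (∑ u, ∑ v, p u * p v * (Z (d u + d v) * Z (d u - d v))) * (Z (y + y) * Z 0) := by
  have h := sm_gen hK he p d 0 y
  simpa only [add_zero] using h

/-- **(SM2)**: the smeared functional itself, background `y + y` -/
theorem sm_two (hK : PSDF (kk Z)) (he : ∀ a, Z (-a) = Z a) (p : ι → ℝ) (d : ι → A) (y : A) :
    (∑ u, p u * (Z (d u + (y + y)) * Z (d u))) ^ 2 ≤
      (∑ u, ∑ v, p u * p v * (Z (d u + d v + (y + y)) * Z (d u - d v))) *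
        (Z (y + y) * Z 0) := by
  have h := sm_gen hK he p d y y
  have e1 : ∀ u, d u + y + y = d u + (y + y) := fun u => add_assoc _ _ _
  have e2 : ∀ u, d u + y - y = d u := fun u => add_sub_cancel_right _ _
  simpa only [e1, e2] using h

end grp

/-! ### neutral partition functions -/

section gwf

variable {B V : Type} [AddCommGroup B] [Fintype V] {w : B → (V → ℤ) → ℝ}
variable {M : Matrix V V ℝ} {m : ℝ}

/-- the neutral partition function on dislocations and real backgrounds -/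
def ZG (w : B → (V → ℤ) → ℝ) (M : Matrix V V ℝ) (X : B × (V → ℝ)) : ℝ := Zn (w X.1) M X.2

variable [DecidableEq V] [Nonempty V]

theorem posZG (hw : GWF w) (hM : MF M m) (X : B × (V → ℝ)) : 0 < ZG w M X :=
  hw.Zn_pos hM X.1 X.2

theorem psdZG (hw : GWF w) (hM : MF M m) : PSDF (kk (ZG w M)) := by
  have x₀ : V := Classical.arbitrary V
  have hN : (0 : ℝ) < Fintype.card V := Nat.cast_pos.2 Fintype.card_pos
  have hm := hM.pos
  have h0 : PSDF (kk (ZB fun b => nM (w b) M m x₀)) := (hw.disF_nM hM x₀).psdk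
  have h1 := h0.comp fun X : B × (V → ℝ) => ((X.1, ntr M m *ᵥ X.2) : B × (V → ℝ))
  have h2 := (h1.rank fun X => Real.exp (-qf (ntr M m) X.2)).smul
    (r := 2 * Real.pi / (m * Fintype.card V)) (by positivity)
  have e : kk (ZG w M) = fun X Y =>
      2 * Real.pi / (m * Fintype.card V) * (Real.exp (-qf (ntr M m) X.2) *
        Real.exp (-qf (ntr M m) Y.2) * kk (ZB fun b => nM (w b) M m x₀)
          ((X.1, ntr M m *ᵥ X.2) : B × (V → ℝ)) (Y.1, ntr M m *ᵥ Y.2)) := by
    funext X Y
    exact hw.Zn_mul hM x₀ (X.1 + Y.1) (X.1 - Y.1) X.2 Y.2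
  rw [e]
  exact h2

theorem negZG (hw : GWF w) (hM : MF M m) (X : B × (V → ℝ)) : ZG w M (-X) = ZG w M X := by
  have x₀ : V := Classical.arbitrary V
  have h1 := hw.Zn_eq hM x₀ (-X.1) (-X.2)
  have h2 := hw.Zn_eq hM x₀ X.1 X.2
  have h3 := (hw.disF_nM hM x₀).neg X.1 (ntr M m *ᵥ X.2)
  unfold ZG
  rw [Prod.fst_neg, Prod.snd_neg, h1, h2, qf_neg, Matrix.mulVec_neg, h3]

variable {ι : Type*} [Fintype ι]

/-- **smeared Ginibre for neutral partition functions, general centre** -/
theorem smZG (hw : GWF w) (hM : MF M m) (p : ι → ℝ) (d : ι → B × (V → ℝ)) (x y : B × (V → ℝ)) :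
    (∑ u, p u * (ZG w M (d u + x + y) * ZG w M (d u + x - y))) ^ 2 ≤
      (∑ u, ∑ v, p u * p v * (ZG w M (d u + d v + (x + x)) * ZG w M (d u - d v))) *
        (ZG w M (y + y) * ZG w M 0) :=
  sm_gen (psdZG hw hM) (negZG hw hM) p d x y

end gwf

end

end Vale.Agent.P159.H552.Sm
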