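import Vale.Agent.P159.H552.Tl5
import Vale.Agent.P159.H856.Dl3

/-!
P159, helper552, module Tl6: second moment of the dislocation functional on the good set and the
transfer of events from `nuM` to the dislocated law. `Del` is 856's zero background number.

* `lX_var'` : `lX X F = ⟨k, A F⟩ ⟹ A[k] ≤ 2 Del`,
* `Gx_le` : `G(F) ≤ (1 - 2/s) G(0) + (G(sF) + G(-sF)) / s + l(F)`, `1 ≤ s`,
* `sq_on` : `∫_{Ag 4 r} Ψ² dν ≤ C² e^{K/2 + 7 Δ}` with `∫_{Ag 4 r} ES 4 ≤ e^K C²`, `Del ≤ Δ`,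
* `QE` : `∫_E Ψ dν ≤ ∫_{(Ag 4 r)ᶜ} Ψ dν + C e^{K/4 + 7 Δ / 2} √ν(E)` for every event `E`.
-/

open scoped Matrix
open Finset Matrix MeasureTheory

set_option linter.unusedSectionVars false

namespace Vale.Agent.P159.H552.Sm

open Vale.Agent.P159.TM.H104 (EM T Ex Cv Lg li nh Gr)
open Vale.Agent.P159.H37
open Vale.Agent.P159.H770 (PSDF DisF GWF ZB)
open Vale.Agent.P159.H963 (GrI pin Neu ntr nM MF GW An)
open Vale.Agent.P159.H883

noncomputable section

/-! ### Cauchy-Schwarz -/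

section cs

variable {Ω : Type*} [MeasurableSpace Ω] {μ : Measure Ω} {f g : Ω → ℝ}

lemma int_mul (hf : Measurable f) (hg : Measurable g) (hf2 : Integrable (fun x => f x ^ 2) μ)
    (hg2 : Integrable (fun x => g x ^ 2) μ) : Integrable (fun x => f x * g x) μ := by
  refine (hf2.add hg2).mono' (hf.mul hg).aestronglyMeasurable
    (Filter.Eventually.of_forall fun x => ?_)
  simp only [Pi.add_apply, Real.norm_eq_abs]
  rw [abs_le]
  constructor <;> nlinarith [sq_nonneg (f x - g x), sq_nonneg (f x + g x)]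

theorem cs2 (hf : Measurable f) (hg : Measurable g) (hf2 : Integrable (fun x => f x ^ 2) μ)
    (hg2 : Integrable (fun x => g x ^ 2) μ) :
    (∫ x, f x * g x ∂μ) ^ 2 ≤ (∫ x, f x ^ 2 ∂μ) * ∫ x, g x ^ 2 ∂μ := by
  have h1 := int_mul hf hg hf2 hg2
  refine H789.disc fun s t => ?_
  have h2 : 0 ≤ ∫ x, (s * f x + t * g x) ^ 2 ∂μ := integral_nonneg fun x => sq_nonneg _
  have e : ∀ x, (s * f x + t * g x) ^ 2 =
      s ^ 2 * f x ^ 2 + 2 * (s * t) * (f x * g x) + t ^ 2 * g x ^ 2 := fun x => by ring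
  simp only [e] at h2
  have i1 : Integrable (fun x => s ^ 2 * f x ^ 2) μ := hf2.const_mul _
  have i2 : Integrable (fun x => 2 * (s * t) * (f x * g x)) μ := h1.const_mul _
  have i3 : Integrable (fun x => t ^ 2 * g x ^ 2) μ := hg2.const_mul _
  have i12 : Integrable (fun x => s ^ 2 * f x ^ 2 + 2 * (s * t) * (f x * g x)) μ := i1.add i2
  rw [integral_add i12 i3, integral_add i1 i2, integral_const_mul, integral_const_mul,
    integral_const_mul] at h2
  linarith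

end cs

variable {B V : Type} [AddCommGroup B] [Fintype V] [DecidableEq V] [Nonempty V]
variable {w : B → (V → ℤ) → ℝ} {M : Matrix V V ℝ} {m : ℝ} {x₀ : V}

/-- 856's letters -/
lemma Del_eq (X : B × (V → ℝ)) :
    H856.Dl.Del w M m x₀ X.1 X.2 = Real.log (CX w x₀ X) - Gx w M m x₀ X 0 := rfl

lemma lX_lD (X : B × (V → ℝ)) (F : V → ℝ) :
    lX w M m x₀ X F = H856.Dl.lD w M m x₀ X.1 X.2 F := by
  unfold lX H856.Dl.lD H513.Amp.ell
  ring

/-- **energy of the tangent functional** -/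
theorem lX_var' (hw : GWF w) (hE : ∀ b x₀, EM (pin (w b) x₀)) (hM : MF M m) (x₀ : V)
    (X : B × (V → ℝ)) {k : V → ℝ} (hk : ∀ F, lX w M m x₀ X F = bf (An (w 0) M m x₀) k F) :
    qf (An (w 0) M m x₀) k ≤ 2 * H856.Dl.Del w M m x₀ X.1 X.2 := by
  have h1 := H856.Dl.lD_sq hw hE hM x₀ X.1 X.2 k
  rw [← lX_lD, hk k, bf_self] at h1
  have h2 : 0 ≤ qf (An (w 0) M m x₀) k := (pc_An (gw0 hw) (gwf_bw hw hE 0) hM x₀).nn k
  have h3 := H856.Dl.Del_nonneg hw hE hM x₀ X.1 X.2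
  rcases eq_or_lt_of_le h2 with h | h
  · rw [← h]
    linarith
  · rw [pow_two] at h1
    exact le_of_mul_le_mul_right h1 h

/-- one sided bound by the even part at amplitude `s` and the tangent -/
theorem Gx_le (hw : GWF w) (hM : MF M m) (X : B × (V → ℝ)) {s : ℝ} (hs : 1 ≤ s) (F : V → ℝ) :
    Gx w M m x₀ X F ≤ (1 - 2 / s) * Gx w M m x₀ X 0 +
      (Gx w M m x₀ X (s • F) + Gx w M m x₀ X (-(s • F))) / s + lX w M m x₀ X F := by
  have hc := Gx_cvx (x₀ := x₀) hw hM X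
  have hs0 : 0 < s := by linarith
  have hi : 0 ≤ 1 / s := by positivity
  have hi1 : 0 ≤ 1 - 1 / s := by
    rw [sub_nonneg, div_le_one hs0]
    exact hs
  have h1 : ∀ G : V → ℝ, Gx w M m x₀ X ((1 / s) • G) ≤
      (1 - 1 / s) * Gx w M m x₀ X 0 + 1 / s * Gx w M m x₀ X G := by
    intro G
    have := hc.2 (Set.mem_univ (0 : V → ℝ)) (Set.mem_univ G) hi1 hi (by ring)
    rwa [smul_zero, zero_add, smul_eq_mul, smul_eq_mul] at this
  have h2 := h1 (s • F)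
  have h3 := h1 (-(s • F))
  have e1 : (1 / s) • s • F = F := by
    rw [smul_smul, one_div, inv_mul_cancel₀ hs0.ne', one_smul]
  have e2 : (1 / s) • (-(s • F)) = -F := by rw [smul_neg, e1]
  rw [e1] at h2
  rw [e2] at h3
  have h4 := lX_tan (x₀ := x₀) hw hM X (-F)
  have e3 : lX w M m x₀ X (-F) = -lX w M m x₀ X F := by
    have : (-F : V → ℝ) = (-1 : ℝ) • F := by simp
    rw [this, lX_smul]
    ring
  rw [e3] at h4
  have e4 : (1 - 2 / s) * Gx w M m x₀ X 0 +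
      (Gx w M m x₀ X (s • F) + Gx w M m x₀ X (-(s • F))) / s =
      2 * (1 - 1 / s) * Gx w M m x₀ X 0 + 1 / s * (Gx w M m x₀ X (s • F) +
        Gx w M m x₀ X (-(s • F))) - Gx w M m x₀ X 0 := by
    field_simp
    ring
  rw [e4]
  linarith

/-- `Ψ² ≤ e^{G(0)} √ES · e^{2 l - 2 R}` -/
lemma Px_sq_le (hw : GWF w) (hM : MF M m) (X : B × (V → ℝ)) (F : V → ℝ) :
    Px w M X F ^ 2 ≤ Real.exp (Gx w M m x₀ X 0) * (Real.sqrt (ES w M m x₀ X 4 F) *
      Real.exp (2 * lX w M m x₀ X F - 2 * Rw w M m x₀ F)) := by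
  have h1 := Gx_le (x₀ := x₀) hw hM X (s := 4) (by norm_num) F
  rw [Px_exp (x₀ := x₀) hw hM X F, ← Real.exp_nat_mul]
  unfold ES
  rw [← Real.exp_half, ← Real.exp_add, ← Real.exp_add]
  refine Real.exp_le_exp.2 ?_
  push_cast
  linarith

/-- **second moment on the good set** -/
theorem sq_on (hw : GWF w) (hE : ∀ b x₀, EM (pin (w b) x₀)) (hM : MF M m) (x₀ : V)
    (X : B × (V → ℝ)) {r K Δ : ℝ}
    (hi : IntegrableOn (ES w M m x₀ X 4) (Ag w M m x₀ 4 r) (nuM (w 0) M x₀))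
    (hK : ∫ F in Ag w M m x₀ 4 r, ES w M m x₀ X 4 F ∂(nuM (w 0) M x₀) ≤
      Real.exp K * CX w x₀ X ^ 2)
    (hΔ : H856.Dl.Del w M m x₀ X.1 X.2 ≤ Δ) :
    IntegrableOn (fun F => Px w M X F ^ 2) (Ag w M m x₀ 4 r) (nuM (w 0) M x₀) ∧
    ∫ F in Ag w M m x₀ 4 r, Px w M X F ^ 2 ∂(nuM (w 0) M x₀) ≤
      CX w x₀ X ^ 2 * Real.exp (K / 2 + 7 * Δ) := by
  set ν := nuM (w 0) M x₀ with hν
  set A := Ag w M m x₀ 4 r with hA
  have hCpos := CX_pos hw hE x₀ X
  obtain ⟨k, hk⟩ := lX_rep hw hE hM x₀ X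
  -- exponential moment of the tangent
  have hk4 : ∀ F, bf (An (w 0) M m x₀) ((4 : ℝ) • k) F = 4 * lX w M m x₀ X F := fun F => by
    rw [bf_smul_left, hk F]
  obtain ⟨g1, g2⟩ := gid (gw0 hw) (gwf_bw hw hE 0) hM x₀ ((4 : ℝ) • k)
  have hRc : Continuous (Rw w M m x₀) := cont_Rw hw hE hM
  have hlc : Continuous (lX w M m x₀ X) := by
    have e : lX w M m x₀ X = fun F => bf (An (w 0) M m x₀) k F := funext hk
    rw [e]
    exact bf_cont _ k
  have hR0 : ∀ F, 0 ≤ Rw w M m x₀ F := fun F => R1_nonneg (gw0 hw) hM x₀ F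
  set g : (V → ℝ) → ℝ := fun F => Real.exp (2 * lX w M m x₀ X F - 2 * Rw w M m x₀ F) with hg
  set f : (V → ℝ) → ℝ := fun F => Real.sqrt (ES w M m x₀ X 4 F) with hf
  have hgm : Measurable g := (Real.continuous_exp.comp
    ((continuous_const.mul hlc).sub (continuous_const.mul hRc))).measurable
  have hfm : Measurable f := (Real.continuous_sqrt.comp (cont_ES hw hE hM X 4)).measurable
  have hf2 : ∀ F, f F ^ 2 = ES w M m x₀ X 4 F := fun F => Real.sq_sqrt (ES_pos _ _ _).le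
  have hg2 : ∀ F, g F ^ 2 ≤ Real.exp (bf (An (w 0) M m x₀) ((4 : ℝ) • k) F -
      R1 (w 0) M m x₀ F) := by
    intro F
    rw [hg, ← Real.exp_nat_mul, hk4, ← Rw_R1]
    refine Real.exp_le_exp.2 ?_
    push_cast
    linarith [hR0 F]
  have ig2 : Integrable (fun F => g F ^ 2) ν := by
    refine g1.mono' (hgm.pow_const 2).aestronglyMeasurable (Filter.Eventually.of_forall fun F => ?_)
    rw [Real.norm_eq_abs, abs_of_nonneg (sq_nonneg _)]
    exact hg2 F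
  have ig2A : Integrable (fun F => g F ^ 2) (ν.restrict A) := ig2.restrict
  have if2A : Integrable (fun F => f F ^ 2) (ν.restrict A) := by
    simp only [hf2]
    exact hi
  have hcs := cs2 hfm hgm if2A ig2A
  simp only [hf2] at hcs
  have hpt : ∀ F, Px w M X F ^ 2 ≤ Real.exp (Gx w M m x₀ X 0) * (f F * g F) := fun F =>
    Px_sq_le (x₀ := x₀) hw hM X F
  have ifg : Integrable (fun F => f F * g F) (ν.restrict A) := int_mul hfm hgm if2A ig2A
  have hP2 : Integrable (fun F => Px w M X F ^ 2) (ν.restrict A) := by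
    refine (ifg.const_mul (Real.exp (Gx w M m x₀ X 0))).mono'
      (((cont_Px hw hE hM X).pow 2).measurable).aestronglyMeasurable
      (Filter.Eventually.of_forall fun F => ?_)
    rw [Real.norm_eq_abs, abs_of_nonneg (sq_nonneg _)]
    exact hpt F
  refine ⟨hP2, ?_⟩
  have h6 : ∫ F in A, Px w M X F ^ 2 ∂ν ≤
      Real.exp (Gx w M m x₀ X 0) * ∫ F in A, f F * g F ∂ν := by
    rw [← integral_const_mul]
    exact integral_mono hP2 (ifg.const_mul _) hpt
  have h9 : Real.exp (Gx w M m x₀ X 0) = CX w x₀ X *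
      Real.exp (-(Real.log (CX w x₀ X) - Gx w M m x₀ X 0)) := by
    rw [neg_sub, Real.exp_sub, Real.exp_log hCpos]
    field_simp
  have hgx : Real.exp (Gx w M m x₀ X 0) ≤ CX w x₀ X := by
    have h10 := Px_le hw hE hM x₀ X
    rw [Px_exp (x₀ := x₀) hw hM X 0] at h10
    have h11 : Rw w M m x₀ 0 = 0 := by
      unfold Rw
      rw [mulVec_zero, H789.Rs_zero]
    rwa [h11, sub_zero] at h10
  set Δ0 := Real.log (CX w x₀ X) - Gx w M m x₀ X 0 with hΔ0
  have hΔ00 : 0 ≤ Δ0 := by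
    have := Real.log_le_log (Real.exp_pos _) hgx
    rw [Real.log_exp] at this
    rw [hΔ0]
    linarith
  have hgI0 : ∫ F in A, g F ^ 2 ∂ν ≤ Real.exp (8 * (2 * Δ0)) := by
    have h1 : ∫ F in A, g F ^ 2 ∂ν ≤ ∫ F, g F ^ 2 ∂ν :=
      setIntegral_le_integral ig2 (Filter.Eventually.of_forall fun F => sq_nonneg _)
    have h2 : ∫ F, g F ^ 2 ∂ν ≤ _ := integral_mono ig2 g1 hg2
    rw [g2] at h2
    have h3 : ∫ F, Real.exp (-R1 (w 0) M m x₀ F) ∂ν ≤ 1 := zR_le' hw hE hM x₀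
    have h4 : Real.exp (qf (An (w 0) M m x₀) ((4 : ℝ) • k) / 2) *
        ∫ F, Real.exp (-R1 (w 0) M m x₀ F) ∂ν ≤
        Real.exp (qf (An (w 0) M m x₀) ((4 : ℝ) • k) / 2) * 1 :=
      mul_le_mul_of_nonneg_left h3 (Real.exp_pos _).le
    have h5 := lX_var' hw hE hM x₀ X hk
    rw [Del_eq] at h5
    refine h1.trans (h2.trans (h4.trans ?_))
    rw [mul_one, qf_smul]
    refine Real.exp_le_exp.2 ?_
    linarith
  have h70 : (∫ F in A, f F * g F ∂ν) ^ 2 ≤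
      (Real.exp (K / 2) * CX w x₀ X * Real.exp (8 * Δ0)) ^ 2 := by
    refine hcs.trans ((mul_le_mul hK hgI0 (integral_nonneg fun F => sq_nonneg _)
      (by positivity)).trans (le_of_eq ?_))
    rw [mul_pow, mul_pow, ← Real.exp_nat_mul, ← Real.exp_nat_mul]
    push_cast
    rw [show 2 * (K / 2) = K by ring, show 2 * (8 * Δ0) = 8 * (2 * Δ0) by ring]
  have h80 : ∫ F in A, f F * g F ∂ν ≤
      Real.exp (K / 2) * CX w x₀ X * Real.exp (8 * Δ0) :=
    (le_abs_self _).trans (abs_le_of_sq_le_sq h70 (by positivity))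
  calc ∫ F in A, Px w M X F ^ 2 ∂ν ≤ Real.exp (Gx w M m x₀ X 0) * ∫ F in A, f F * g F ∂ν := h6
    _ ≤ Real.exp (Gx w M m x₀ X 0) * (Real.exp (K / 2) * CX w x₀ X *
        Real.exp (8 * Δ0)) := mul_le_mul_of_nonneg_left h80 (Real.exp_pos _).le
    _ = CX w x₀ X ^ 2 * Real.exp (K / 2 + 7 * Δ0) := by
        rw [h9]
        have : Real.exp (K / 2 + 7 * Δ0) = Real.exp (-Δ0) * (Real.exp (K / 2) *
            Real.exp (8 * Δ0)) := by
          rw [← Real.exp_add, ← Real.exp_add]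
          congr 1
          ring
        rw [this]
        ring
    _ ≤ _ := by
        rw [Del_eq, ← hΔ0] at hΔ
        exact mul_le_mul_of_nonneg_left (Real.exp_le_exp.2 (by linarith)) (sq_nonneg _)

/-- **transfer of events**: every event `E` -/
theorem QE (hw : GWF w) (hE : ∀ b x₀, EM (pin (w b) x₀)) (hM : MF M m) (x₀ : V)
    (X : B × (V → ℝ)) {r K Δ : ℝ}
    (hi : IntegrableOn (ES w M m x₀ X 4) (Ag w M m x₀ 4 r) (nuM (w 0) M x₀))
    (hK : ∫ F in Ag w M m x₀ 4 r, ES w M m x₀ X 4 F ∂(nuM (w 0) M x₀) ≤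
      Real.exp K * CX w x₀ X ^ 2)
    (hΔ : H856.Dl.Del w M m x₀ X.1 X.2 ≤ Δ)
    {E : Set (V → ℝ)} (hEm : MeasurableSet E) :
    ∫ F in E, Px w M X F ∂(nuM (w 0) M x₀) ≤
      ∫ F in (Ag w M m x₀ 4 r)ᶜ, Px w M X F ∂(nuM (w 0) M x₀) +
      CX w x₀ X * Real.exp (K / 4 + 7 * Δ / 2) *
        Real.sqrt ((nuM (w 0) M x₀).real E) := by
  have := prob0 hw hE hM x₀
  obtain ⟨h1, h2⟩ := sq_on hw hE hM x₀ X hi hK hΔ
  have hA := meas_Ag (x₀ := x₀) hw hE hM 4 r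
  have hCpos := CX_pos hw hE x₀ X
  obtain ⟨h3, -⟩ := Px_mean hw hE hM x₀ X
  have h4 := cs_on (cont_Px hw hE hM X).measurable hA h1 hEm
  have h5 : (∫ F in E ∩ Ag w M m x₀ 4 r, Px w M X F ∂(nuM (w 0) M x₀)) ^ 2 ≤
      (CX w x₀ X * Real.exp (K / 4 + 7 * Δ / 2) *
        Real.sqrt ((nuM (w 0) M x₀).real E)) ^ 2 := by
    refine h4.trans ((mul_le_mul_of_nonneg_right h2 measureReal_nonneg).trans (le_of_eq ?_))
    rw [mul_pow, mul_pow, Real.sq_sqrt measureReal_nonneg, ← Real.exp_nat_mul]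
    push_cast
    rw [show 2 * (K / 4 + 7 * Δ / 2) = K / 2 + 7 * Δ by ring]
  have h6 := (le_abs_self _).trans (abs_le_of_sq_le_sq h5 (by positivity))
  have hP0 : ∀ F, 0 ≤ Px w M X F := fun F => (Px_pos hw hM X F).le
  have h7 : ∫ F in E, Px w M X F ∂(nuM (w 0) M x₀) =
      ∫ F in E ∩ Ag w M m x₀ 4 r, Px w M X F ∂(nuM (w 0) M x₀) +
      ∫ F in E \ Ag w M m x₀ 4 r, Px w M X F ∂(nuM (w 0) M x₀) :=
    (integral_inter_add_sdiff hA h3.integrableOn).symm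
  have h8 : ∫ F in E \ Ag w M m x₀ 4 r, Px w M X F ∂(nuM (w 0) M x₀) ≤
      ∫ F in (Ag w M m x₀ 4 r)ᶜ, Px w M X F ∂(nuM (w 0) M x₀) :=
    setIntegral_mono_set h3.integrableOn (Filter.Eventually.of_forall fun F => hP0 F)
      (Filter.Eventually.of_forall fun F hF => hF.2)
  rw [h7]
  linarith

end

end Vale.Agent.P159.H552.Sm
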