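import Vale.Agent.P159.H552.Tl7
import Vale.Agent.P159.H253.Sm9

/-!
P159, helper552, module Tl8: far pairs. (SM), `Q(E)` with 253's constants.
-/

open MeasureTheory Filter Topology Finset Matrix

set_option linter.all false

namespace Vale.Agent.P159.H552.Sm

open Vale.Agent.P159 Vale.Agent.P159.TM.H331 Vale.Agent.P159.H773 Vale.Agent.P159.H253.Rec
open Vale.Agent.P159.H37
open Vale.Agent.P159.H770 (GWF wTD Ed wTD_zero gwf_wTD)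
open Vale.Agent.P159.H963 (GrI pin ntr nM MF GW An Anm)
open Vale.Agent.P159.H883
open Vale.Agent.P159.TM.Spec (V)
open Vale.Agent.P159.TM.SpecC (wT)

noncomputable section

variable {b : ℝ}

/-- the smeared family is 253's -/
lemma SS_wU {N : ℕ} [NeZero N] (X : (Ed N → ℤ) × (V N → ℝ)) (ρ : ℕ) :
    SS (wTD N b) 0 (pB ρ) (dB N X ρ) = SS (wTD N b) 0 (H253.Sm.wU ρ)
      (H253.Sm.dU N X.1 ρ fun u => trS (-H253.Sm.cz N u) X.2) := rfl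

/-- `√SS ≤ e^K CT²` for far pairs -/
theorem SS_sqrt_far (hb : 0 < b) {α C1 k : ℝ} (hα : 1 / 4 ≤ α) (hα2 : α < 1 / 2) (hC1 : 0 ≤ C1)
    (hk : 0 < k) :
    ∃ C : ℝ, 0 ≤ C ∧ ∀ (N : ℕ) [NeZero N] (L ρ R : ℕ) (η : Ed N → ℤ) (φ : V N → ℝ) (p q : V N),
      RecAt b α C1 R → R ≤ 2 * H817.sz (q - p) → H817.sz (q - p) ≤ 4 * R → 16 * R ≤ N →
      H817.IsPath p q (H817.v1 p q) (H817.v2 p q) L η → 1 ≤ ρ → 8 * ρ ≤ R →
      k * ga b R ≤ CT N b η →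
      Real.sqrt (SS (wTD N b) 0 (pB ρ) (dB N (η, φ) ρ)) ≤
        Real.exp (Real.log ((R : ℝ) / ρ) + C) * CT N b η ^ 2 := by
  obtain ⟨C, hC, h⟩ := H253.Sm.SS_far_exp (α := α) (C1 := C1) hb hα hα2 hC1 hk
  refine ⟨C, hC, fun N _ L ρ R η φ p q h1 h2 h3 h4 h5 h6 h7 h8 => ?_⟩
  have h9 := h N L ρ R η p q 0 (fun u => trS (-H253.Sm.cz N u) φ) φ h1 h2 h3 h4 h5 h6 h7 h8
  rw [SS_wU]
  refine Real.sqrt_le_iff.2 ⟨by have := CT_pos hb η; positivity, ?_⟩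
  refine h9.trans (le_of_eq ?_)
  rw [H253.Sm.CX_eq, mul_pow, ← pow_mul, ← Real.exp_nat_mul]
  push_cast
  rfl

/-- **(SM), far pair**: 856's `hSi`, `hS` with `K0 = log (R/ρ) + C + r/2` -/
theorem sm_far (hb : 0 < b) {α C1 k : ℝ} (hα : 1 / 4 ≤ α) (hα2 : α < 1 / 2) (hC1 : 0 ≤ C1)
    (hk : 0 < k) :
    ∃ C : ℝ, 0 ≤ C ∧ ∀ (N : ℕ) [NeZero N] (L ρ R : ℕ) (η : Ed N → ℤ) (φ : V N → ℝ) (p q : V N),
      RecAt b α C1 R → R ≤ 2 * H817.sz (q - p) → H817.sz (q - p) ≤ 4 * R → 16 * R ≤ N →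
      H817.IsPath p q (H817.v1 p q) (H817.v2 p q) L η → 1 ≤ ρ → 8 * ρ ≤ R →
      k * ga b R ≤ CT N b η → ∀ (t s r : ℝ), 0 < t →
      IntegrableOn (fun F => Real.exp (H883.gP (wTD N b) (t • 1) t 0 ((η, φ), s • F) +
        H883.gP (wTD N b) (t • 1) t 0 ((η, φ), -(s • F)))) (Ag (wTD N b) (t • 1) t 0 s r)
        (nuM (wTD N b 0) (t • 1) 0) ∧
      ∫ F in Ag (wTD N b) (t • 1) t 0 s r,
        Real.exp (H883.gP (wTD N b) (t • 1) t 0 ((η, φ), s • F) +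
          H883.gP (wTD N b) (t • 1) t 0 ((η, φ), -(s • F))) ∂(nuM (wTD N b 0) (t • 1) 0) ≤
        H856.Dl.CW (wTD N b) 0 η ^ 2 * Real.exp (Real.log ((R : ℝ) / ρ) + C + r / 2) := by
  obtain ⟨C, hC, h⟩ := SS_sqrt_far (C1 := C1) hb hα hα2 hC1 hk
  refine ⟨C, hC, fun N _ L ρ R η φ p q h1 h2 h3 h4 h5 h6 h7 h8 t s r ht => ?_⟩
  have h9 := h N L ρ R η φ p q h1 h2 h3 h4 h5 h6 h7 h8
  obtain ⟨s1, s2⟩ := sm_tor hb ht (η, φ) ρ s r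
  refine ⟨s1, s2.trans ?_⟩
  have e : H856.Dl.CW (wTD N b) 0 η = CT N b η := rfl
  rw [e]
  calc Real.sqrt (SS (wTD N b) 0 (pB ρ) (dB N (η, φ) ρ)) * Real.exp (r / 2) ≤
      (Real.exp (Real.log ((R : ℝ) / ρ) + C) * CT N b η ^ 2) * Real.exp (r / 2) :=
        mul_le_mul_of_nonneg_right h9 (Real.exp_pos _).le
    _ = _ := by
        rw [Real.exp_add (Real.log ((R : ℝ) / ρ) + C)]
        ring

/-- **`Q` of every event, far pair** -/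
theorem Q_far (hb : 0 < b) {α C1 k : ℝ} (hα : 1 / 4 ≤ α) (hα2 : α < 1 / 2) (hC1 : 0 ≤ C1)
    (hk : 0 < k) :
    ∃ C : ℝ, 0 ≤ C ∧ ∀ (N : ℕ) [NeZero N] (L ρ R : ℕ) (η : Ed N → ℤ) (φ : V N → ℝ) (p q : V N),
      RecAt b α C1 R → R ≤ 2 * H817.sz (q - p) → H817.sz (q - p) ≤ 4 * R → 16 * R ≤ N →
      H817.IsPath p q (H817.v1 p q) (H817.v2 p q) L η → 1 ≤ ρ → 8 * ρ ≤ R →
      k * ga b R ≤ CT N b η → ∀ (t r Δ : ℝ), 0 < t → 0 ≤ r → r ≤ 2 → 0 ≤ Δ →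
      H856.Dl.Del (wTD N b) (t • 1) t 0 η φ ≤ Δ → ∀ E : Set (V N → ℝ), MeasurableSet E →
      ∫ F in E, Psi (wT b N) (wTD N b η) (t • 1) φ F ∂(nuM (wT b N) (t • 1) 0) ≤
        CT N b η * (Real.exp (Real.log ((R : ℝ) / ρ) + C + 4 * Δ) *
          (Real.sqrt ((nuM (wT b N) (t • 1) 0).real (Ag (wTD N b) (t • 1) t 0 4 r)ᶜ) +
            Real.sqrt ((nuM (wT b N) (t • 1) 0).real E))) := by
  obtain ⟨C, hC, h⟩ := SS_sqrt_far (C1 := C1) hb hα hα2 hC1 hk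
  refine ⟨C + 1, by linarith, fun N _ L ρ R η φ p q h1 h2 h3 h4 h5 h6 h7 h8 t r Δ ht hr0 hr2 hΔ0 hΔ
    E hE => ?_⟩
  have h9 := h N L ρ R η φ p q h1 h2 h3 h4 h5 h6 h7 h8
  have h10 := Q_tor hb ht (η, φ) ρ hr0 h9 hΔ hE
  refine h10.trans (mul_le_mul_of_nonneg_left ?_ (CT_pos hb η).le)
  rw [mul_add]
  have hρ : (0 : ℝ) < ρ := by exact_mod_cast h6
  have hR1 : (1 : ℝ) ≤ (R : ℝ) / ρ := by
    rw [one_le_div hρ]
    have : ρ ≤ R := by omega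
    exact_mod_cast this
  have hl : 0 ≤ Real.log ((R : ℝ) / ρ) := Real.log_nonneg hR1
  refine add_le_add (mul_le_mul_of_nonneg_right (Real.exp_le_exp.2 (by linarith))
    (Real.sqrt_nonneg _)) (mul_le_mul_of_nonneg_right (Real.exp_le_exp.2 (by linarith))
    (Real.sqrt_nonneg _))

end

end Vale.Agent.P159.H552.Sm
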